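import Vale.Agent.P253W.WM.Syn

/-!
# P253W, block WM: the gauge is a Hilbert norm
-/

open Complex Metric Set Filter Topology
open scoped Matrix ComplexConjugate ComplexOrder ENNReal

noncomputable section

namespace Vale.Agent.P253W.WM

variable {ι : Type} [Fintype ι]

/-- the weight -/
def wt (N : ℝ) (k : ℕ) : ℝ := √(1 + (k : ℝ) ^ 2 / N ^ 2)

theorem wt_sq (N : ℝ) (k : ℕ) : wt N k ^ 2 = 1 + (k : ℝ) ^ 2 / N ^ 2 := Real.sq_sqrt (by positivity)

theorem wt_pos (N : ℝ) (k : ℕ) : 0 < wt N k := Real.sqrt_pos.2 (by positivity)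

/-- weighted coefficients -/
def co (N : ℝ) (f : ℂ → ι → ℂ) (p : ℕ × ι) : ℂ := (wt N p.1 : ℂ) * fc (fun τ => f τ p.2) p.1

theorem hasSum_prod_fin {F : ℕ × ι → ℝ} {a : ι → ℝ} (h : ∀ i, HasSum (fun k => F (k, i)) (a i)) :
    HasSum F (∑ i, a i) := by
  classical
  have h1 : ∀ i, HasSum (fun p : ℕ × ι => if p.2 = i then F p else 0) (a i) := fun i => by
    refine (Function.Injective.hasSum_iff (g := fun k : ℕ => (k, i))
      (fun a b hab => by simpa using hab) fun p hp => ?_).1 (by simpa [Function.comp_def] using h i)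
    rw [if_neg]
    rintro rfl
    exact hp ⟨p.1, rfl⟩
  have h2 := hasSum_sum (s := Finset.univ) fun i _ => h1 i
  simpa using h2

theorem hasSum_co (N : ℝ) {f : ℂ → ι → ℂ} (hf : HWv f) :
    HasSum (fun p => ‖co N f p‖ ^ 2) (gq N f) := by
  refine hasSum_prod_fin fun i => ?_
  have h := (hf i).da.hasSum_l2.add ((hf i).hasSum_en.div_const (N ^ 2))
  refine h.congr_fun fun k => ?_
  rw [co, norm_mul, mul_pow, Complex.norm_real, Real.norm_eq_abs, sq_abs, wt_sq]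
  ring

omit [Fintype ι] in
theorem memℓp_of_summable {y : ℕ × ι → ℂ} (h : Summable fun p => ‖y p‖ ^ 2) : Memℓp y 2 :=
  memℓp_gen (by simpa using h)

open Classical in
/-- the embedding -/
def emb (N : ℝ) (f : ℂ → ι → ℂ) : Hs ι :=
  if h : HWv f then ⟨co N f, memℓp_of_summable (hasSum_co N h).summable⟩ else 0

theorem emb_apply (N : ℝ) {f : ℂ → ι → ℂ} (hf : HWv f) (p : ℕ × ι) : emb N f p = co N f p := by
  rw [emb, dif_pos hf]

omit [Fintype ι] in
theorem hasSum_hs (y : Hs ι) : HasSum (fun p => ‖y p‖ ^ 2) (‖y‖ ^ 2) := by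
  have := lp.hasSum_norm (p := 2) (by simp) y
  simpa using this

theorem norm_emb (N : ℝ) {f : ℂ → ι → ℂ} (hf : HWv f) : ‖emb N f‖ ^ 2 = gq N f := by
  have h := hasSum_hs (emb N f)
  simp only [emb_apply N hf] at h
  exact h.unique (hasSum_co N hf)

theorem norm_emb' (N : ℝ) {f : ℂ → ι → ℂ} (hf : HWv f) : ‖emb N f‖ = √(gq N f) := by
  rw [← norm_emb N hf, Real.sqrt_sq (norm_nonneg _)]

theorem emb_sub (N : ℝ) {f g : ℂ → ι → ℂ} (hf : HWv f) (hg : HWv g) :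
    emb N (f - g) = emb N f - emb N g := by
  ext p
  rw [lp.coeFn_sub, Pi.sub_apply, emb_apply N (hf.sub hg), emb_apply N hf, emb_apply N hg, co, co,
    co, ← mul_sub, ← fc_sub (hf _).cs (hg _).cs]
  rfl

theorem emb_add (N : ℝ) {f g : ℂ → ι → ℂ} (hf : HWv f) (hg : HWv g) :
    emb N (f + g) = emb N f + emb N g := by
  ext p
  rw [lp.coeFn_add, Pi.add_apply, emb_apply N (hf.add hg), emb_apply N hf, emb_apply N hg, co, co,
    co, ← mul_add, ← fc_add (hf _).cs (hg _).cs]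
  rfl

omit [Fintype ι] in
theorem HWv.smul {f : ℂ → ι → ℂ} (hf : HWv f) (c : ℂ) : HWv (c • f) :=
  fun i => (hw_const c).mul (hf i)

theorem emb_smul (N : ℝ) (c : ℂ) {f : ℂ → ι → ℂ} (hf : HWv f) : emb N (c • f) = c • emb N f := by
  ext p
  rw [lp.coeFn_smul, Pi.smul_apply, emb_apply N (hf.smul c), emb_apply N hf, co, co, smul_eq_mul,
    mul_left_comm, ← fc_const_mul c]
  rfl

theorem emb_congr (N : ℝ) {f g : ℂ → ι → ℂ} (hf : HWv f) (hg : HWv g)
    (h : ∀ τ ∈ sphere (0 : ℂ) 1, f τ = g τ) : emb N f = emb N g := by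
  ext p
  rw [emb_apply N hf, emb_apply N hg, co, co,
    fc_congr (v := fun τ => g τ p.2) fun τ hτ => by rw [h τ hτ]]

/-- triangle inequality -/
theorem sqrt_gq_add_le (N : ℝ) {f g : ℂ → ι → ℂ} (hf : HWv f) (hg : HWv g) :
    √(gq N (f + g)) ≤ √(gq N f) + √(gq N g) := by
  rw [← norm_emb' N hf, ← norm_emb' N hg, ← norm_emb' N (hf.add hg), emb_add N hf hg]
  exact norm_add_le _ _

theorem sqrt_gq_sub_le (N : ℝ) {f g : ℂ → ι → ℂ} (hf : HWv f) (hg : HWv g) :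
    √(gq N (f - g)) ≤ √(gq N f) + √(gq N g) := by
  rw [← norm_emb' N hf, ← norm_emb' N hg, ← norm_emb' N (hf.sub hg), emb_sub N hf hg]
  exact norm_sub_le _ _

theorem gq_smul (N : ℝ) (c : ℂ) {f : ℂ → ι → ℂ} (hf : HWv f) :
    gq N (c • f) = ‖c‖ ^ 2 * gq N f := by
  rw [← norm_emb N hf, ← norm_emb N (hf.smul c), emb_smul N c hf, norm_smul, mul_pow]

theorem le_gq (N : ℝ) (f : ℂ → ι → ℂ) (i : ι) :
    l2 (fun τ => f τ i) + en (fun τ => f τ i) / N ^ 2 ≤ gq N f :=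
  Finset.single_le_sum (f := fun i => l2 (fun τ => f τ i) + en (fun τ => f τ i) / N ^ 2)
    (fun _ _ => add_nonneg (l2_nonneg _) (div_nonneg (en_nonneg _) (sq_nonneg _)))
    (Finset.mem_univ i)

theorem HWv.dqv_gq {N : ℝ} (hN : 0 < N) {f : ℂ → ι → ℂ} (hf : HWv f) :
    Dqv (N * √(gq N f)) f := fun i => by
  refine (hf i).w.dq_of_en_le (by positivity) ?_
  have h := le_gq N f i
  have h2 := l2_nonneg fun τ => f τ i
  rw [mul_pow, Real.sq_sqrt (gq_nonneg N f), mul_comm, ← div_le_iff₀ (by positivity)]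
  linarith

theorem HWv.norm_le_gq {N : ℝ} (hN : 0 < N) {f : ℂ → ι → ℂ} (hf : HWv f) {τ : ℂ}
    (hτ : τ ∈ closedBall (0 : ℂ) 1) (i : ι) : ‖f τ i‖ ≤ (1 + 2 * N) * √(gq N f) := by
  have h1 := (hf i).norm_sub_le (hf.dqv_gq hN i) hτ
  have h2 : ‖f 0 i‖ ≤ √(gq N f) := by
    refine Real.le_sqrt_of_sq_le ?_
    have a := le_hasSum (hf i).da.hasSum_l2 0 fun _ _ => sq_nonneg _
    rw [Nat.cast_zero, fc_zero, (hf i).da.av_eq] at a
    have b := le_gq N f i
    have c := div_nonneg (en_nonneg fun τ => f τ i) (sq_nonneg N)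
    linarith
  have h3 := norm_le_norm_add_norm_sub' (f τ i) (f 0 i)
  linarith

theorem gq_le {N : ℝ} {f : ℂ → ι → ℂ} {A B : ℝ} (hA : Dqv A f)
    (hB : ∀ τ ∈ sphere (0 : ℂ) 1, ∀ i, ‖f τ i‖ ≤ B) :
    gq N f ≤ Fintype.card ι * (B ^ 2 + A ^ 2 / N ^ 2) := by
  calc gq N f ≤ ∑ _i : ι, (B ^ 2 + A ^ 2 / N ^ 2) := Finset.sum_le_sum fun i _ =>
        add_le_add (l2_le (hA i).cs fun τ hτ => hB τ hτ i)
          (div_le_div_of_nonneg_right (hA i).en_le (sq_nonneg _))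
    _ = _ := by simp only [Finset.sum_const, Finset.card_univ, nsmul_eq_mul]

theorem sqrt_gq_le {N : ℝ} (hN : 0 < N) {f : ℂ → ι → ℂ} {A B : ℝ} (hA : Dqv A f)
    (hB : ∀ τ ∈ sphere (0 : ℂ) 1, ∀ i, ‖f τ i‖ ≤ B) :
    √(gq N f) ≤ Fintype.card ι * (B + A / N) := by
  rcases isEmpty_or_nonempty ι with h | ⟨⟨i⟩⟩
  · simp [gq]
  · have hA0 := (hA i).1
    have hB0 : 0 ≤ B := (norm_nonneg _).trans (hB _ (cm_mem 0) i)
    have hc : (1 : ℝ) ≤ Fintype.card ι := by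
      have : Nonempty ι := ⟨i⟩
      exact_mod_cast Fintype.card_pos
    refine Real.sqrt_le_iff.2 ⟨by positivity, (gq_le hA hB).trans ?_⟩
    rw [mul_pow, ← div_pow]
    have h1 : B ^ 2 + (A / N) ^ 2 ≤ (B + A / N) ^ 2 := by
      have : 0 ≤ B * (A / N) := by positivity
      nlinarith
    exact mul_le_mul (by nlinarith) h1 (by positivity) (by positivity)

theorem exists_emb_eq {N : ℝ} (hN : 0 < N) (y : Hs ι) : ∃ g, HWv g ∧ emb N g = y := by
  set c : ι → ℕ → ℂ := fun i k => y (k, i) / wt N k with hc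
  have hb : ∀ i (s : Finset ℕ), ∑ k ∈ s, (k : ℝ) ^ 2 * ‖c i k‖ ^ 2 ≤ (N * ‖y‖) ^ 2 := by
    intro i s
    have h1 := sum_le_hasSum (s.map ⟨fun k => (k, i), fun a b hab => by simpa using hab⟩)
      (fun _ _ => sq_nonneg _) (hasSum_hs y)
    rw [Finset.sum_map] at h1
    replace h1 : ∑ k ∈ s, ‖y (k, i)‖ ^ 2 ≤ ‖y‖ ^ 2 := h1
    rw [mul_pow]
    refine le_trans ?_ (mul_le_mul_of_nonneg_left h1 (sq_nonneg N))
    rw [Finset.mul_sum]
    refine Finset.sum_le_sum fun k _ => ?_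
    simp only [hc, norm_div, Complex.norm_real, Real.norm_eq_abs, div_pow, sq_abs, wt_sq]
    rw [← mul_div_assoc, div_le_iff₀ (by positivity)]
    have e : N ^ 2 * ‖y (k, i)‖ ^ 2 * (1 + (k : ℝ) ^ 2 / N ^ 2) =
        (N ^ 2 + (k : ℝ) ^ 2) * ‖y (k, i)‖ ^ 2 := by field_simp
    rw [e]
    have := sq_nonneg N
    gcongr
    linarith
  have hg : HWv fun τ i => syn (c i) τ := fun i => hw_syn (by positivity) (hb i)
  refine ⟨_, hg, ?_⟩
  ext p
  rw [emb_apply N hg, co, fc_syn (sob (by positivity) (hb p.2)).1, hc]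
  have : (wt N p.1 : ℂ) ≠ 0 := by exact_mod_cast (wt_pos N p.1).ne'
  field_simp

theorem emb_spec : EMB := fun _ _ N hN =>
  ⟨emb N, fun _ _ => emb_sub N, fun c _ => emb_smul N c, fun _ => norm_emb N,
    fun _ _ hf hg h => emb_congr N hf hg fun _ hτ => h (sphere_subset_closedBall hτ),
    exists_emb_eq hN,
    fun _ hf => by
      rw [norm_emb' N hf]
      exact ⟨hf.dqv_gq hN, fun _ hτ i => hf.norm_le_gq hN hτ i⟩,
    fun _ _ _ hf hA hB => by
      rw [norm_emb' N hf]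
      exact sqrt_gq_le hN hA hB⟩

theorem bpw (h2 : BPA) : BPW := by
  intro ι _ X Y F N ε lam x1 hN hε hl hY h1 hc
  obtain ⟨x, y, a1, a2, a3, a4⟩ := h2 (Hs ι) X (fun x => emb N (Y x)) F ε lam x1 hε hl h1 (by
    intro x y hx hy
    obtain ⟨g, hg, rfl⟩ := exists_emb_eq hN y
    obtain ⟨B, hB⟩ := hy.norm.bddAbove_range
    obtain ⟨x', e, hx'⟩ := hc x g (N * B) hx hg (fun k i => ((hY (x k)).dqv_gq hN i).mono (by
      rw [← norm_emb' N (hY _)]
      exact mul_le_mul_of_nonneg_left (hB (mem_range_self k)) hN.le)) (by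
      rw [Metric.tendstoUniformlyOn_iff]
      intro e he
      have h3 := (tendsto_iff_norm_sub_tendsto_zero.1 hy).const_mul (1 + 2 * N)
      rw [mul_zero] at h3
      filter_upwards [h3.eventually (gt_mem_nhds he)] with k hk τ hτ
      rw [dist_comm, dist_eq_norm]
      refine lt_of_le_of_lt ((pi_norm_le_iff_of_nonneg (by positivity)).2 fun i => ?_) hk
      have := ((hY (x k)).sub hg).norm_le_gq hN hτ i
      rwa [← norm_emb' N ((hY _).sub hg), emb_sub N (hY _) hg] at this)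
    exact ⟨x', emb_congr N (hY _) hg fun _ hτ => e (sphere_subset_closedBall hτ), hx'⟩)
  obtain ⟨g, hg, rfl⟩ := exists_emb_eq hN y
  simp only [← emb_sub N (hY _) hg, ← emb_sub N (hY _) (hY _), norm_emb N ((hY _).sub hg),
    norm_emb N ((hY _).sub (hY _))] at a2 a3 a4
  exact ⟨x, g, hg, a1, a2, a3, a4⟩

end Vale.Agent.P253W.WM
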