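import Vale.Agent.P253W.WM.Defs2

/-!
# P253W, block WM: Fourier coefficients
-/

open Complex Metric Set Filter Topology MeasureTheory
open scoped Matrix ComplexConjugate ComplexOrder

noncomputable section

namespace Vale.Agent.P253W.WM

theorem ne_zero_of_mem {τ : ℂ} (hτ : τ ∈ sphere (0 : ℂ) 1) : τ ≠ 0 := by
  rintro rfl
  simp at hτ

theorem norm_of_mem {τ : ℂ} (hτ : τ ∈ sphere (0 : ℂ) 1) : ‖τ‖ = 1 := by simpa using hτ

theorem cs_zpow (k : ℤ) : ContinuousOn (fun τ : ℂ => τ ^ k) (sphere 0 1) :=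
  continuousOn_id.zpow₀ k fun _ hτ => Or.inl (ne_zero_of_mem hτ)

theorem norm_zpow_of_mem {τ : ℂ} (hτ : τ ∈ sphere (0 : ℂ) 1) (k : ℤ) : ‖τ ^ k‖ = 1 := by
  rw [norm_zpow, norm_of_mem hτ, one_zpow]

theorem conj_of_mem {τ : ℂ} (hτ : τ ∈ sphere (0 : ℂ) 1) : conj τ = τ⁻¹ :=
  (Complex.inv_eq_conj (norm_of_mem hτ)).symm

theorem cs_conj {u : ℂ → ℂ} (hu : ContinuousOn u (sphere 0 1)) :
    ContinuousOn (fun τ => conj (u τ)) (sphere 0 1) :=
  Complex.continuous_conj.comp_continuousOn hu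

theorem pars : PARS := by
  intro u hu
  have hc : Continuous fun θ : ℝ => u (circleMap 0 1 θ) :=
    hu.comp_continuous (continuous_circleMap 0 1) cm_mem
  have hL : MemLp (fun θ : ℝ => u (circleMap 0 1 θ)) 2 (volume.restrict (Ioc 0 (2 * Real.pi))) := by
    obtain ⟨a, -, ha⟩ := exists_bound_cs hu
    exact MemLp.of_bound hc.aestronglyMeasurable a (Eventually.of_forall fun θ => ha _ (cm_mem θ))
  have h := hasSum_sq_fourierCoeffOn Real.two_pi_pos hL
  have e : ∀ k : ℤ, fourierCoeffOn Real.two_pi_pos (fun θ : ℝ => u (circleMap 0 1 θ)) k = fc u k := by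
    intro k
    rw [fourierCoeffOn_eq_integral, fc, av, Real.circleAverage, sub_zero, one_div]
    congr 1
    refine intervalIntegral.integral_congr fun θ _ => ?_
    simp only [fourier_coe_apply, smul_eq_mul]
    rw [mul_comm]
    congr 1
    simp only [circleMap, zero_add, Complex.ofReal_one, one_mul]
    rw [← Complex.exp_int_mul]
    congr 1
    have : (Real.pi : ℂ) ≠ 0 := by exact_mod_cast Real.pi_ne_zero
    push_cast
    field_simp
  simp only [e, sub_zero] at h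
  exact h

theorem l2_nonneg (u : ℂ → ℂ) : 0 ≤ l2 u := by
  unfold l2
  exact av_nonneg fun _ _ => by positivity

theorem en_nonneg (u : ℂ → ℂ) : 0 ≤ en u := tsum_nonneg fun _ => by positivity

theorem gq_nonneg {ι : Type*} [Fintype ι] (N : ℝ) (f : ℂ → ι → ℂ) : 0 ≤ gq N f :=
  Finset.sum_nonneg fun _ _ => add_nonneg (l2_nonneg _) (div_nonneg (en_nonneg _) (sq_nonneg _))

theorem fc_congr {u v : ℂ → ℂ} (h : ∀ τ ∈ sphere (0 : ℂ) 1, u τ = v τ) (k : ℤ) :
    fc u k = fc v k := by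
  unfold fc
  exact av_congr fun τ hτ => by rw [h τ hτ]

theorem l2_congr {u v : ℂ → ℂ} (h : ∀ τ ∈ sphere (0 : ℂ) 1, u τ = v τ) : l2 u = l2 v := by
  unfold l2
  exact av_congr fun τ hτ => by rw [h τ hτ]

theorem en_congr {u v : ℂ → ℂ} (h : ∀ τ ∈ sphere (0 : ℂ) 1, u τ = v τ) : en u = en v := by
  simp only [en, fc_congr h]

theorem gq_congr {ι : Type*} [Fintype ι] (N : ℝ) {f g : ℂ → ι → ℂ}
    (h : ∀ τ ∈ sphere (0 : ℂ) 1, f τ = g τ) : gq N f = gq N g := by
  refine Finset.sum_congr rfl fun i _ => ?_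
  rw [l2_congr (v := fun τ => g τ i) fun τ hτ => by rw [h τ hτ],
    en_congr (v := fun τ => g τ i) fun τ hτ => by rw [h τ hτ]]

theorem fc_zero (u : ℂ → ℂ) : fc u 0 = av u := by simp [fc]

theorem fc_add {u v : ℂ → ℂ} (hu : ContinuousOn u (sphere 0 1)) (hv : ContinuousOn v (sphere 0 1))
    (k : ℤ) : fc (fun τ => u τ + v τ) k = fc u k + fc v k := by
  simp only [fc, add_mul]
  exact av_add (hu.mul (cs_zpow _)) (hv.mul (cs_zpow _))

theorem fc_sub {u v : ℂ → ℂ} (hu : ContinuousOn u (sphere 0 1)) (hv : ContinuousOn v (sphere 0 1))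
    (k : ℤ) : fc (fun τ => u τ - v τ) k = fc u k - fc v k := by
  simp only [fc, sub_mul]
  exact av_sub (hu.mul (cs_zpow _)) (hv.mul (cs_zpow _))

theorem fc_const_mul (c : ℂ) (u : ℂ → ℂ) (k : ℤ) : fc (fun τ => c * u τ) k = c * fc u k := by
  simp only [fc, mul_assoc]
  exact av_mul_complex c _

theorem fc_rt (u : ℂ → ℂ) (h : ℝ) (k : ℤ) :
    fc (fun τ => u (rt h τ)) k = Complex.exp (k * h * I) * fc u k := by
  rw [fc, fc, ← av_mul_complex, ← av_rt (fun τ => Complex.exp (k * h * I) * (u τ * τ ^ (-k))) h]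
  refine av_congr fun τ _ => ?_
  have e : Complex.exp (k * h * I) * Complex.exp (h * I) ^ (-k) = 1 := by
    rw [← Complex.exp_int_mul, ← Complex.exp_add]
    have : (k : ℂ) * h * I + ((-k : ℤ) : ℂ) * (h * I) = 0 := by push_cast; ring
    rw [this, Complex.exp_zero]
  simp only [rt, mul_zpow]
  linear_combination (-(u (Complex.exp (h * I) * τ) * τ ^ (-k))) * e

theorem fc_conj {u : ℂ → ℂ} (hu : ContinuousOn u (sphere 0 1)) (k : ℤ) :
    fc (fun τ => conj (u τ)) k = conj (fc u (-k)) := by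
  rw [fc, fc, ← av_conj (u := fun τ => u τ * τ ^ (- -k)) (hu.mul (cs_zpow _))]
  refine av_congr fun τ hτ => ?_
  simp only [map_mul, map_zpow₀, conj_of_mem hτ, neg_neg, inv_zpow']

theorem DA.fc_neg {f : ℂ → ℂ} (hf : DA f) {k : ℤ} (hk : k < 0) : fc f k = 0 := by
  obtain ⟨m, hm⟩ : ∃ m : ℕ, -k = (m + 1 : ℕ) := ⟨(-k - 1).toNat, by omega⟩
  simp only [fc, hm, zpow_natCast]
  rw [(hf.mul (da_id.pow (m + 1))).av_eq]
  simp

theorem av_zpow {k : ℤ} (hk : k ≠ 0) : av (fun τ : ℂ => τ ^ k) = 0 := by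
  have key : ∀ k : ℤ, 0 < k → av (fun τ : ℂ => τ ^ k) = 0 := fun k hk => by
    have := (da_const 1).fc_neg (k := -k) (by omega)
    simpa [fc] using this
  rcases lt_or_gt_of_ne hk with h | h
  · have h1 := av_conj (cs_zpow (-k))
    rw [key (-k) (by omega), map_zero] at h1
    rw [← h1]
    refine av_congr fun τ hτ => ?_
    simp only [map_zpow₀, conj_of_mem hτ, inv_zpow', neg_neg]
  · exact key k h

theorem fc_zpow (j k : ℤ) : fc (fun τ : ℂ => τ ^ j) k = if j = k then 1 else 0 := by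
  have e : fc (fun τ : ℂ => τ ^ j) k = av fun τ : ℂ => τ ^ (j - k) := by
    unfold fc
    exact av_congr fun τ hτ => by rw [sub_eq_add_neg, zpow_add₀ (ne_zero_of_mem hτ)]
  rw [e]
  split_ifs with h
  · simp [h, av_const]
  · exact av_zpow (sub_ne_zero.2 h)

theorem eq_zero_of_av {u : ℂ → ℝ} (hu : ContinuousOn u (sphere 0 1))
    (h0 : ∀ τ ∈ sphere (0 : ℂ) 1, 0 ≤ u τ) (h : av u ≤ 0) : ∀ τ ∈ sphere (0 : ℂ) 1, u τ = 0 := by
  intro τ hτ
  by_contra hne
  have hpos : 0 < u τ := lt_of_le_of_ne (h0 τ hτ) (Ne.symm hne)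
  obtain ⟨θ, rfl⟩ := exists_cm hτ
  have hc : Continuous fun x : ℝ => u (circleMap 0 1 (x + θ)) :=
    hu.comp_continuous ((continuous_circleMap 0 1).comp (by fun_prop)) fun _ => cm_mem _
  have h1 := intervalIntegral.integral_lt_integral_of_continuousOn_of_le_of_exists_lt
    (f := fun _ => (0 : ℝ)) (g := fun x : ℝ => u (circleMap 0 1 (x + θ))) Real.two_pi_pos
    continuousOn_const hc.continuousOn (fun x _ => h0 _ (cm_mem _))
    ⟨0, ⟨le_rfl, Real.two_pi_pos.le⟩, by simpa using hpos⟩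
  rw [av, Real.circleAverage_eq_integral_add θ, smul_eq_mul] at h
  simp only [intervalIntegral.integral_zero] at h1
  have := mul_pos (inv_pos.2 Real.two_pi_pos) h1
  linarith

/-- uniqueness -/
theorem eq_of_fc {u v : ℂ → ℂ} (hu : ContinuousOn u (sphere 0 1))
    (hv : ContinuousOn v (sphere 0 1)) (h : ∀ k, fc u k = fc v k) :
    ∀ τ ∈ sphere (0 : ℂ) 1, u τ = v τ := by
  have h1 := pars _ (hu.sub hv)
  have h2 : ∀ k, fc (u - v) k = 0 := fun k => by
    have := fc_sub hu hv k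
    rw [h k, sub_self] at this
    exact this
  simp only [h2, norm_zero, ne_eq, OfNat.ofNat_ne_zero, not_false_eq_true, zero_pow] at h1
  have h3 := eq_zero_of_av (u := fun τ => ‖(u - v) τ‖ ^ 2) ((hu.sub hv).norm.pow 2)
    (fun _ _ => by positivity)
    (hasSum_zero.unique h1).ge
  intro τ hτ
  have := h3 τ hτ
  simpa [sub_eq_zero] using this

/-- termwise integration -/
theorem hasSum_av {ι : Type*} [Countable ι] {f : ι → ℂ → ℂ} {a : ι → ℝ} (ha : Summable a)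
    (hf : ∀ i, ContinuousOn (f i) (sphere 0 1))
    (hb : ∀ i, ∀ τ ∈ sphere (0 : ℂ) 1, ‖f i τ‖ ≤ a i) :
    HasSum (fun i => av (f i)) (av fun τ => ∑' i, f i τ) := by
  refine HasSum.const_smul _ ?_
  refine intervalIntegral.hasSum_integral_of_dominated_convergence (fun i _ => a i)
    (fun i => ((hf i).comp_continuous (continuous_circleMap 0 1) cm_mem).aestronglyMeasurable)
    (fun i => Eventually.of_forall fun θ _ => hb i _ (cm_mem θ))
    (Eventually.of_forall fun _ _ => ha) intervalIntegrable_const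
    (Eventually.of_forall fun θ _ => (ha.of_norm_bounded fun i => hb i _ (cm_mem θ)).hasSum)

theorem fc_tsum {ι : Type*} [Countable ι] {c : ι → ℂ} (e : ι → ℤ) (hc : Summable fun i => ‖c i‖)
    (k : ℤ) : HasSum (fun i => if e i = k then c i else 0)
      (fc (fun τ => ∑' i, c i * τ ^ e i) k) := by
  have h := hasSum_av (f := fun i τ => c i * τ ^ e i * τ ^ (-k)) hc
    (fun i => (continuousOn_const.mul (cs_zpow _)).mul (cs_zpow _)) fun i τ hτ => by
      rw [norm_mul, norm_mul, norm_zpow_of_mem hτ, norm_zpow_of_mem hτ, mul_one, mul_one]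
  have e1 : ∀ i, av (fun τ => c i * τ ^ e i * τ ^ (-k)) = if e i = k then c i else 0 := fun i => by
    have := fc_const_mul (c i) (fun τ => τ ^ e i) k
    rw [fc_zpow, mul_ite, mul_one, mul_zero] at this
    exact this
  simp only [e1, tsum_mul_right] at h
  exact h

/-- pointwise expansion -/
theorem hasSum_fc {u : ℂ → ℂ} (hu : ContinuousOn u (sphere 0 1))
    (hs : Summable fun k => ‖fc u k‖) {τ : ℂ} (hτ : τ ∈ sphere (0 : ℂ) 1) :
    HasSum (fun k : ℤ => fc u k * τ ^ k) (u τ) := by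
  have hb : ∀ (k : ℤ), ∀ τ ∈ sphere (0 : ℂ) 1, ‖fc u k * τ ^ k‖ ≤ ‖fc u k‖ := fun k τ hτ => by
    rw [norm_mul, norm_zpow_of_mem hτ, mul_one]
  have hc : ContinuousOn (fun τ : ℂ => ∑' k : ℤ, fc u k * τ ^ k) (sphere 0 1) :=
    continuousOn_tsum (fun k => continuousOn_const.mul (cs_zpow k)) hs hb
  rw [eq_of_fc hu hc (fun k => ?_) τ hτ]
  · exact (hs.of_norm_bounded fun k => hb k τ hτ).hasSum
  · have h1 := fc_tsum (c := fc u) id hs k
    have h2 : HasSum (fun i => if id i = k then fc u i else 0) (fc u k) := by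
      have := hasSum_single (f := fun i => if id i = k then fc u i else 0) k fun i hi => by
        simp [hi]
      simpa using this
    exact h2.unique h1

/-- polarised Parseval -/
theorem hasSum_fc_mul_conj {u v : ℂ → ℂ} (hu : ContinuousOn u (sphere 0 1))
    (hv : ContinuousOn v (sphere 0 1)) :
    HasSum (fun k : ℤ => fc u k * conj (fc v k)) (av fun τ => u τ * conj (v τ)) := by
  have pol : ∀ x y : ℂ, x * conj y = (((‖x + y‖ ^ 2 : ℝ) : ℂ) - ((‖x - y‖ ^ 2 : ℝ) : ℂ) +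
      I * ((‖x + I * y‖ ^ 2 : ℝ) : ℂ) - I * ((‖x - I * y‖ ^ 2 : ℝ) : ℂ)) / 4 := by
    intro x y
    simp only [← Complex.normSq_eq_norm_sq, Complex.normSq_eq_conj_mul_self, map_add, map_sub,
      map_mul, Complex.conj_I]
    linear_combination ((1 / 2) * x * conj y - (1 / 2) * y * conj x) * I_mul_I
  have hI : ContinuousOn (fun τ => I * v τ) (sphere 0 1) := continuousOn_const.mul hv
  have h1 := Complex.hasSum_ofReal.2 (pars _ (hu.add hv))
  have h2 := Complex.hasSum_ofReal.2 (pars _ (hu.sub hv))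
  have h3 := Complex.hasSum_ofReal.2 (pars _ (hu.add hI))
  have h4 := Complex.hasSum_ofReal.2 (pars _ (hu.sub hI))
  have h5 := (((h1.sub h2).add (h3.mul_left I)).sub (h4.mul_left I)).div_const 4
  have c1 : ∀ w : ℂ → ℂ, ContinuousOn w (sphere 0 1) →
      ContinuousOn (fun τ => ((‖w τ‖ ^ 2 : ℝ) : ℂ)) (sphere 0 1) := fun w hw =>
    Complex.continuous_ofReal.comp_continuousOn (hw.norm.pow 2)
  have e1 : ∀ w : ℂ → ℂ, ContinuousOn w (sphere 0 1) →
      ((l2 w : ℝ) : ℂ) = av fun τ => ((‖w τ‖ ^ 2 : ℝ) : ℂ) := fun w hw =>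
    (av_ofReal (hw.norm.pow 2)).symm
  have f1 : (fun k : ℤ => fc u k * conj (fc v k)) = fun k =>
      (((‖fc (u + v) k‖ ^ 2 : ℝ) : ℂ) - ((‖fc (u - v) k‖ ^ 2 : ℝ) : ℂ) +
        I * ((‖fc (u + fun τ => I * v τ) k‖ ^ 2 : ℝ) : ℂ) -
        I * ((‖fc (u - fun τ => I * v τ) k‖ ^ 2 : ℝ) : ℂ)) / 4 := by
    funext k
    rw [pol]
    have a1 : fc (u + v) k = fc u k + fc v k := fc_add hu hv k
    have a2 : fc (u - v) k = fc u k - fc v k := fc_sub hu hv k
    have a3 : fc (u + fun τ => I * v τ) k = fc u k + I * fc v k := by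
      rw [← fc_const_mul]; exact fc_add hu hI k
    have a4 : fc (u - fun τ => I * v τ) k = fc u k - I * fc v k := by
      rw [← fc_const_mul]; exact fc_sub hu hI k
    rw [a1, a2, a3, a4]
  have f2 : (av fun τ => u τ * conj (v τ)) = (((l2 (u + v) : ℝ) : ℂ) - ((l2 (u - v) : ℝ) : ℂ) +
      I * ((l2 (u + fun τ => I * v τ) : ℝ) : ℂ) - I * ((l2 (u - fun τ => I * v τ) : ℝ) : ℂ)) / 4 := by
    have d1 := c1 _ (hu.add hv)
    have d2 := c1 _ (hu.sub hv)
    have d3 := c1 _ (hu.add hI)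
    have d4 := c1 _ (hu.sub hI)
    rw [e1 _ (hu.add hv), e1 _ (hu.sub hv), e1 _ (hu.add hI), e1 _ (hu.sub hI), ← av_mul_complex,
      ← av_mul_complex, ← av_sub d1 d2, ← av_add (d1.fun_sub d2) (continuousOn_const.fun_mul d3),
      ← av_sub ((d1.fun_sub d2).fun_add (continuousOn_const.fun_mul d3))
        (continuousOn_const.fun_mul d4),
      div_eq_inv_mul, ← av_mul_complex]
    refine av_congr fun τ _ => ?_
    rw [pol, div_eq_inv_mul]
    rfl
  rw [f1, f2]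
  exact h5

theorem hasSum_rot {u : ℂ → ℂ} (hu : ContinuousOn u (sphere 0 1)) (h : ℝ) :
    HasSum (fun k : ℤ => ‖Complex.exp (k * h * I) - 1‖ ^ 2 * ‖fc u k‖ ^ 2)
      (av fun τ => dist (u (rt h τ)) (u τ) ^ 2) := by
  have h1 := pars (fun τ => u (rt h τ) - u τ) ((cs_rt hu h).sub hu)
  simp only [fc_sub (cs_rt hu h) hu, fc_rt, l2, ← dist_eq_norm (u (rt h _))] at h1
  convert h1 using 2 with k
  rw [← mul_pow, ← norm_mul]
  congr 2
  ring

theorem norm_exp_sub_one_le (x : ℝ) : ‖Complex.exp (x * I) - 1‖ ≤ |x| := by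
  have := Real.norm_exp_I_mul_ofReal_sub_one_le (x := x)
  rwa [mul_comm I, Real.norm_eq_abs] at this

theorem tendsto_slope_exp (k : ℝ) :
    Tendsto (fun h : ℝ => (Complex.exp (k * h * I) - 1) / h) (𝓝[≠] 0) (𝓝 (k * I)) := by
  have h1 : HasDerivAt (fun h : ℝ => Complex.exp (k * h * I)) (k * I) 0 := by
    have h2 : HasDerivAt (fun h : ℂ => Complex.exp (k * h * I)) (k * I) ((0 : ℝ) : ℂ) := by
      have := (((hasDerivAt_id ((0 : ℝ) : ℂ)).const_mul (k : ℂ)).mul_const I).cexp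
      simpa using this
    exact h2.comp_ofReal
  have h3 := hasDerivAt_iff_tendsto_slope_zero.1 h1
  refine h3.congr fun h => ?_
  simp [div_eq_inv_mul]

theorem enq : ENQ := by
  intro u A
  constructor
  · intro hu
    have key : ∀ s : Finset ℤ, ∑ k ∈ s, (k : ℝ) ^ 2 * ‖fc u k‖ ^ 2 ≤ A ^ 2 := by
      intro s
      have h1 : Tendsto (fun h : ℝ => ∑ k ∈ s,
          ‖(Complex.exp (((k : ℝ) : ℂ) * h * I) - 1) / h‖ ^ 2 * ‖fc u k‖ ^ 2) (𝓝[≠] 0)
          (𝓝 (∑ k ∈ s, ‖((k : ℝ) : ℂ) * I‖ ^ 2 * ‖fc u k‖ ^ 2)) :=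
        tendsto_finsetSum _ fun k _ => ((tendsto_slope_exp k).norm.pow 2).mul_const _
      simp only [norm_mul, Complex.norm_real, Complex.norm_I, mul_one, Real.norm_eq_abs,
        sq_abs] at h1
      refine le_of_tendsto h1 (eventually_nhdsWithin_of_forall fun h hh => ?_)
      have hh' : (0 : ℝ) < h ^ 2 := by have : h ≠ 0 := hh; positivity
      have h2 := (sum_le_hasSum s (fun k _ => by positivity) (hasSum_rot hu.cs h)).trans (hu.le h)
      simp only [norm_div, Complex.norm_real, Real.norm_eq_abs, div_pow, sq_abs,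
        Complex.ofReal_intCast, div_mul_eq_mul_div]
      rw [← Finset.sum_div, div_le_iff₀ hh', ← mul_pow]
      exact h2
    exact ⟨hu.1, hu.cs, summable_of_sum_le (fun _ => by positivity) key,
      Real.tsum_le_of_sum_le (fun _ => by positivity) key⟩
  · rintro ⟨hA, hu, hs, he⟩
    refine ⟨hA, hu, fun h => ?_⟩
    have h1 := hasSum_le (fun k => ?_) (hasSum_rot hu h) (hs.hasSum.mul_left (h ^ 2))
    · refine h1.trans ?_
      rw [mul_pow, mul_comm]
      exact mul_le_mul_of_nonneg_right he (sq_nonneg _)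
    · have h2 := norm_exp_sub_one_le (k * h)
      push_cast at h2
      rw [← mul_assoc, ← mul_pow h, ← sq_abs (h * k), mul_comm h]
      gcongr

theorem Dq.en_le {A : ℝ} {u : ℂ → ℂ} (hu : Dq A u) : en u ≤ A ^ 2 := ((enq u A).1 hu).2.2.2

theorem W12.summable {u : ℂ → ℂ} (hu : W12 u) :
    Summable fun k : ℤ => (k : ℝ) ^ 2 * ‖fc u k‖ ^ 2 := ((enq u _).1 hu.choose_spec).2.2.1

theorem W12.dq_of_en_le {u : ℂ → ℂ} (hu : W12 u) {A : ℝ} (hA : 0 ≤ A) (h : en u ≤ A ^ 2) :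
    Dq A u := (enq u A).2 ⟨hA, hu.cs, hu.summable, h⟩

theorem W12.dq_sqrt {u : ℂ → ℂ} (hu : W12 u) : Dq (√(en u)) u :=
  hu.dq_of_en_le (Real.sqrt_nonneg _) (Real.sq_sqrt (en_nonneg u)).ge

theorem HW.dq_sqrt {u : ℂ → ℂ} (hu : HW u) : Dq (√(en u)) u := hu.w.dq_sqrt

theorem l2_rt (u : ℂ → ℂ) (h : ℝ) : l2 (fun τ => u (rt h τ)) = l2 u :=
  av_rt (fun τ => ‖u τ‖ ^ 2) h

theorem en_rt (u : ℂ → ℂ) (h : ℝ) : en (fun τ => u (rt h τ)) = en u := by
  refine tsum_congr fun k => ?_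
  have : ‖Complex.exp (k * h * I)‖ = 1 := by
    simpa using Complex.norm_exp_ofReal_mul_I (k * h)
  rw [fc_rt, norm_mul, this, one_mul]

theorem gq_rt {ι : Type*} [Fintype ι] (N : ℝ) (f : ℂ → ι → ℂ) (h : ℝ) :
    gq N (fun τ => f (rt h τ)) = gq N f :=
  Finset.sum_congr rfl fun i _ => by rw [l2_rt (fun τ => f τ i), en_rt (fun τ => f τ i)]

theorem l2_le {u : ℂ → ℂ} {B : ℝ} (hu : ContinuousOn u (sphere 0 1))
    (h : ∀ τ ∈ sphere (0 : ℂ) 1, ‖u τ‖ ≤ B) : l2 u ≤ B ^ 2 :=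
  av_le_const (hu.norm.pow 2) fun τ hτ => pow_le_pow_left₀ (norm_nonneg _) (h τ hτ) 2

/-- Sobolev embedding for sequences -/
theorem sob {c : ℕ → ℂ} {A : ℝ} (hA : 0 ≤ A)
    (h : ∀ s : Finset ℕ, ∑ k ∈ s, (k : ℝ) ^ 2 * ‖c k‖ ^ 2 ≤ A ^ 2) :
    Summable (fun k => ‖c k‖) ∧ ∑' k, ‖c (k + 1)‖ ≤ 2 * A := by
  have hz : ∀ s : Finset ℕ, ∑ k ∈ s, (1 / ((k + 1 : ℕ) : ℝ)) ^ 2 ≤ 2 ^ 2 := by
    intro s
    have h1 := (hasSum_nat_add_iff' 1).2 hasSum_zeta_two
    have h2 := sum_le_hasSum s (fun k _ => by positivity) h1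
    simp only [Finset.range_one, Finset.sum_singleton, Nat.cast_zero, ne_eq, OfNat.ofNat_ne_zero,
      not_false_eq_true, zero_pow, div_zero, sub_zero] at h2
    simp only [div_pow, one_pow]
    have := Real.pi_le_four
    have := Real.pi_pos
    nlinarith
  have key : ∀ s : Finset ℕ, ∑ k ∈ s, ‖c (k + 1)‖ ≤ 2 * A := by
    intro s
    have h1 := Finset.sum_mul_sq_le_sq_mul_sq s (fun k => 1 / ((k + 1 : ℕ) : ℝ))
      fun k => ((k + 1 : ℕ) : ℝ) * ‖c (k + 1)‖
    have h2 : ∑ k ∈ s, (((k + 1 : ℕ) : ℝ) * ‖c (k + 1)‖) ^ 2 ≤ A ^ 2 := by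
      have := h (s.map ⟨fun k => k + 1, fun a b hab => by simpa using hab⟩)
      rw [Finset.sum_map] at this
      simp only [mul_pow]
      exact this
    have h3 : ∑ k ∈ s, 1 / ((k + 1 : ℕ) : ℝ) * (((k + 1 : ℕ) : ℝ) * ‖c (k + 1)‖) =
        ∑ k ∈ s, ‖c (k + 1)‖ := Finset.sum_congr rfl fun k _ => by field_simp
    rw [h3] at h1
    refine (pow_le_pow_iff_left₀ (Finset.sum_nonneg fun _ _ => norm_nonneg _) (by positivity)
      two_ne_zero).1 (h1.trans ?_)
    rw [mul_pow]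
    exact mul_le_mul (hz s) h2 (Finset.sum_nonneg fun _ _ => sq_nonneg _) (by positivity)
  exact ⟨(summable_nat_add_iff 1).1 (summable_of_sum_le (fun _ => norm_nonneg _) key),
    Real.tsum_le_of_sum_le (fun _ => norm_nonneg _) key⟩

end Vale.Agent.P253W.WM
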