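import Vale.Agent.P253W.WM.Defs

/-!
# P253W, block WM: circle means and the calculus of `Dq`
-/

open Complex Metric Set Filter Topology
open scoped Matrix ComplexConjugate ComplexOrder NNReal

noncomputable section

namespace Vale.Agent.P253W.WM

section av

variable {F : Type*} [NormedAddCommGroup F] [NormedSpace ℝ F]

omit [NormedSpace ℝ F] in
theorem ci {u : ℂ → F} (h : ContinuousOn u (sphere 0 1)) : CircleIntegrable u 0 1 :=
  h.circleIntegrable zero_le_one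

theorem av_congr {u v : ℂ → F} (h : ∀ τ ∈ sphere (0 : ℂ) 1, u τ = v τ) : av u = av v :=
  Real.circleAverage_congr_sphere fun τ hτ => h τ (by simpa using hτ)

theorem av_const [CompleteSpace F] (a : F) : av (fun _ => a) = a := Real.circleAverage_const a 0 1

theorem av_add {u v : ℂ → F} (hu : ContinuousOn u (sphere 0 1))
    (hv : ContinuousOn v (sphere 0 1)) : av (fun τ => u τ + v τ) = av u + av v :=
  Real.circleAverage_fun_add (ci hu) (ci hv)

theorem av_sub {u v : ℂ → F} (hu : ContinuousOn u (sphere 0 1))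
    (hv : ContinuousOn v (sphere 0 1)) : av (fun τ => u τ - v τ) = av u - av v :=
  Real.circleAverage_fun_sub (ci hu) (ci hv)

theorem av_sum {ι : Type*} (s : Finset ι) {u : ι → ℂ → F}
    (hu : ∀ i ∈ s, ContinuousOn (u i) (sphere 0 1)) :
    av (fun τ => ∑ i ∈ s, u i τ) = ∑ i ∈ s, av (u i) :=
  Real.circleAverage_fun_sum fun i hi => ci (hu i hi)

theorem av_mul_real (c : ℝ) (u : ℂ → ℝ) : av (fun τ => c * u τ) = c * av u :=
  Real.circleAverage_fun_smul (a := c) (f := u)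

theorem av_mul_complex (c : ℂ) (u : ℂ → ℂ) : av (fun τ => c * u τ) = c * av u :=
  Real.circleAverage_fun_smul (a := c) (f := u)

theorem av_mono {u v : ℂ → ℝ} (hu : ContinuousOn u (sphere 0 1))
    (hv : ContinuousOn v (sphere 0 1)) (h : ∀ τ ∈ sphere (0 : ℂ) 1, u τ ≤ v τ) : av u ≤ av v :=
  Real.circleAverage_mono (ci hu) (ci hv) fun τ hτ => h τ (by simpa using hτ)

theorem av_nonneg {u : ℂ → ℝ} (h : ∀ τ ∈ sphere (0 : ℂ) 1, 0 ≤ u τ) : 0 ≤ av u :=
  Real.circleAverage_nonneg_of_nonneg fun τ hτ => h τ (by simpa using hτ)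

theorem av_le_const {u : ℂ → ℝ} {a : ℝ} (hu : ContinuousOn u (sphere 0 1))
    (h : ∀ τ ∈ sphere (0 : ℂ) 1, u τ ≤ a) : av u ≤ a :=
  Real.circleAverage_mono_on_of_le_circle (ci hu) fun τ hτ => h τ (by simpa using hτ)

theorem cm_mem (θ : ℝ) : circleMap 0 1 θ ∈ sphere (0 : ℂ) 1 := circleMap_mem_sphere _ zero_le_one θ

theorem norm_av_le {u : ℂ → F} : ‖av u‖ ≤ av fun τ => ‖u τ‖ := by
  simp only [av, Real.circleAverage, norm_smul, smul_eq_mul]
  have h : (0 : ℝ) < (2 * Real.pi)⁻¹ := inv_pos.2 Real.two_pi_pos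
  rw [Real.norm_eq_abs, abs_of_pos h]
  exact mul_le_mul_of_nonneg_left
    (intervalIntegral.norm_integral_le_integral_norm Real.two_pi_pos.le) h.le

theorem norm_av_le_const {u : ℂ → F} {a : ℝ} (hu : ContinuousOn u (sphere 0 1))
    (h : ∀ τ ∈ sphere (0 : ℂ) 1, ‖u τ‖ ≤ a) : ‖av u‖ ≤ a :=
  norm_av_le.trans (av_le_const hu.norm h)

theorem av_clm {G : Type*} [NormedAddCommGroup G] [NormedSpace ℝ G] [CompleteSpace F]
    [CompleteSpace G] (L : F →L[ℝ] G)
    {u : ℂ → F} (hu : ContinuousOn u (sphere 0 1)) : av (fun τ => L (u τ)) = L (av u) :=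
  L.circleAverage_comp_comm (ci hu)

theorem av_re {u : ℂ → ℂ} (hu : ContinuousOn u (sphere 0 1)) :
    av (fun τ => (u τ).re) = (av u).re := av_clm Complex.reCLM hu

theorem av_ofReal {u : ℂ → ℝ} (hu : ContinuousOn u (sphere 0 1)) :
    av (fun τ => ((u τ : ℝ) : ℂ)) = ((av u : ℝ) : ℂ) := av_clm Complex.ofRealCLM hu

theorem av_conj {u : ℂ → ℂ} (hu : ContinuousOn u (sphere 0 1)) :
    av (fun τ => conj (u τ)) = conj (av u) :=
  av_clm (Complex.conjCLE : ℂ →L[ℝ] ℂ) hu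

/-- mean value property -/
theorem DA.av_eq {f : ℂ → ℂ} (hf : DA f) : av f = f 0 :=
  DiffContOnCl.circleAverage (c := 0) (R := 1) (by simpa using hf)

theorem DA.cb {f : ℂ → ℂ} (hf : DA f) : ContinuousOn f (closedBall 0 1) := by
  have := hf.continuousOn
  rwa [closure_ball _ one_ne_zero] at this

theorem DA.cs {f : ℂ → ℂ} (hf : DA f) : ContinuousOn f (sphere 0 1) :=
  hf.cb.mono sphere_subset_closedBall

theorem DA.mk' {f : ℂ → ℂ} (h1 : DifferentiableOn ℂ f (ball 0 1))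
    (h2 : ContinuousOn f (closedBall 0 1)) : DA f :=
  ⟨h1, by rwa [closure_ball _ one_ne_zero]⟩

/-- maximum principle -/
theorem DA.norm_le {f : ℂ → ℂ} (hf : DA f) {C : ℝ} (h : ∀ τ ∈ sphere (0 : ℂ) 1, ‖f τ‖ ≤ C) :
    ∀ τ ∈ closedBall (0 : ℂ) 1, ‖f τ‖ ≤ C := fun τ hτ =>
  Complex.norm_le_of_forall_mem_frontier_norm_le isBounded_ball hf
    (fun z hz => h z (by rwa [frontier_ball _ one_ne_zero] at hz))
    (by rwa [closure_ball _ one_ne_zero])

theorem norm_rt (h : ℝ) (τ : ℂ) : ‖rt h τ‖ = ‖τ‖ := by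
  rw [rt, norm_mul, Complex.norm_exp_ofReal_mul_I, one_mul]

theorem rt_mem (h : ℝ) {τ : ℂ} (hτ : τ ∈ sphere (0 : ℂ) 1) : rt h τ ∈ sphere (0 : ℂ) 1 := by
  simpa [norm_rt] using hτ

theorem rt_mem_cb (h : ℝ) {τ : ℂ} (hτ : τ ∈ closedBall (0 : ℂ) 1) :
    rt h τ ∈ closedBall (0 : ℂ) 1 := by
  simpa [norm_rt] using hτ

theorem rt_mem_ball (h : ℝ) {τ : ℂ} (hτ : τ ∈ ball (0 : ℂ) 1) : rt h τ ∈ ball (0 : ℂ) 1 := by
  simpa [norm_rt] using hτ

theorem rt_rt (h k : ℝ) (τ : ℂ) : rt h (rt k τ) = rt (h + k) τ := by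
  simp only [rt]
  rw [← mul_assoc, ← Complex.exp_add]
  congr 2
  push_cast
  ring

theorem rt_zero (τ : ℂ) : rt 0 τ = τ := by simp [rt]

theorem rt_zero' (h : ℝ) : rt h 0 = 0 := by simp [rt]

theorem continuous_rt (h : ℝ) : Continuous (rt h) := by unfold rt; fun_prop

theorem differentiable_rt (h : ℝ) : Differentiable ℂ (rt h) := by unfold rt; fun_prop

theorem rt_cm (h θ : ℝ) : rt h (circleMap 0 1 θ) = circleMap 0 1 (θ + h) := by
  simp only [rt, circleMap, zero_add, Complex.ofReal_one, one_mul]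
  rw [← Complex.exp_add]
  congr 1
  push_cast
  ring

theorem norm_rt_sub (h : ℝ) {τ : ℂ} (hτ : τ ∈ closedBall (0 : ℂ) 1) : ‖rt h τ - τ‖ ≤ |h| := by
  have h1 : rt h τ - τ = (Complex.exp (I * h) - 1) * τ := by rw [rt, mul_comm I]; ring
  have h2 : ‖τ‖ ≤ 1 := by simpa using hτ
  rw [h1, norm_mul]
  have h3 := Real.norm_exp_I_mul_ofReal_sub_one_le (x := h)
  rw [Real.norm_eq_abs] at h3
  calc _ ≤ |h| * 1 := by gcongr
    _ = _ := mul_one _

theorem exists_rt {σ τ : ℂ} (hσ : σ ∈ sphere (0 : ℂ) 1) (hτ : τ ∈ sphere (0 : ℂ) 1) :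
    ∃ h : ℝ, |h| ≤ Real.pi ∧ σ = rt h τ := by
  have h1 : ‖σ‖ = 1 := by simpa using hσ
  have h2 : ‖τ‖ = 1 := by simpa using hτ
  have h3 : τ ≠ 0 := by rintro rfl; simp at h2
  refine ⟨Complex.arg (σ / τ), Complex.abs_arg_le_pi _, ?_⟩
  have h4 := Complex.norm_mul_exp_arg_mul_I (σ / τ)
  rw [norm_div, h1, h2] at h4
  simp only [div_one, Complex.ofReal_one, one_mul] at h4
  rw [rt, h4]
  field_simp

theorem exists_cm {τ : ℂ} (hτ : τ ∈ sphere (0 : ℂ) 1) : ∃ θ : ℝ, τ = circleMap 0 1 θ := by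
  obtain ⟨h, -, e⟩ := exists_rt hτ (cm_mem 0)
  exact ⟨0 + h, by rw [e, rt_cm]⟩

theorem cs_rt {X : Type*} [TopologicalSpace X] {u : ℂ → X} (hu : ContinuousOn u (sphere 0 1))
    (h : ℝ) : ContinuousOn (fun τ => u (rt h τ)) (sphere 0 1) :=
  hu.comp (continuous_rt h).continuousOn fun _ hτ => rt_mem h hτ

theorem DA.rt {f : ℂ → ℂ} (hf : DA f) (h : ℝ) : DA fun τ => f (rt h τ) :=
  DA.mk' (hf.differentiableOn.comp (differentiable_rt h).differentiableOn
    fun _ hτ => rt_mem_ball h hτ)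
    (hf.cb.comp (continuous_rt h).continuousOn fun _ hτ => rt_mem_cb h hτ)

theorem av_rt (u : ℂ → F) (h : ℝ) : av (fun τ => u (rt h τ)) = av u := by
  rw [av, av, Real.circleAverage_eq_integral_add (f := u) h, Real.circleAverage]
  simp only [rt_cm]

/-- Minkowski -/
theorem av_sq_add_le {u v : ℂ → ℝ} {a b : ℝ} (hu : ContinuousOn u (sphere 0 1))
    (hv : ContinuousOn v (sphere 0 1)) (ha : 0 ≤ a) (hb : 0 ≤ b)
    (h1 : av (fun τ => u τ ^ 2) ≤ a ^ 2) (h2 : av (fun τ => v τ ^ 2) ≤ b ^ 2) :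
    av (fun τ => (u τ + v τ) ^ 2) ≤ (a + b) ^ 2 := by
  have key : ∀ e : ℝ, 0 < e → av (fun τ => (u τ + v τ) ^ 2) ≤ (a + e + (b + e)) ^ 2 := by
    intro e he
    set x := a + e with hx
    set y := b + e with hy
    have hx0 : 0 < x := by positivity
    have hy0 : 0 < y := by positivity
    have h3 : av (fun τ => (u τ + v τ) ^ 2) ≤
        av (fun τ => (1 + y / x) * u τ ^ 2 + (1 + x / y) * v τ ^ 2) := by
      refine av_mono ((hu.add hv).pow 2) (by fun_prop) fun τ _ => ?_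
      have : (1 + y / x) * u τ ^ 2 + (1 + x / y) * v τ ^ 2 - (u τ + v τ) ^ 2 =
          (y * u τ - x * v τ) ^ 2 / (x * y) := by
        field_simp
        ring
      have h4 : 0 ≤ (y * u τ - x * v τ) ^ 2 / (x * y) := by positivity
      linarith
    rw [av_add (by fun_prop) (by fun_prop), av_mul_real, av_mul_real] at h3
    have h5 : a ^ 2 ≤ x ^ 2 := by gcongr; linarith
    have h6 : b ^ 2 ≤ y ^ 2 := by gcongr; linarith
    have h7 : (1 + y / x) * x ^ 2 + (1 + x / y) * y ^ 2 = (x + y) ^ 2 := by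
      field_simp
      ring
    have h8 : (1 + y / x) * av (fun τ => u τ ^ 2) ≤ (1 + y / x) * x ^ 2 :=
      mul_le_mul_of_nonneg_left (h1.trans h5) (by positivity)
    have h9 : (1 + x / y) * av (fun τ => v τ ^ 2) ≤ (1 + x / y) * y ^ 2 :=
      mul_le_mul_of_nonneg_left (h2.trans h6) (by positivity)
    linarith
  have hc : Tendsto (fun e : ℝ => (a + e + (b + e)) ^ 2) (𝓝[>] 0) (𝓝 ((a + 0 + (b + 0)) ^ 2)) :=
    ((by fun_prop : Continuous fun e : ℝ => (a + e + (b + e)) ^ 2).tendsto 0).mono_left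
      nhdsWithin_le_nhds
  simp only [add_zero] at hc
  exact ge_of_tendsto hc (eventually_nhdsWithin_of_forall fun e he => key e he)

theorem av_sq_sum_le {ι : Type*} (s : Finset ι) {u : ι → ℂ → ℝ} {a : ι → ℝ}
    (hu : ∀ i ∈ s, ContinuousOn (u i) (sphere 0 1)) (ha : ∀ i ∈ s, 0 ≤ a i)
    (h : ∀ i ∈ s, av (fun τ => u i τ ^ 2) ≤ a i ^ 2) :
    av (fun τ => (∑ i ∈ s, u i τ) ^ 2) ≤ (∑ i ∈ s, a i) ^ 2 := by
  classical
  induction s using Finset.induction_on with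
  | empty => simp [av_const]
  | insert b s hb ih =>
    simp only [Finset.sum_insert hb]
    have m : ∀ i ∈ s, i ∈ insert b s := fun i hi => Finset.mem_insert_of_mem hi
    exact av_sq_add_le (hu b (Finset.mem_insert_self _ _))
      (continuousOn_finsetSum _ fun i hi => hu i (m i hi)) (ha b (Finset.mem_insert_self _ _))
      (Finset.sum_nonneg fun i hi => ha i (m i hi)) (h b (Finset.mem_insert_self _ _))
      (ih (fun i hi => hu i (m i hi)) (fun i hi => ha i (m i hi)) fun i hi => h i (m i hi))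

/-- Cauchy-Schwarz -/
theorem av_mul_le {u v : ℂ → ℝ} {a b : ℝ} (hu : ContinuousOn u (sphere 0 1))
    (hv : ContinuousOn v (sphere 0 1)) (ha : 0 ≤ a) (hb : 0 ≤ b)
    (h1 : av (fun τ => u τ ^ 2) ≤ a ^ 2) (h2 : av (fun τ => v τ ^ 2) ≤ b ^ 2) :
    av (fun τ => u τ * v τ) ≤ a * b := by
  have key : ∀ e : ℝ, 0 < e → av (fun τ => u τ * v τ) ≤ (a + e) * (b + e) := by
    intro e he
    set x := a + e with hx
    set y := b + e with hy
    have hx0 : 0 < x := by positivity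
    have hy0 : 0 < y := by positivity
    have h3 : av (fun τ => u τ * v τ) ≤
        av (fun τ => (y / x / 2) * u τ ^ 2 + (x / y / 2) * v τ ^ 2) := by
      refine av_mono (hu.mul hv) (by fun_prop) fun τ _ => ?_
      have : (y / x / 2) * u τ ^ 2 + (x / y / 2) * v τ ^ 2 - u τ * v τ =
          (y * u τ - x * v τ) ^ 2 / (2 * x * y) := by
        field_simp
        ring
      have h4 : 0 ≤ (y * u τ - x * v τ) ^ 2 / (2 * x * y) := by positivity
      linarith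
    rw [av_add (by fun_prop) (by fun_prop), av_mul_real, av_mul_real] at h3
    have h5 : a ^ 2 ≤ x ^ 2 := by gcongr; linarith
    have h6 : b ^ 2 ≤ y ^ 2 := by gcongr; linarith
    have h7 : (y / x / 2) * x ^ 2 + (x / y / 2) * y ^ 2 = x * y := by
      field_simp
      ring
    have h8 : (y / x / 2) * av (fun τ => u τ ^ 2) ≤ (y / x / 2) * x ^ 2 :=
      mul_le_mul_of_nonneg_left (h1.trans h5) (by positivity)
    have h9 : (x / y / 2) * av (fun τ => v τ ^ 2) ≤ (x / y / 2) * y ^ 2 :=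
      mul_le_mul_of_nonneg_left (h2.trans h6) (by positivity)
    linarith
  have hc : Tendsto (fun e : ℝ => (a + e) * (b + e)) (𝓝[>] 0) (𝓝 ((a + 0) * (b + 0))) :=
    ((by fun_prop : Continuous fun e : ℝ => (a + e) * (b + e)).tendsto 0).mono_left
      nhdsWithin_le_nhds
  simp only [add_zero] at hc
  exact ge_of_tendsto hc (eventually_nhdsWithin_of_forall fun e he => key e he)

end av

section dq

variable {X Y Z : Type*} [PseudoMetricSpace X] [PseudoMetricSpace Y] [PseudoMetricSpace Z]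

theorem Dq.nonneg {A : ℝ} {u : ℂ → X} (h : Dq A u) : 0 ≤ A := h.1

theorem Dq.cs {A : ℝ} {u : ℂ → X} (h : Dq A u) : ContinuousOn u (sphere 0 1) := h.2.1

theorem Dq.le {A : ℝ} {u : ℂ → X} (h : Dq A u) (k : ℝ) :
    av (fun τ => dist (u (rt k τ)) (u τ) ^ 2) ≤ (A * k) ^ 2 := h.2.2 k

theorem Dq.w12 {A : ℝ} {u : ℂ → X} (h : Dq A u) : W12 u := ⟨A, h⟩

theorem W12.cs {u : ℂ → X} (h : W12 u) : ContinuousOn u (sphere 0 1) := h.choose_spec.cs

theorem cs_dist {u : ℂ → X} (hu : ContinuousOn u (sphere 0 1)) (h : ℝ) :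
    ContinuousOn (fun τ => dist (u (rt h τ)) (u τ)) (sphere 0 1) :=
  continuous_dist.comp_continuousOn ((cs_rt hu h).prodMk hu)

theorem Dq.mono {A B : ℝ} {u : ℂ → X} (h : Dq A u) (hAB : A ≤ B) : Dq B u := by
  refine ⟨h.1.trans hAB, h.cs, fun k => (h.le k).trans ?_⟩
  rw [mul_pow, mul_pow]
  have := h.1
  gcongr

/-- the basic comparison lemma -/
theorem Dq.of_le₂ {A B a b : ℝ} {u : ℂ → X} {v : ℂ → Y} {w : ℂ → Z} (hu : Dq A u) (hv : Dq B v)
    (ha : 0 ≤ a) (hb : 0 ≤ b)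
    (h : ∀ σ ∈ sphere (0 : ℂ) 1, ∀ τ ∈ sphere (0 : ℂ) 1,
      dist (w σ) (w τ) ≤ a * dist (u σ) (u τ) + b * dist (v σ) (v τ)) :
    Dq (a * A + b * B) w := by
  have hw : ContinuousOn w (sphere 0 1) := by
    intro τ hτ
    rw [ContinuousWithinAt, tendsto_iff_dist_tendsto_zero]
    have h1 := tendsto_iff_dist_tendsto_zero.1 (hu.cs τ hτ)
    have h2 := tendsto_iff_dist_tendsto_zero.1 (hv.cs τ hτ)
    have h3 := (h1.const_mul a).add (h2.const_mul b)
    simp only [mul_zero, add_zero] at h3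
    refine squeeze_zero' (Eventually.of_forall fun _ => dist_nonneg) ?_ h3
    filter_upwards [self_mem_nhdsWithin] with σ hσ using h σ hσ τ hτ
  have hA := hu.1
  have hB := hv.1
  refine ⟨by positivity, hw, fun k => ?_⟩
  have c1 := cs_dist hu.cs k
  have c2 := cs_dist hv.cs k
  have h1 : av (fun τ => (a * dist (u (rt k τ)) (u τ)) ^ 2) ≤ (a * A * |k|) ^ 2 := by
    simp only [mul_pow, sq_abs]
    rw [av_mul_real, mul_assoc, ← mul_pow A]
    exact mul_le_mul_of_nonneg_left (hu.le k) (by positivity)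
  have h2 : av (fun τ => (b * dist (v (rt k τ)) (v τ)) ^ 2) ≤ (b * B * |k|) ^ 2 := by
    simp only [mul_pow, sq_abs]
    rw [av_mul_real, mul_assoc, ← mul_pow B]
    exact mul_le_mul_of_nonneg_left (hv.le k) (by positivity)
  have h3 := av_sq_add_le (by fun_prop) (by fun_prop) (by positivity) (by positivity) h1 h2
  calc _ ≤ av (fun τ => (a * dist (u (rt k τ)) (u τ) + b * dist (v (rt k τ)) (v τ)) ^ 2) := by
        refine av_mono ((cs_dist hw k).pow 2) (by fun_prop) fun τ hτ => ?_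
        have := h _ (rt_mem k hτ) τ hτ
        gcongr
    _ ≤ _ := h3
    _ = _ := by rw [← add_mul, mul_pow, mul_pow, sq_abs]

theorem Dq.of_le {A a : ℝ} {u : ℂ → X} {w : ℂ → Z} (hu : Dq A u) (ha : 0 ≤ a)
    (h : ∀ σ ∈ sphere (0 : ℂ) 1, ∀ τ ∈ sphere (0 : ℂ) 1, dist (w σ) (w τ) ≤ a * dist (u σ) (u τ)) :
    Dq (a * A) w := by
  have := hu.of_le₂ (w := w) hu ha le_rfl fun σ hσ τ hτ => by simpa using h σ hσ τ hτ
  simpa using this

theorem Dq.of_le_one {A : ℝ} {u : ℂ → X} {w : ℂ → Z} (hu : Dq A u)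
    (h : ∀ σ ∈ sphere (0 : ℂ) 1, ∀ τ ∈ sphere (0 : ℂ) 1, dist (w σ) (w τ) ≤ dist (u σ) (u τ)) :
    Dq A w := by
  have := hu.of_le (w := w) zero_le_one fun σ hσ τ hτ => by simpa using h σ hσ τ hτ
  simpa using this

theorem Dq.congr {A : ℝ} {u w : ℂ → X} (hu : Dq A u) (h : ∀ τ ∈ sphere (0 : ℂ) 1, w τ = u τ) :
    Dq A w :=
  hu.of_le_one fun σ hσ τ hτ => by rw [h σ hσ, h τ hτ]

theorem W12.congr {u w : ℂ → X} (hu : W12 u) (h : ∀ τ ∈ sphere (0 : ℂ) 1, w τ = u τ) : W12 w :=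
  ⟨_, hu.choose_spec.congr h⟩

theorem dq_id : Dq 1 fun τ : ℂ => τ := by
  refine ⟨zero_le_one, continuousOn_id, fun k => ?_⟩
  refine av_le_const ((cs_dist (u := fun τ : ℂ => τ) continuousOn_id k).pow 2) fun τ hτ => ?_
  rw [one_mul, dist_eq_norm, ← sq_abs k]
  have := norm_rt_sub k (sphere_subset_closedBall hτ)
  gcongr

/-- Lipschitz loops -/
theorem dq_of_lip {L : ℝ} {w : ℂ → Z} (hL : 0 ≤ L)
    (h : ∀ σ ∈ sphere (0 : ℂ) 1, ∀ τ ∈ sphere (0 : ℂ) 1, dist (w σ) (w τ) ≤ L * ‖σ - τ‖) :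
    Dq L w := by
  have := dq_id.of_le (w := w) hL fun σ hσ τ hτ => by simpa [dist_eq_norm] using h σ hσ τ hτ
  simpa using this

/-- Lipschitz in the angle -/
theorem dq_of_angle {L : ℝ} {w : ℂ → Z} (hL : 0 ≤ L) (hw : ContinuousOn w (sphere 0 1))
    (h : ∀ τ ∈ sphere (0 : ℂ) 1, ∀ k : ℝ, dist (w (rt k τ)) (w τ) ≤ L * |k|) : Dq L w := by
  refine ⟨hL, hw, fun k => av_le_const ((cs_dist hw k).pow 2) fun τ hτ => ?_⟩
  have := h τ hτ k
  calc _ ≤ (L * |k|) ^ 2 := by gcongr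
    _ = _ := by rw [mul_pow, mul_pow, sq_abs]

theorem dq_const (c : X) : Dq 0 fun _ : ℂ => c := dq_of_lip le_rfl fun _ _ _ _ => by simp

theorem dq_const' {A : ℝ} (hA : 0 ≤ A) (c : X) : Dq A fun _ : ℂ => c := (dq_const c).mono hA

/-- composition with a Lipschitz map -/
theorem Dq.comp_lip {A : ℝ} {K : ℝ≥0} {u : ℂ → X} {G : X → Y} {s : Set X} (hu : Dq A u)
    (hG : LipschitzOnWith K G s) (hs : ∀ τ ∈ sphere (0 : ℂ) 1, u τ ∈ s) :
    Dq (K * A) fun τ => G (u τ) :=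
  hu.of_le K.2 fun σ hσ τ hτ => hG.dist_le_mul _ (hs σ hσ) _ (hs τ hτ)

theorem Dq.prodMk {A B : ℝ} {u : ℂ → X} {v : ℂ → Y} (hu : Dq A u) (hv : Dq B v) :
    Dq (A + B) fun τ => (u τ, v τ) := by
  have := hu.of_le₂ (w := fun τ => (u τ, v τ)) hv zero_le_one zero_le_one fun σ _ τ _ => by
    rw [Prod.dist_eq, one_mul, one_mul]
    exact max_le (le_add_of_nonneg_right dist_nonneg) (le_add_of_nonneg_left dist_nonneg)
  simpa using this

theorem W12.prodMk {u : ℂ → X} {v : ℂ → Y} (hu : W12 u) (hv : W12 v) :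
    W12 fun τ => (u τ, v τ) := ⟨_, hu.choose_spec.prodMk hv.choose_spec⟩

theorem Dq.rot {A : ℝ} {u : ℂ → X} (hu : Dq A u) (k : ℝ) : Dq A fun τ => u (rt k τ) := by
  refine ⟨hu.1, cs_rt hu.cs k, fun h => ?_⟩
  have := av_rt (fun τ => dist (u (rt h τ)) (u τ) ^ 2) k
  simp only [rt_rt] at this ⊢
  rw [add_comm k h, this]
  exact hu.le h

/-- composition with a locally Lipschitz map -/
theorem W12.comp_loc {u : ℂ → X} {G : X → Y} {s : Set X} (hu : W12 u)
    (hG : LocallyLipschitzOn s G) (hs : ∀ τ ∈ sphere (0 : ℂ) 1, u τ ∈ s) :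
    W12 fun τ => G (u τ) := by
  obtain ⟨A, hA⟩ := hu
  have hK : IsCompact (u '' sphere 0 1) := (isCompact_sphere _ _).image_of_continuousOn hA.cs
  have h1 : LocallyLipschitzOn (u '' sphere 0 1) G := hG.mono (by rintro _ ⟨τ, hτ, rfl⟩; exact hs τ hτ)
  obtain ⟨K, hK⟩ := h1.exists_lipschitzOnWith_of_compact hK
  exact ⟨_, hA.comp_lip hK fun τ hτ => mem_image_of_mem _ hτ⟩

/-- uniform limits -/
theorem Dq.lim {ι : Type*} {l : Filter ι} [l.NeBot] {A : ℝ} {u : ι → ℂ → X} {w : ℂ → X}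
    (hu : ∀ᶠ i in l, Dq A (u i)) (h : TendstoUniformlyOn u w l (sphere 0 1)) : Dq A w := by
  have hA : 0 ≤ A := hu.exists.choose_spec.1
  have hw : ContinuousOn w (sphere 0 1) := h.continuousOn (hu.mono fun i hi => hi.cs).frequently
  refine ⟨hA, hw, fun k => ?_⟩
  have key : ∀ e : ℝ, 0 < e →
      av (fun τ => dist (w (rt k τ)) (w τ) ^ 2) ≤ (A * |k| + 2 * e) ^ 2 := by
    intro e he
    obtain ⟨i, hi, hi'⟩ := (hu.and (Metric.tendstoUniformlyOn_iff.1 h e he)).exists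
    have c1 := cs_dist hi.cs k
    have h1 : av (fun τ => dist (u i (rt k τ)) (u i τ) ^ 2) ≤ (A * |k|) ^ 2 := by
      rw [mul_pow, sq_abs, ← mul_pow]; exact hi.le k
    have h2 : av (fun _ : ℂ => (2 * e) ^ 2) ≤ (2 * e) ^ 2 := (av_const _).le
    have h3 := av_sq_add_le (v := fun _ => 2 * e) c1 continuousOn_const (by positivity)
      (by positivity) h1 h2
    refine le_trans (av_mono ((cs_dist hw k).pow 2) (by fun_prop) fun τ hτ => ?_) h3
    have a1 := hi' τ hτ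
    have a2 := hi' _ (rt_mem k hτ)
    have a3 := dist_triangle4 (w (rt k τ)) (u i (rt k τ)) (u i τ) (w τ)
    rw [dist_comm (u i τ)] at a3
    have a4 : dist (w (rt k τ)) (w τ) ≤ dist (u i (rt k τ)) (u i τ) + 2 * e := by linarith
    gcongr
  have hc : Tendsto (fun e : ℝ => (A * |k| + 2 * e) ^ 2) (𝓝[>] 0) (𝓝 ((A * |k| + 2 * 0) ^ 2)) :=
    ((by fun_prop : Continuous fun e : ℝ => (A * |k| + 2 * e) ^ 2).tendsto 0).mono_left
      nhdsWithin_le_nhds
  rw [mul_zero, add_zero, mul_pow, sq_abs, ← mul_pow] at hc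
  exact ge_of_tendsto hc (eventually_nhdsWithin_of_forall fun e he => key e he)

/-- it is enough to bound small positive rotations -/
theorem Dq.of_small {A : ℝ} {u : ℂ → X} (hA : 0 ≤ A) (hu : ContinuousOn u (sphere 0 1))
    (h : ∀ e : ℝ, 0 < e → ∃ δ : ℝ, 0 < δ ∧ ∀ k ∈ Ioo (0 : ℝ) δ,
      av (fun τ => dist (u (rt k τ)) (u τ) ^ 2) ≤ ((A + e) * k) ^ 2) : Dq A u := by
  have hn : ∀ (k a : ℝ), 0 ≤ a → av (fun τ => dist (u (rt k τ)) (u τ) ^ 2) ≤ a ^ 2 → ∀ n : ℕ,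
      av (fun τ => dist (u (rt (n * k) τ)) (u τ) ^ 2) ≤ (n * a) ^ 2 := by
    intro k a ha hk n
    induction n with
    | zero => simp [rt_zero, av_const]
    | succ n ih =>
      have h1 : av (fun τ => dist (u (rt k (rt (n * k) τ))) (u (rt (n * k) τ)) ^ 2) ≤ a ^ 2 := by
        rw [av_rt (fun τ => dist (u (rt k τ)) (u τ) ^ 2)]; exact hk
      have c1 := cs_rt (cs_dist hu k) (n * k)
      have c2 := cs_dist hu (n * k)
      have h2 := av_sq_add_le c1 c2 ha (by positivity) h1 ih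
      refine le_trans (av_mono ((cs_dist hu _).pow 2) ((c1.add c2).pow 2) fun τ _ => ?_)
        (h2.trans_eq (by push_cast; ring))
      have e : rt (((n + 1 : ℕ) : ℝ) * k) τ = rt k (rt (n * k) τ) := by
        rw [rt_rt]; congr 1; push_cast; ring
      rw [e]
      exact pow_le_pow_left₀ dist_nonneg
        (dist_triangle (u (rt k (rt (n * k) τ))) (u (rt (n * k) τ)) (u τ)) 2
  have hpos : ∀ k : ℝ, 0 < k → av (fun τ => dist (u (rt k τ)) (u τ) ^ 2) ≤ (A * k) ^ 2 := by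
    intro k hk
    have key : ∀ e : ℝ, 0 < e → av (fun τ => dist (u (rt k τ)) (u τ) ^ 2) ≤ ((A + e) * k) ^ 2 := by
      intro e he
      obtain ⟨δ, hδ, hd⟩ := h e he
      obtain ⟨n, hn'⟩ := exists_nat_gt (k / δ)
      have hn0 : (0 : ℝ) < n := lt_trans (by positivity) hn'
      have h1 : k / n ∈ Ioo (0 : ℝ) δ :=
        ⟨by positivity, by rw [div_lt_iff₀ hn0]; rw [div_lt_iff₀ hδ] at hn'; linarith⟩
      have h2 := hn (k / n) _ (by positivity) (hd _ h1) n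
      have e1 : (n : ℝ) * (k / n) = k := by field_simp
      have e2 : (n : ℝ) * ((A + e) * (k / n)) = (A + e) * k := by field_simp
      rwa [e1, e2] at h2
    have hc : Tendsto (fun e : ℝ => ((A + e) * k) ^ 2) (𝓝[>] 0) (𝓝 (((A + 0) * k) ^ 2)) :=
      ((by fun_prop : Continuous fun e : ℝ => ((A + e) * k) ^ 2).tendsto 0).mono_left
        nhdsWithin_le_nhds
    rw [add_zero] at hc
    exact ge_of_tendsto hc (eventually_nhdsWithin_of_forall fun e he => key e he)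
  refine ⟨hA, hu, fun k => ?_⟩
  rcases lt_trichotomy k 0 with hk | rfl | hk
  · have h1 := hpos (-k) (by linarith)
    rw [← av_rt (fun τ => dist (u (rt (-k) τ)) (u τ) ^ 2) k] at h1
    simp only [rt_rt, neg_add_cancel, rt_zero] at h1
    simp only [dist_comm (u (rt k _))]
    rwa [mul_neg, neg_sq] at h1
  · simp [rt_zero, av_const]
  · exact hpos k hk

theorem Dq.apply {ι : Type*} [Fintype ι] {A : ℝ} {u : ℂ → ι → X} (hu : Dq A u) (i : ι) :
    Dq A fun τ => u τ i :=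
  hu.of_le_one fun σ _ τ _ => dist_le_pi_dist (u σ) (u τ) i

/-- a finite family of bounds -/
theorem Dq.of_le_sum {ι : Type*} (s : Finset ι) {A a : ι → ℝ} {u : ι → ℂ → X} {w : ℂ → Z}
    (hu : ∀ i ∈ s, Dq (A i) (u i)) (ha : ∀ i ∈ s, 0 ≤ a i)
    (h : ∀ σ ∈ sphere (0 : ℂ) 1, ∀ τ ∈ sphere (0 : ℂ) 1,
      dist (w σ) (w τ) ≤ ∑ i ∈ s, a i * dist (u i σ) (u i τ)) :
    Dq (∑ i ∈ s, a i * A i) w := by
  have hw : ContinuousOn w (sphere 0 1) := by
    intro τ hτ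
    rw [ContinuousWithinAt, tendsto_iff_dist_tendsto_zero]
    have h3 : Tendsto (fun σ => ∑ i ∈ s, a i * dist (u i σ) (u i τ)) (𝓝[sphere 0 1] τ)
        (𝓝 (∑ i ∈ s, a i * 0)) := tendsto_finsetSum _ fun i hi =>
      (tendsto_iff_dist_tendsto_zero.1 ((hu i hi).cs τ hτ)).const_mul _
    simp only [mul_zero, Finset.sum_const_zero] at h3
    refine squeeze_zero' (Eventually.of_forall fun _ => dist_nonneg) ?_ h3
    filter_upwards [self_mem_nhdsWithin] with σ hσ using h σ hσ τ hτ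
  refine ⟨Finset.sum_nonneg fun i hi => mul_nonneg (ha i hi) (hu i hi).1, hw, fun k => ?_⟩
  have c1 : ∀ i ∈ s, ContinuousOn (fun τ => a i * dist (u i (rt k τ)) (u i τ)) (sphere 0 1) :=
    fun i hi => continuousOn_const.mul (cs_dist (hu i hi).cs k)
  have h3 := av_sq_sum_le s (a := fun i => a i * A i * |k|) c1
    (fun i hi => mul_nonneg (mul_nonneg (ha i hi) (hu i hi).1) (abs_nonneg _)) fun i hi => by
      simp only [mul_pow, sq_abs]
      rw [av_mul_real, mul_assoc, ← mul_pow (A i)]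
      exact mul_le_mul_of_nonneg_left ((hu i hi).le k) (by positivity)
  calc _ ≤ av (fun τ => (∑ i ∈ s, a i * dist (u i (rt k τ)) (u i τ)) ^ 2) :=
        av_mono ((cs_dist hw k).pow 2) ((continuousOn_finsetSum _ c1).pow 2) fun τ hτ =>
          pow_le_pow_left₀ dist_nonneg (h _ (rt_mem k hτ) τ hτ) 2
    _ ≤ _ := h3
    _ = _ := by rw [← Finset.sum_mul, mul_pow, mul_pow, sq_abs]

theorem Dq.pi {ι : Type*} [Fintype ι] {A : ℝ} {u : ℂ → ι → X} (hu : ∀ i, Dq A fun τ => u τ i) :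
    Dq (Fintype.card ι * A) u := by
  have := Dq.of_le_sum Finset.univ (A := fun _ => A) (a := fun _ => 1) (w := u)
    (fun i _ => hu i) (fun _ _ => zero_le_one) fun σ _ τ _ => by
      refine (dist_pi_le_iff (Finset.sum_nonneg fun _ _ => by positivity)).2 fun i => ?_
      simp only [one_mul]
      exact Finset.single_le_sum (f := fun i => dist (u σ i) (u τ i)) (fun _ _ => dist_nonneg)
        (Finset.mem_univ i)
  simpa using this

theorem exists_dq_common {ι : Type*} [Finite ι] {u : ι → ℂ → X} (hu : ∀ i, W12 (u i)) :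
    ∃ A, 0 ≤ A ∧ ∀ i, Dq A (u i) := by
  choose A hA using hu
  obtain ⟨B, hB⟩ := (Set.finite_range A).bddAbove
  exact ⟨max B 0, le_max_right _ _, fun i =>
    (hA i).mono ((hB (mem_range_self i)).trans (le_max_left _ _))⟩

theorem W12.pi {ι : Type*} [Fintype ι] {u : ℂ → ι → X} (hu : ∀ i, W12 fun τ => u τ i) : W12 u := by
  obtain ⟨A, -, hA⟩ := exists_dq_common (u := fun i τ => u τ i) hu
  exact ⟨_, Dq.pi hA⟩

end dq

section normed

variable {E : Type*} [SeminormedAddCommGroup E]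

theorem Dq.add {A B : ℝ} {u v : ℂ → E} (hu : Dq A u) (hv : Dq B v) :
    Dq (A + B) fun τ => u τ + v τ := by
  have := hu.of_le₂ (w := fun τ => u τ + v τ) hv zero_le_one zero_le_one fun σ _ τ _ => by
    simpa using dist_add_add_le _ _ _ _
  simpa using this

theorem Dq.neg {A : ℝ} {u : ℂ → E} (hu : Dq A u) : Dq A fun τ => -u τ :=
  hu.of_le_one fun σ _ τ _ => by simp

theorem Dq.sub {A B : ℝ} {u v : ℂ → E} (hu : Dq A u) (hv : Dq B v) :
    Dq (A + B) fun τ => u τ - v τ := by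
  simpa only [sub_eq_add_neg] using hu.add hv.neg

theorem Dq.norm {A : ℝ} {u : ℂ → E} (hu : Dq A u) : Dq A fun τ => ‖u τ‖ :=
  hu.of_le_one fun _ _ _ _ => (dist_norm_norm_le _ _).trans (dist_eq_norm _ _).ge

theorem Dq.sum {ι : Type*} (s : Finset ι) {A : ι → ℝ} {u : ι → ℂ → E}
    (hu : ∀ i ∈ s, Dq (A i) (u i)) : Dq (∑ i ∈ s, A i) fun τ => ∑ i ∈ s, u i τ := by
  have := Dq.of_le_sum s (a := fun _ => 1) (w := fun τ => ∑ i ∈ s, u i τ) hu
    (fun _ _ => zero_le_one) fun σ _ τ _ => by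
      simpa using dist_sum_sum_le s (fun i => u i σ) fun i => u i τ
  simpa using this

theorem Dq.mul {R : Type*} [SeminormedRing R] {A B a b : ℝ} {u v : ℂ → R} (hu : Dq A u)
    (hv : Dq B v) (ha : ∀ τ ∈ sphere (0 : ℂ) 1, ‖u τ‖ ≤ a) (hb : ∀ τ ∈ sphere (0 : ℂ) 1, ‖v τ‖ ≤ b) :
    Dq (b * A + a * B) fun τ => u τ * v τ := by
  have ha0 : 0 ≤ a := (norm_nonneg _).trans (ha _ (cm_mem 0))
  have hb0 : 0 ≤ b := (norm_nonneg _).trans (hb _ (cm_mem 0))
  refine hu.of_le₂ hv hb0 ha0 fun σ hσ τ hτ => ?_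
  simp only [dist_eq_norm]
  have e : u σ * v σ - u τ * v τ = (u σ - u τ) * v σ + u τ * (v σ - v τ) := by noncomm_ring
  rw [e]
  have h1 := hb σ hσ
  have h2 := ha τ hτ
  calc _ ≤ ‖u σ - u τ‖ * ‖v σ‖ + ‖u τ‖ * ‖v σ - v τ‖ :=
        (norm_add_le _ _).trans (add_le_add (norm_mul_le _ _) (norm_mul_le _ _))
    _ ≤ ‖u σ - u τ‖ * b + a * ‖v σ - v τ‖ := by gcongr
    _ = _ := by ring

theorem Dq.const_mul {R : Type*} [SeminormedRing R] {A : ℝ} {u : ℂ → R} (hu : Dq A u) (c : R) :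
    Dq (‖c‖ * A) fun τ => c * u τ :=
  hu.of_le (norm_nonneg c) fun σ _ τ _ => by
    simp only [dist_eq_norm]
    rw [← mul_sub]
    exact norm_mul_le _ _

theorem Dq.clm {G : Type*} [SeminormedAddCommGroup G] [NormedSpace ℝ E] [NormedSpace ℝ G] {A : ℝ}
    {u : ℂ → E} (hu : Dq A u) (L : E →L[ℝ] G) : Dq (‖L‖ * A) fun τ => L (u τ) :=
  hu.of_le (norm_nonneg L) fun _ _ _ _ => L.dist_le_opNorm _ _

theorem Dq.conj {A : ℝ} {u : ℂ → ℂ} (hu : Dq A u) : Dq A fun τ => conj (u τ) :=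
  hu.of_le_one fun _ _ _ _ => (Complex.dist_conj_conj _ _).le

theorem Dq.re {A : ℝ} {u : ℂ → ℂ} (hu : Dq A u) : Dq A fun τ => (u τ).re :=
  hu.of_le_one fun σ _ τ _ => by
    rw [Real.dist_eq, dist_eq_norm, ← Complex.sub_re]
    exact Complex.abs_re_le_norm _

theorem Dq.ofReal {A : ℝ} {u : ℂ → ℝ} (hu : Dq A u) : Dq A fun τ => ((u τ : ℝ) : ℂ) :=
  hu.of_le_one fun _ _ _ _ => (Complex.isometry_ofReal.dist_eq _ _).le

theorem exists_bound_cs {u : ℂ → E} (hu : ContinuousOn u (sphere 0 1)) :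
    ∃ a, 0 ≤ a ∧ ∀ τ ∈ sphere (0 : ℂ) 1, ‖u τ‖ ≤ a := by
  obtain ⟨a, ha⟩ := (isCompact_sphere (0 : ℂ) 1).exists_bound_of_continuousOn hu
  exact ⟨max a 0, le_max_right _ _, fun τ hτ => (ha τ hτ).trans (le_max_left _ _)⟩

theorem W12.add {u v : ℂ → E} (hu : W12 u) (hv : W12 v) : W12 fun τ => u τ + v τ :=
  ⟨_, hu.choose_spec.add hv.choose_spec⟩

theorem W12.sub {u v : ℂ → E} (hu : W12 u) (hv : W12 v) : W12 fun τ => u τ - v τ :=
  ⟨_, hu.choose_spec.sub hv.choose_spec⟩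

theorem W12.neg {u : ℂ → E} (hu : W12 u) : W12 fun τ => -u τ := ⟨_, hu.choose_spec.neg⟩

theorem W12.mul {R : Type*} [SeminormedRing R] {u v : ℂ → R} (hu : W12 u) (hv : W12 v) :
    W12 fun τ => u τ * v τ := by
  obtain ⟨a, -, ha⟩ := exists_bound_cs hu.cs
  obtain ⟨b, -, hb⟩ := exists_bound_cs hv.cs
  exact ⟨_, hu.choose_spec.mul hv.choose_spec ha hb⟩

theorem W12.conj {u : ℂ → ℂ} (hu : W12 u) : W12 fun τ => conj (u τ) := ⟨_, hu.choose_spec.conj⟩

theorem w12_const {X : Type*} [PseudoMetricSpace X] (c : X) : W12 fun _ : ℂ => c := ⟨_, dq_const c⟩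

theorem W12.sum {ι : Type*} (s : Finset ι) {u : ι → ℂ → E} (hu : ∀ i ∈ s, W12 (u i)) :
    W12 fun τ => ∑ i ∈ s, u i τ := by
  classical
  induction s using Finset.induction_on with
  | empty => simpa using w12_const (0 : E)
  | insert a s ha ih =>
    simp only [Finset.sum_insert ha]
    exact (hu a (Finset.mem_insert_self _ _)).add
      (ih fun i hi => hu i (Finset.mem_insert_of_mem hi))

/-- composition with a `C^1` map -/
theorem W12.comp_contDiff {E G : Type*} [NormedAddCommGroup E] [NormedSpace ℝ E]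
    [NormedAddCommGroup G] [NormedSpace ℝ G] {u : ℂ → E} {Φ : E → G} (hu : W12 u)
    (hΦ : ∀ τ ∈ sphere (0 : ℂ) 1, ContDiffAt ℝ 1 Φ (u τ)) : W12 fun τ => Φ (u τ) := by
  refine hu.comp_loc (s := {x | ContDiffAt ℝ 1 Φ x}) (fun x hx => ?_) hΦ
  obtain ⟨K, t, ht, hK⟩ := ContDiffAt.exists_lipschitzOnWith hx
  exact ⟨K, t, mem_nhdsWithin_of_mem_nhds ht, hK⟩

end normed

end Vale.Agent.P253W.WM
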