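import Vale.Agent.P253W.WM.Alg

/-!
# P253W, block WM: bumps at the scale `1 / N`
-/

open Complex Metric Set Filter Topology

noncomputable section

namespace Vale.Agent.P253W.WM

namespace Bump

theorem pow_sub {w : ℂ} {x : ℝ} (h : ‖w - 1‖ ≤ x) (h1 : x ≤ 1) (d : ℕ) :
    ‖w ^ d - 1‖ ≤ (2 ^ d - 1) * x := by
  have h2 : ‖w‖ ≤ 2 := by linarith [norm_sub_norm_le w 1, norm_one (α := ℂ)]
  induction d with
  | zero => simp
  | succ d ih =>
    rw [show w ^ (d + 1) - 1 = w * (w ^ d - 1) + (w - 1) by ring]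
    refine (norm_add_le _ _).trans ?_
    rw [norm_mul, pow_succ]
    nlinarith [mul_le_mul h2 ih (norm_nonneg _) zero_le_two]

variable {N : ℝ}

/-- the denominator -/
def a (N : ℝ) (τ : ℂ) : ℂ := 1 - ((1 - 1 / (2 * N) : ℝ) : ℂ) * τ

theorem rho (hN : 1 ≤ N) : 1 / 2 ≤ 1 - 1 / (2 * N) ∧ 1 - 1 / (2 * N) < 1 := by
  have h : 1 / (2 * N) ≤ 1 / 2 := one_div_le_one_div_of_le two_pos (by linarith)
  have h' : 0 < 1 / (2 * N) := by positivity
  constructor <;> linarith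

theorem a_ge (hN : 1 ≤ N) {τ : ℂ} (hτ : τ ∈ closedBall (0 : ℂ) 1) : 1 / (2 * N) ≤ ‖a N τ‖ := by
  have h := norm_sub_norm_le (1 : ℂ) (((1 - 1 / (2 * N) : ℝ) : ℂ) * τ)
  have h1 : ‖τ‖ ≤ 1 := by simpa using hτ
  obtain ⟨r1, r2⟩ := rho hN
  rw [norm_mul, norm_real, Real.norm_of_nonneg (by linarith), norm_one] at h
  unfold a
  nlinarith

theorem a_ne (hN : 1 ≤ N) {τ : ℂ} (hτ : τ ∈ closedBall (0 : ℂ) 1) : a N τ ≠ 0 :=
  norm_pos_iff.1 (lt_of_lt_of_le (by positivity) (a_ge hN hτ))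

theorem a_sub (hN : 1 ≤ N) (σ τ : ℂ) : ‖a N σ - a N τ‖ ≤ ‖σ - τ‖ := by
  obtain ⟨r1, r2⟩ := rho hN
  rw [show a N σ - a N τ = ((1 - 1 / (2 * N) : ℝ) : ℂ) * -(σ - τ) by unfold a; ring, norm_mul,
    norm_real, Real.norm_of_nonneg (by linarith), norm_neg]
  exact mul_le_of_le_one_left (norm_nonneg _) r2.le

theorem a_low (hN : 1 ≤ N) {θ : ℝ} (h : |θ| ≤ Real.pi) :
    (1 + N * |θ|) ^ 2 ≤ 16 * N ^ 2 * ‖a N (circleMap 0 1 θ)‖ ^ 2 := by
  obtain ⟨r1, r2⟩ := rho hN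
  have e : (1 - (1 - 1 / (2 * N))) * N = 1 / 2 := by field_simp; ring
  have h1 := Real.cos_le_one_sub_mul_cos_sq h
  have h2 : 1 / 8 ≤ 2 / Real.pi ^ 2 := by
    rw [div_le_div_iff₀ (by norm_num) (by positivity)]
    nlinarith [Real.pi_le_four, Real.pi_pos]
  have h3 : ‖a N (circleMap 0 1 θ)‖ ^ 2 = (1 - (1 - 1 / (2 * N))) ^ 2 +
      2 * (1 - 1 / (2 * N)) * (1 - Real.cos θ) := by
    rw [Complex.sq_norm, normSq_apply]
    generalize hρ : 1 - 1 / (2 * N) = ρ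
    simp only [a, hρ, circleMap, sub_re, one_re, sub_im, one_im, mul_re, mul_im, ofReal_re,
      ofReal_im, zero_add, ofReal_one, one_mul, exp_ofReal_mul_I_re, exp_ofReal_mul_I_im]
    nlinarith [Real.sin_sq_add_cos_sq θ]
  generalize 1 - 1 / (2 * N) = ρ at *
  have h4 : θ ^ 2 / 8 ≤ 2 * ρ * (1 - Real.cos θ) := by
    nlinarith [mul_le_mul_of_nonneg_right h2 (sq_nonneg θ), Real.cos_le_one θ]
  have h5 : N ^ 2 * (1 - ρ) ^ 2 = 1 / 4 := by rw [← mul_pow, mul_comm, e]; norm_num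
  rw [h3, ← sq_abs θ] at *
  nlinarith [mul_le_mul_of_nonneg_left h4 (sq_nonneg N), sq_nonneg (1 - N * |θ|)]

/-- the bump before the normalisation -/
def k0 (d : ℕ) (N : ℝ) (τ : ℂ) : ℂ := τ * (a N τ)⁻¹ ^ d

theorem hw_k0 (d : ℕ) (hN : 1 ≤ N) : HW (k0 d N) :=
  hw_id.mul ((((hw_const 1).sub ((hw_const _).mul hw_id)).inv fun _ h => a_ne hN h).pow d)

theorem norm_k0 (d : ℕ) {τ : ℂ} (hτ : τ ∈ sphere (0 : ℂ) 1) :
    ‖k0 d N τ‖ ^ 2 = (‖a N τ‖ ^ 2)⁻¹ ^ d := by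
  rw [k0, norm_mul, mem_sphere_zero_iff_norm.1 hτ, one_mul, norm_pow, norm_inv, ← pow_mul,
    ← inv_pow, ← pow_mul, mul_comm]

theorem k0_sub (d : ℕ) (hN : 1 ≤ N) {τ : ℂ} (hτ : τ ∈ sphere (0 : ℂ) 1) {h : ℝ}
    (hh : h ∈ Ioo 0 (1 / (2 * N))) :
    ‖k0 d N (rt h τ) - k0 d N τ‖ ≤ 2 * 2 ^ d * N * h * ‖k0 d N τ‖ := by
  have c1 := sphere_subset_closedBall hτ
  have c2 := rt_mem_cb h c1
  have h1 := norm_rt_sub h c1
  rw [abs_of_pos hh.1] at h1
  have h2 : ‖a N τ / a N (rt h τ) - 1‖ ≤ 2 * N * h := by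
    rw [div_sub_one (a_ne hN c2), norm_div, div_le_iff₀ (norm_pos_iff.2 (a_ne hN c2))]
    have := a_sub hN τ (rt h τ)
    rw [norm_sub_rev τ] at this
    have h3 := a_ge hN c2
    rw [div_le_iff₀ (by positivity)] at h3
    nlinarith [mul_le_mul_of_nonneg_left h3 hh.1.le]
  have h3 := pow_sub h2 (by have := hh.2; rw [lt_div_iff₀ (by positivity)] at this; linarith) d
  have e : k0 d N (rt h τ) - k0 d N τ =
      (rt h τ * ((a N τ / a N (rt h τ)) ^ d - 1) + (rt h τ - τ)) * (a N τ)⁻¹ ^ d := by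
    have := a_ne hN c1
    simp only [k0, div_pow, inv_pow]
    field_simp
    ring
  have t1 := mem_sphere_zero_iff_norm.1 hτ
  rw [e, norm_mul, k0, norm_mul, t1, one_mul]
  refine mul_le_mul_of_nonneg_right ((norm_add_le _ _).trans ?_) (norm_nonneg _)
  rw [norm_mul, norm_rt, t1, one_mul]
  nlinarith [mul_le_mul_of_nonneg_right hN hh.1.le, hh.1]

theorem l2_k0 (d : ℕ) (hN : 1 ≤ N) : (N ^ 2 / 4) ^ d / (8 * N) ≤ l2 (k0 d N) := by
  have hc : Continuous fun θ : ℝ => ‖k0 d N (circleMap 0 1 θ)‖ ^ 2 :=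
    (((hw_k0 d hN).cs.comp_continuous (continuous_circleMap 0 1) cm_mem).norm).pow 2
  have n0 : 0 < 1 / N := by positivity
  have n1 : 1 / N ≤ 2 * Real.pi := ((div_le_one (by linarith)).2 hN).trans (by
    linarith [Real.pi_gt_three])
  have h1 : ∫ _ in (0 : ℝ)..(1 / N), (N ^ 2 / 4) ^ d ≤
      ∫ θ in (0 : ℝ)..(1 / N), ‖k0 d N (circleMap 0 1 θ)‖ ^ 2 := by
    refine intervalIntegral.integral_mono_on n0.le (by simp) (hc.intervalIntegrable _ _)
      fun θ hθ => ?_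
    have c1 := sphere_subset_closedBall (cm_mem θ)
    have h2 : ‖a N (circleMap 0 1 θ)‖ ≤ 2 / N := by
      have h3 := a_sub hN (rt θ 1) 1
      have h4 := norm_rt_sub θ (τ := 1) (by simp)
      have h5 : ‖a N 1‖ = 1 / (2 * N) := by
        rw [a, mul_one, ← ofReal_one, ← ofReal_sub, norm_real, sub_sub_cancel,
          Real.norm_of_nonneg (by positivity)]
      have h6 := norm_sub_norm_le (a N (rt θ 1)) (a N 1)
      have h7 : 1 / (2 * N) ≤ 1 / N := one_div_le_one_div_of_le (by linarith) (by linarith)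
      rw [abs_of_nonneg hθ.1] at h4
      rw [show circleMap 0 1 θ = rt θ 1 by simp [rt, circleMap], show 2 / N = 1 / N + 1 / N by ring]
      linarith [hθ.2]
    rw [norm_k0 d (cm_mem θ)]
    refine pow_le_pow_left₀ (by positivity) ?_ d
    rw [show N ^ 2 / 4 = ((2 / N) ^ 2)⁻¹ by field_simp; norm_num]
    exact inv_anti₀ (pow_pos (norm_pos_iff.2 (a_ne hN c1)) 2)
      (pow_le_pow_left₀ (norm_nonneg _) h2 2)
  have h2 := intervalIntegral.integral_mono_interval (μ := MeasureTheory.volume)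
    (f := fun θ : ℝ => ‖k0 d N (circleMap 0 1 θ)‖ ^ 2) le_rfl n0.le n1
    (Eventually.of_forall fun _ => by positivity) (hc.intervalIntegrable _ _)
  rw [intervalIntegral.integral_const, sub_zero, smul_eq_mul] at h1
  rw [l2, av, Real.circleAverage, smul_eq_mul, div_eq_mul_inv, mul_inv, mul_left_comm,
    mul_comm _ N⁻¹, ← one_div N]
  exact mul_le_mul (inv_anti₀ Real.two_pi_pos (by linarith [Real.pi_le_four])) (h1.trans h2)
    (by positivity) (by positivity)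

end Bump

open Bump

/-- **BUMP** -/
theorem bump : BUMP := fun d => ⟨8 * 64 ^ d, fun N hN => by
  have h1 := l2_k0 d hN
  have h0 : 0 < l2 (k0 d N) := lt_of_lt_of_le (by positivity) h1
  set s := √(l2 (k0 d N)) with hs
  have s0 : 0 < s := Real.sqrt_pos.2 h0
  have s2 : s ^ 2 = l2 (k0 d N) := Real.sq_sqrt h0.le
  have hw := (hw_const ((s⁻¹ : ℝ) : ℂ)).mul (hw_k0 d hN)
  have nm : ∀ w : ℂ, ‖((s⁻¹ : ℝ) : ℂ) * w‖ ^ 2 = (l2 (k0 d N))⁻¹ * ‖w‖ ^ 2 := fun w => by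
    rw [norm_mul, mul_pow, norm_real, Real.norm_of_nonneg (by positivity), inv_pow, s2]
  refine ⟨_, hw, by simp [k0], ?_, Dq.of_small (by positivity) hw.cs fun e he =>
    ⟨1 / (2 * N), by positivity, fun h hh => ?_⟩, fun θ hθ => ?_⟩
  · rw [l2]
    simp only [nm]
    rw [av_mul_real]
    exact inv_mul_cancel₀ h0.ne'
  · refine (av_mono (v := fun τ => (((8 * 64 ^ d * N + e) * h) ^ 2 * (l2 (k0 d N))⁻¹) *
      ‖k0 d N τ‖ ^ 2) ((cs_dist hw.cs h).pow 2) (continuousOn_const.mul ((hw_k0 d hN).cs.norm.pow 2))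
      fun τ hτ => ?_).trans_eq ?_
    · rw [Pi.pow_apply, dist_eq_norm, ← mul_sub, nm, mul_comm _ (l2 (k0 d N))⁻¹, mul_assoc, ← mul_pow]
      refine mul_le_mul_of_nonneg_left (pow_le_pow_left₀ (norm_nonneg _) ((k0_sub d hN hτ hh).trans
        (mul_le_mul_of_nonneg_right (mul_le_mul_of_nonneg_right ?_ hh.1.le) (norm_nonneg _))) 2)
        (by positivity)
      have : (2 : ℝ) ^ d ≤ 64 ^ d := pow_le_pow_left₀ zero_le_two (by norm_num) d
      nlinarith [mul_le_mul_of_nonneg_right this (zero_le_one.trans hN), pow_pos (two_pos (α := ℝ)) d]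
    · rw [av_mul_real, mul_assoc]
      exact mul_right_eq_self₀.2 (.inl (inv_mul_cancel₀ h0.ne'))
  · have p : 0 < 1 + N * |θ| := by positivity
    have h2 : (‖a N (circleMap 0 1 θ)‖ ^ 2)⁻¹ ≤ 16 * N ^ 2 / (1 + N * |θ|) ^ 2 := by
      rw [le_div_iff₀ (by positivity), inv_mul_le_iff₀ (pow_pos (norm_pos_iff.2
        (a_ne hN (sphere_subset_closedBall (cm_mem θ)))) 2)]
      exact (a_low hN hθ).trans_eq (mul_comm _ _)
    rw [nm, norm_k0 d (cm_mem θ)]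
    refine (mul_le_mul (inv_anti₀ (by positivity) h1) (pow_le_pow_left₀ (by positivity) h2 d)
      (by positivity) (by positivity)).trans_eq ?_
    rw [pow_mul, div_pow, div_pow, mul_pow, show (64 : ℝ) = 16 * 4 by norm_num, mul_pow]
    field_simp⟩

end Vale.Agent.P253W.WM
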