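import Vale.Agent.P253W.WM.Syn

/-!
# P253W, block WM: the energy density
-/

open Complex Metric Set Filter Topology MeasureTheory AddCircle
open scoped Matrix ComplexConjugate ComplexOrder

noncomputable section

namespace Vale.Agent.P253W.WM

namespace Dens

theorem seg {T a b : ℝ} [Fact (0 < T)] (hab : a ≤ b) (hb : b ≤ a + T) :
    ∃ s : Set (AddCircle T), MeasurableSet s ∧ ∀ F : AddCircle T → ℂ,
      ∫ x in s, F x ∂haarAddCircle = T⁻¹ • ∫ θ in a..b, F θ := by
  have hs : MeasurableSet {x : AddCircle T | (equivIoc T a x : ℝ) ≤ b} :=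
    measurableSet_le (measurable_subtype_coe.comp (measurableEquivIoc T a).measurable)
      measurable_const
  refine ⟨_, hs, fun F => ?_⟩
  rw [← integral_indicator hs, integral_haarAddCircle, ← AddCircle.integral_preimage T a,
    setIntegral_congr_fun (g := (Iic b).indicator fun θ : ℝ => F θ) measurableSet_Ioc fun θ hθ => by
      simp [indicator, equivIoc_coe_eq hθ],
    setIntegral_indicator measurableSet_Iic, Ioc_inter_Iic, min_eq_right hb,
    intervalIntegral.integral_of_le hab]

theorem cs {G : ℝ → ℂ} {a b : ℝ} (hab : a ≤ b) (h1 : IntervalIntegrable G volume a b)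
    (h2 : IntervalIntegrable (fun θ => ‖G θ‖ ^ 2) volume a b) :
    ‖∫ θ in a..b, G θ‖ ^ 2 ≤ (b - a) * ∫ θ in a..b, ‖G θ‖ ^ 2 := by
  rcases hab.eq_or_lt with rfl | h
  · simp
  have h3 := intervalIntegral.norm_integral_le_integral_norm (f := G) (μ := volume) hab
  set J := ∫ θ in a..b, ‖G θ‖
  have h4 := intervalIntegral.integral_mono_on hab (h1.norm.const_mul (2 * (J / (b - a))))
    (h2.add (intervalIntegrable_const (c := (J / (b - a)) ^ 2))) fun θ _ => by
      nlinarith [sq_nonneg (‖G θ‖ - J / (b - a))]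
  rw [intervalIntegral.integral_const_mul, intervalIntegral.integral_add h2
    intervalIntegrable_const, intervalIntegral.integral_const, smul_eq_mul] at h4
  have h5 := sub_pos.2 h
  refine (pow_le_pow_left₀ (norm_nonneg _) h3 2).trans ?_
  rw [← div_le_iff₀' h5]
  have : J ^ 2 / (b - a) = 2 * (J / (b - a)) * J - (b - a) * (J / (b - a)) ^ 2 := by
    field_simp; ring
  linarith

end Dens

open Dens in
theorem dens' : DENS := fun u A hu => by
  have : Fact (0 < 2 * Real.pi) := ⟨Real.two_pi_pos⟩
  have e (k : ℤ) : ‖I * k * fc u k‖ ^ 2 = (k : ℝ) ^ 2 * ‖fc u k‖ ^ 2 := by simp [mul_pow]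
  let l : lp (fun _ : ℤ => ℂ) 2 := ⟨fun k => I * k * fc u k, memℓp_gen (by
    simpa only [ENNReal.toReal_ofNat, Real.rpow_ofNat, e] using hu.w12.summable)⟩
  let g := (fourierBasis (T := 2 * Real.pi)).repr.symm l
  have ea (θ : ℝ) : ((arg (circleMap 0 1 θ) : ℝ) : AddCircle (2 * Real.pi)) = θ := by
    simp only [circleMap, zero_add, ofReal_one, one_mul, arg_exp_mul_I]
    exact Real.Angle.coe_toIocMod _ _
  have hg : MemLp (fun θ : ℝ => g θ) 2 (volume.restrict (Ioc 0 (0 + 2 * Real.pi))) :=
    (Lp.memLp g).of_haarAddCircle.comp_measurePreserving (AddCircle.measurePreserving_mk _ 0)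
  rw [zero_add] at hg
  have p1 : Function.Periodic (fun θ : ℝ => g θ) (2 * Real.pi) := fun θ => by simp
  have i1 := p1.intervalIntegrable₀ Real.two_pi_pos.ne'
    ((intervalIntegrable_iff_integrableOn_Ioc_of_le Real.two_pi_pos.le).2
      (hg.integrable one_le_two))
  have i2 := (p1.comp fun z => ‖z‖ ^ 2).intervalIntegrable₀ Real.two_pi_pos.ne'
    ((intervalIntegrable_iff_integrableOn_Ioc_of_le Real.two_pi_pos.le).2
      ((memLp_two_iff_integrable_sq_norm hg.1).1 hg))
  have k1 (a b : ℝ) (hab : a ≤ b) (hb : b ≤ a + 2 * Real.pi) :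
      u (circleMap 0 1 b) - u (circleMap 0 1 a) = ∫ θ in a..b, g θ := by
    obtain ⟨s, hs, hF⟩ := seg hab hb
    have h1 := (innerSL ℂ (indicatorConstLp 2 hs (measure_ne_top haarAddCircle s) (1 : ℂ))).hasSum
      (fourierBasis.hasSum_repr_symm l)
    have h2 := ((hasSum_fc hu.cs hu.w12.summable_fc (cm_mem b)).sub
      (hasSum_fc hu.cs hu.w12.summable_fc (cm_mem a))).const_smul (2 * Real.pi)⁻¹
    simp only [map_smul, innerSL_apply_apply, L2.inner_indicatorConstLp_one, coe_fourierBasis,
      integral_congr_ae (ae_restrict_of_ae (coeFn_fourierLp 2 _))] at h1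
    simp only [hF] at h1
    refine smul_right_injective ℂ (inv_ne_zero Real.two_pi_pos.ne') (h2.unique
      (h1.congr_fun fun k => ?_))
    have h3 := intervalIntegral.integral_eq_sub_of_hasDerivAt (a := a) (b := b)
      (fun x _ => hasDerivAt_fourier (2 * Real.pi) k x) (Continuous.intervalIntegrable
        (by fun_prop) _ _)
    have h4 (θ : ℝ) : fourier k (θ : AddCircle (2 * Real.pi)) = circleMap 0 1 θ ^ k := by
      rw [fourier_coe_apply, circleMap, zero_add, ofReal_one, one_mul, ← exp_int_mul]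
      congr 1
      push_cast
      field_simp
    rw [intervalIntegral.integral_const_mul, h4 a, h4 b] at h3
    rw [← mul_sub, ← h3, smul_comm]
    congr 1
    simp only [l, smul_eq_mul]
    push_cast
    field_simp
  have k2 (n : ℕ) : ∀ a b : ℝ, a ≤ b → b ≤ a + n * (2 * Real.pi) →
      u (circleMap 0 1 b) - u (circleMap 0 1 a) = ∫ θ in a..b, g θ := by
    induction n with
    | zero => exact fun a b h1 h2 => k1 a b h1 (by simp at h2; linarith [Real.pi_pos])
    | succ n ih =>
      intro a b h1 h2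
      rcases le_total b (a + 2 * Real.pi) with h | h
      · exact k1 a b h1 h
      · rw [← intervalIntegral.integral_add_adjacent_intervals (i1 a (a + 2 * Real.pi)) (i1 _ b),
          ← k1 _ _ (by linarith [Real.pi_pos]) le_rfl, ← ih _ _ h (by push_cast at h2; linarith)]
        ring
  refine ⟨fun τ => ‖g (arg τ)‖ ^ 2, fun _ => sq_nonneg _, ?_, ?_, fun a b hab => ?_⟩
  · simp only [CircleIntegrable, ea]
    exact i2 _ _
  · have h1 := hasSum_sq_fourierCoeff g
    simp only [← fourierBasis_repr, g, LinearIsometryEquiv.apply_symm_apply, l, e] at h1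
    rw [integral_haarAddCircle, ← AddCircle.intervalIntegral_preimage _ 0, zero_add] at h1
    simp only [av, Real.circleAverage, ea]
    exact h1.tsum_eq.symm.trans_le hu.en_le
  · obtain ⟨n, hn⟩ := exists_nat_ge ((b - a) / (2 * Real.pi))
    rw [div_le_iff₀ Real.two_pi_pos] at hn
    simp only [ea, k2 n a b hab (by linarith)]
    exact cs hab (i1 a b) (i2 a b)

theorem dens (_ : ENQ) : DENS := dens'

end Vale.Agent.P253W.WM
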