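import Vale.Agent.P253W.WM.Alg

/-!
# P253W, block WM: the Poisson majorant
-/

open Complex Metric Set Filter Topology MeasureTheory

noncomputable section

namespace Vale.Agent.P253W.WM

namespace Poi

variable {ρ : ℝ} {ζ τ : ℂ}

theorem low (h0 : 0 ≤ ρ) (hζ : ζ ∈ sphere (0 : ℂ) 1) (hτ : τ ∈ sphere (0 : ℂ) 1) :
    1 - ρ ≤ ‖ζ - ρ * τ‖ := by
  have := norm_sub_norm_le ζ (ρ * τ)
  rwa [norm_mul, mem_sphere_zero_iff_norm.1 hζ, mem_sphere_zero_iff_norm.1 hτ, mul_one,
    norm_real, Real.norm_of_nonneg h0] at this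

theorem ker (hζ : ζ ∈ sphere (0 : ℂ) 1) (hτ : τ ∈ sphere (0 : ℂ) 1) :
    (herglotzRieszKernel 0 (ρ * τ) ζ).re = (1 - ρ ^ 2) / ‖ζ - ρ * τ‖ ^ 2 := by
  have := congrFun (poissonKernel_eq_re_herglotzRieszKernel (c := 0) (w := ρ * τ)) ζ
  rw [Function.comp_apply] at this
  simp [← this, poissonKernel_def, mem_sphere_zero_iff_norm.1 hζ, mem_sphere_zero_iff_norm.1 hτ]

end Poi

open Poi in
theorem poi : POI := by
  refine ⟨4 * Real.pi, fun m N hN m0 hm => ?_⟩
  obtain ⟨ρ, hρ⟩ : ∃ ρ, 1 - ρ = 1 / (2 * N) := ⟨1 - 1 / (2 * N), by ring⟩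
  have d0 : 0 < 1 - ρ := by rw [hρ]; positivity
  have r0 : 0 ≤ ρ := by
    have : 1 / (2 * N) ≤ 1 := (div_le_one (by positivity)).2 (by linarith)
    linarith
  have r1 : ‖(ρ : ℂ)‖ < 1 := by rw [norm_real, Real.norm_of_nonneg r0]; linarith
  have r2 : 1 - ρ ≤ 1 - ρ ^ 2 := by nlinarith
  have hc : CircleIntegrable (fun ζ => (m ζ : ℂ)) 0 1 := by
    simp only [CircleIntegrable, intervalIntegrable_iff] at hm ⊢
    exact ofRealCLM.integrable_comp hm
  have da := (hw_of_ball (differentiableOn_circleAverage_herglotzRieszKernel_smul hc) r1).da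
  have b : ∀ τ ∈ sphere (0 : ℂ) 1, (ρ : ℂ) * τ ∈ ball (0 : ℂ) 1 := fun τ hτ =>
    mul_mem_ball' r1 (sphere_subset_closedBall hτ)
  have i : ∀ τ ∈ sphere (0 : ℂ) 1,
      CircleIntegrable ((re ∘ herglotzRieszKernel 0 (ρ * τ)) • m) 0 1 := fun τ hτ =>
    hm.continuousOn_smul (continuous_re.comp_continuousOn
      (continuousOn_herglotzRieszKernel_sphere (b τ hτ)))
  have n : ∀ τ ∈ sphere (0 : ℂ) 1, ∀ ζ ∈ sphere (0 : ℂ) 1,
      0 ≤ ((re ∘ herglotzRieszKernel 0 (ρ * τ)) • m) ζ := fun τ hτ ζ hζ =>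
    mul_nonneg ((div_nonneg (by linarith) (sq_nonneg _)).trans_eq (ker hζ hτ).symm) (m0 ζ hζ)
  refine ⟨_, continuous_re.comp_continuousOn da.cs, fun τ hτ => ?_, ?_, fun τ hτ h => ?_,
    fun θ r a0 a1 => ?_⟩
  · exact (av_nonneg (n τ hτ)).trans_eq (re_circleAverage_herglotzRieszKernel_smul hm (b τ hτ)).symm
  · refine (av_re da.cs).trans ?_
    rw [da.av_eq, mul_zero, re_circleAverage_herglotzRieszKernel_smul hm (mem_ball_self one_pos)]
    refine av_congr fun ζ hζ => ?_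
    have : ζ ≠ 0 := ne_of_mem_sphere hζ one_ne_zero
    simp [herglotzRieszKernel_def, this]
  · simp only [Function.comp_apply]
    rw [re_circleAverage_herglotzRieszKernel_smul hm (b τ hτ),
      re_circleAverage_herglotzRieszKernel_smul hm (b _ (rt_mem h hτ)), ← av_mul_real]
    refine Real.circleAverage_mono (i _ (rt_mem h hτ)) (i τ hτ).const_smul fun ζ hζ => ?_
    rw [abs_one] at hζ
    simp only [Pi.smul_apply', Function.comp_apply, smul_eq_mul, ker hζ hτ,
      ker hζ (rt_mem h hτ), ← mul_assoc]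
    refine mul_le_mul_of_nonneg_right ?_ (m0 ζ hζ)
    have c1 := low r0 hζ hτ
    have c2 := low r0 hζ (rt_mem h hτ)
    have c3 : ‖ζ - ρ * τ‖ ≤ ‖ζ - ρ * rt h τ‖ + |h| := by
      have := norm_sub_le_norm_sub_add_norm_sub ζ (ρ * rt h τ) (ρ * τ)
      rw [← mul_sub, norm_mul] at this
      nlinarith [norm_rt_sub h (sphere_subset_closedBall hτ), norm_nonneg (rt h τ - τ)]
    have c4 : ‖ζ - ρ * τ‖ ≤ Real.exp (2 * Real.pi * N * |h|) * ‖ζ - ρ * rt h τ‖ := by
      rw [hρ, div_le_iff₀ (by positivity)] at c2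
      have : 0 ≤ N * |h| * ‖ζ - ρ * rt h τ‖ := by positivity
      nlinarith [mul_le_mul_of_nonneg_right (Real.add_one_le_exp (2 * Real.pi * N * |h|))
        (norm_nonneg (ζ - ρ * rt h τ)), mul_le_mul_of_nonneg_left c2 (abs_nonneg h), Real.pi_gt_three]
    rw [← mul_div_assoc, div_le_div_iff₀ (pow_pos (d0.trans_le c2) 2) (pow_pos (d0.trans_le c1) 2),
      mul_comm (Real.exp _), mul_assoc (1 - ρ ^ 2), show 4 * Real.pi * N * |h| =
        (2 : ℕ) * (2 * Real.pi * N * |h|) by push_cast; ring, Real.exp_nat_mul, ← mul_pow]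
    exact mul_le_mul_of_nonneg_left (pow_le_pow_left₀ (norm_nonneg _) c4 2) (by linarith)
  · have p : ∀ {f : ℂ → ℝ}, Function.Periodic (fun s => f (circleMap 0 1 s)) (2 * Real.pi) :=
      fun {f} => (periodic_circleMap 0 1).comp f
    have j := p.intervalIntegrable₀ Real.two_pi_pos.ne' (i _ (cm_mem θ))
    simp only [Function.comp_apply]
    rw [re_circleAverage_herglotzRieszKernel_smul hm (b _ (cm_mem θ)), Real.circleAverage_def,
      ← zero_add (2 * Real.pi), p.intervalIntegral_add_eq 0 (θ - Real.pi), zero_add, smul_eq_mul,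
      show ∀ x, 4 * Real.pi * (1 + N * r) ^ 2 * ((2 * Real.pi)⁻¹ * x) = 2 * (1 + N * r) ^ 2 * x from
        fun x => by field_simp; ring]
    refine le_trans ?_ (mul_le_mul_of_nonneg_left (intervalIntegral.integral_mono_interval
      (a := θ - r) (b := θ + r) (by linarith) (by linarith) (by linarith)
        (ae_of_all _ fun s => n _ (cm_mem θ) _ (cm_mem s)) (j _ _)) (by positivity))
    rw [← intervalIntegral.integral_const_mul, ← intervalIntegral.integral_const_mul]
    refine intervalIntegral.integral_mono_on (by linarith)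
      ((p.intervalIntegrable₀ Real.two_pi_pos.ne' hm _ _).const_mul _) ((j _ _).const_mul _)
      fun s hs => ?_
    simp only [Pi.smul_apply', Function.comp_apply, smul_eq_mul, ker (cm_mem s) (cm_mem θ),
      ← mul_assoc]
    refine mul_le_mul_of_nonneg_right ?_ (m0 _ (cm_mem s))
    have c1 := low r0 (cm_mem s) (cm_mem θ)
    have c2 := norm_rt_sub (s - θ) (sphere_subset_closedBall (cm_mem θ))
    have c3 := norm_sub_le_norm_sub_add_norm_sub (circleMap 0 1 s) (circleMap 0 1 θ)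
      (ρ * circleMap 0 1 θ)
    rw [rt_cm, add_sub_cancel] at c2
    rw [← one_sub_mul, norm_mul, norm_circleMap_zero, abs_one, mul_one, ← ofReal_one, ← ofReal_sub,
      norm_real, Real.norm_of_nonneg d0.le] at c3
    have c4 : |s - θ| ≤ r := abs_le.2 ⟨by linarith [hs.1], by linarith [hs.2]⟩
    have c5 : N * (1 - ρ) = 1 / 2 := by rw [hρ]; field_simp
    have c6 : N * ‖circleMap 0 1 s - ρ * circleMap 0 1 θ‖ ≤ 1 + N * r := by nlinarith
    have c7 := pow_le_pow_left₀ (by positivity) c6 2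
    rw [← mul_div_assoc, le_div_iff₀ (pow_pos (d0.trans_le c1) 2)]
    refine le_of_mul_le_mul_left (a := N) ?_ (by positivity)
    nlinarith [mul_le_mul_of_nonneg_left r2 (show 0 ≤ N * (1 + N * r) ^ 2 by positivity)]

end Vale.Agent.P253W.WM
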