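import Vale.Agent.P253W.WM.Basic

/-!
# P253W, block WM: closure properties of `DA` and `HW`
-/

open Complex Metric Set Filter Topology
open scoped Matrix ComplexConjugate ComplexOrder NNReal

noncomputable section

namespace Vale.Agent.P253W.WM

/-! ### the disc algebra -/

theorem da_const (c : ℂ) : DA fun _ => c := diffContOnCl_const

theorem da_id : DA fun τ => τ := differentiable_id.diffContOnCl

theorem DA.mul {f g : ℂ → ℂ} (hf : DA f) (hg : DA g) : DA fun τ => f τ * g τ :=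
  DA.mk' (hf.differentiableOn.mul hg.differentiableOn) (hf.cb.mul hg.cb)

theorem DA.add' {f g : ℂ → ℂ} (hf : DA f) (hg : DA g) : DA fun τ => f τ + g τ :=
  DA.mk' (hf.differentiableOn.add hg.differentiableOn) (hf.cb.add hg.cb)

theorem DA.sub' {f g : ℂ → ℂ} (hf : DA f) (hg : DA g) : DA fun τ => f τ - g τ :=
  DA.mk' (hf.differentiableOn.sub hg.differentiableOn) (hf.cb.sub hg.cb)

theorem DA.neg' {f : ℂ → ℂ} (hf : DA f) : DA fun τ => -f τ :=
  DA.mk' hf.differentiableOn.neg hf.cb.neg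

theorem DA.congr {f g : ℂ → ℂ} (hf : DA f) (h : ∀ τ ∈ closedBall (0 : ℂ) 1, g τ = f τ) : DA g :=
  DA.mk' (hf.differentiableOn.congr fun τ hτ => h τ (ball_subset_closedBall hτ)) (hf.cb.congr h)

theorem DA.sum {ι : Type*} (s : Finset ι) {f : ι → ℂ → ℂ} (hf : ∀ i ∈ s, DA (f i)) :
    DA fun τ => ∑ i ∈ s, f i τ :=
  DA.mk' (DifferentiableOn.fun_sum fun i hi => (hf i hi).differentiableOn)
    (continuousOn_finsetSum _ fun i hi => (hf i hi).cb)

theorem DA.prod {ι : Type*} (s : Finset ι) {f : ι → ℂ → ℂ} (hf : ∀ i ∈ s, DA (f i)) :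
    DA fun τ => ∏ i ∈ s, f i τ := by
  classical
  induction s using Finset.induction_on with
  | empty => simpa using da_const 1
  | insert a s ha ih =>
    simp only [Finset.prod_insert ha]
    exact (hf a (Finset.mem_insert_self _ _)).mul
      (ih fun i hi => hf i (Finset.mem_insert_of_mem hi))

theorem DA.pow {f : ℂ → ℂ} (hf : DA f) (n : ℕ) : DA fun τ => f τ ^ n :=
  DA.mk' (hf.differentiableOn.pow n) (hf.cb.pow n)

theorem DA.inv' {f : ℂ → ℂ} (hf : DA f) (h : ∀ τ ∈ closedBall (0 : ℂ) 1, f τ ≠ 0) :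
    DA fun τ => (f τ)⁻¹ :=
  DA.mk' (hf.differentiableOn.inv fun τ hτ => h τ (ball_subset_closedBall hτ)) (hf.cb.inv₀ h)

theorem DA.exp {f : ℂ → ℂ} (hf : DA f) : DA fun τ => Complex.exp (f τ) :=
  DA.mk' hf.differentiableOn.cexp hf.cb.cexp

theorem mul_mem_cb {ρ τ : ℂ} (hρ : ‖ρ‖ ≤ 1) (hτ : τ ∈ closedBall (0 : ℂ) 1) :
    ρ * τ ∈ closedBall (0 : ℂ) 1 := by
  have h : ‖τ‖ ≤ 1 := by simpa using hτ
  simp only [mem_closedBall, dist_zero_right, norm_mul]
  exact mul_le_one₀ hρ (norm_nonneg _) h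

theorem mul_mem_ball {ρ τ : ℂ} (hρ : ‖ρ‖ ≤ 1) (hτ : τ ∈ ball (0 : ℂ) 1) :
    ρ * τ ∈ ball (0 : ℂ) 1 := by
  have h : ‖τ‖ < 1 := by simpa using hτ
  simp only [mem_ball, dist_zero_right, norm_mul]
  exact mul_lt_one_of_nonneg_of_lt_one_right hρ (norm_nonneg _) h

theorem mul_mem_ball' {ρ τ : ℂ} (hρ : ‖ρ‖ < 1) (hτ : τ ∈ closedBall (0 : ℂ) 1) :
    ρ * τ ∈ ball (0 : ℂ) 1 := by
  have h : ‖τ‖ ≤ 1 := by simpa using hτ
  simp only [mem_ball, dist_zero_right, norm_mul]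
  exact mul_lt_one_of_nonneg_of_lt_one_left (norm_nonneg _) hρ h

theorem DA.dil {f : ℂ → ℂ} (hf : DA f) {ρ : ℂ} (hρ : ‖ρ‖ ≤ 1) : DA fun τ => f (ρ * τ) :=
  DA.mk' (hf.differentiableOn.comp (by fun_prop) fun _ hτ => mul_mem_ball hρ hτ)
    (hf.cb.comp (by fun_prop) fun _ hτ => mul_mem_cb hρ hτ)

theorem DA.det {ι : Type*} [Fintype ι] [DecidableEq ι] {A : ℂ → Matrix ι ι ℂ}
    (hA : ∀ i j, DA fun τ => A τ i j) : DA fun τ => (A τ).det := by
  simp only [Matrix.det_apply']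
  exact DA.sum _ fun σ _ => (da_const _).mul (DA.prod _ fun i _ => hA _ _)

theorem DA.adjugate {ι : Type*} [Fintype ι] [DecidableEq ι] {A : ℂ → Matrix ι ι ℂ}
    (hA : ∀ i j, DA fun τ => A τ i j) (i j : ι) : DA fun τ => (A τ).adjugate i j := by
  simp only [Matrix.adjugate_apply]
  refine DA.det fun a b => ?_
  by_cases h : a = j
  · subst h
    simpa using da_const _
  · simpa [Matrix.updateRow_ne h] using hA a b

theorem DA.matInv {ι : Type*} [Fintype ι] [DecidableEq ι] {A : ℂ → Matrix ι ι ℂ}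
    (hA : ∀ i j, DA fun τ => A τ i j) (h : ∀ τ ∈ closedBall (0 : ℂ) 1, (A τ).det ≠ 0) (i j : ι) :
    DA fun τ => (A τ)⁻¹ i j := by
  simp only [Matrix.inv_def, Ring.inverse_eq_inv', Matrix.smul_apply, smul_eq_mul]
  exact ((DA.det hA).inv' h).mul (DA.adjugate hA i j)

theorem DA.matMul {ι κ μ : Type*} [Fintype κ] {A : ℂ → Matrix ι κ ℂ} {B : ℂ → Matrix κ μ ℂ}
    (hA : ∀ i j, DA fun τ => A τ i j) (hB : ∀ i j, DA fun τ => B τ i j) (i : ι) (j : μ) :
    DA fun τ => (A τ * B τ) i j := by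
  simp only [Matrix.mul_apply]
  exact DA.sum _ fun k _ => (hA i k).mul (hB k j)

/-- uniform limits -/
theorem DA.lim {ι : Type*} {l : Filter ι} [l.NeBot] {u : ι → ℂ → ℂ} {w : ℂ → ℂ}
    (hu : ∀ᶠ i in l, DA (u i)) (h : TendstoUniformlyOn u w l (closedBall 0 1)) : DA w :=
  DA.mk' ((h.mono ball_subset_closedBall).tendstoLocallyUniformlyOn.differentiableOn
    (hu.mono fun _ hi => hi.differentiableOn) isOpen_ball)
    (h.continuousOn (hu.mono fun _ hi => hi.cb).frequently)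

/-- boundary values determine the function -/
theorem DA.eq_of_sphere {f g : ℂ → ℂ} (hf : DA f) (hg : DA g)
    (h : ∀ τ ∈ sphere (0 : ℂ) 1, f τ = g τ) : ∀ τ ∈ closedBall (0 : ℂ) 1, f τ = g τ := by
  intro τ hτ
  have := (hf.sub' hg).norm_le (C := 0) (fun z hz => by simp [h z hz]) τ hτ
  simpa [sub_eq_zero] using this

/-- a zero free function of constant modulus on the circle is constant -/
theorem DA.const_of_norm {f : ℂ → ℂ} (hf : DA f) (h0 : ∀ τ ∈ closedBall (0 : ℂ) 1, f τ ≠ 0)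
    (h : ∀ τ ∈ sphere (0 : ℂ) 1, ‖f τ‖ = 1) : ∀ τ ∈ closedBall (0 : ℂ) 1, f τ = f 0 := by
  have h1 := hf.norm_le (C := 1) fun z hz => (h z hz).le
  have h2 := (hf.inv' h0).norm_le (C := 1) fun z hz => by rw [norm_inv, h z hz, inv_one]
  have z0 : (0 : ℂ) ∈ closedBall (0 : ℂ) 1 := by simp
  have h3 : 1 ≤ ‖f 0‖ := by
    have := h2 0 z0
    rw [norm_inv] at this
    exact (inv_le_one₀ (norm_pos_iff.2 (h0 0 z0))).1 this
  have h4 : EqOn f (Function.const ℂ (f 0)) (ball 0 1) :=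
    Complex.eqOn_of_isPreconnected_of_isMaxOn_norm (convex_ball _ _).isPreconnected isOpen_ball
      hf.differentiableOn (by simp) fun z hz => (h1 z (ball_subset_closedBall hz)).trans h3
  have h5 := h4.of_subset_closure hf.cb continuousOn_const ball_subset_closedBall
    (by rw [closure_ball _ one_ne_zero])
  exact fun τ hτ => h5 hτ

/-- a function with vanishing real part on the circle is constant -/
theorem DA.const_of_re {f : ℂ → ℂ} (hf : DA f) (h : ∀ τ ∈ sphere (0 : ℂ) 1, (f τ).re = 0) :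
    ∀ τ ∈ closedBall (0 : ℂ) 1, f τ = f 0 := by
  have h1 := hf.exp.const_of_norm (fun τ _ => Complex.exp_ne_zero _) fun τ hτ => by
    rw [Complex.norm_exp, h τ hτ, Real.exp_zero]
  have h2 : ∀ τ ∈ ball (0 : ℂ) 1, deriv f τ = 0 := by
    intro τ hτ
    have d := (hf.differentiableOn.differentiableAt (isOpen_ball.mem_nhds hτ)).hasDerivAt
    have e : (fun τ => Complex.exp (f τ)) =ᶠ[𝓝 τ] fun _ => Complex.exp (f 0) := by
      filter_upwards [isOpen_ball.mem_nhds hτ] with z hz using h1 z (ball_subset_closedBall hz)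
    have d2 := (d.cexp.congr_of_eventuallyEq e.symm).unique (hasDerivAt_const τ _)
    simpa using d2
  have h4 : EqOn f (Function.const ℂ (f 0)) (ball 0 1) := fun z hz =>
    isOpen_ball.is_const_of_deriv_eq_zero (convex_ball _ _).isPreconnected hf.differentiableOn
      h2 hz (by simp)
  have h5 := h4.of_subset_closure hf.cb continuousOn_const ball_subset_closedBall
    (by rw [closure_ball _ one_ne_zero])
  exact fun τ hτ => h5 hτ

/-- holomorphic and antiholomorphic: constant -/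
theorem DA.const_of_conj {f g : ℂ → ℂ} (hf : DA f) (hg : DA g)
    (h : ∀ τ ∈ sphere (0 : ℂ) 1, f τ = conj (g τ)) : ∀ τ ∈ closedBall (0 : ℂ) 1, f τ = f 0 := by
  have h1 := (hf.sub' hg).const_of_re fun τ hτ => by simp [h τ hτ]
  have h2 := ((da_const I).mul (hf.add' hg)).const_of_re fun τ hτ => by simp [h τ hτ]
  intro τ hτ
  have a := h1 τ hτ
  have b := mul_left_cancel₀ I_ne_zero (h2 τ hτ)
  linear_combination (a + b) / 2

/-! ### the `W^{1,2}` disc algebra -/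

theorem HW.cb {f : ℂ → ℂ} (hf : HW f) : ContinuousOn f (closedBall 0 1) := hf.da.cb

theorem HW.cs {f : ℂ → ℂ} (hf : HW f) : ContinuousOn f (sphere 0 1) := hf.da.cs

theorem hw_const (c : ℂ) : HW fun _ => c := ⟨da_const c, w12_const c⟩

theorem hw_id : HW fun τ => τ := ⟨da_id, dq_id.w12⟩

theorem HW.congr {f g : ℂ → ℂ} (hf : HW f) (h : ∀ τ ∈ closedBall (0 : ℂ) 1, g τ = f τ) : HW g :=
  ⟨hf.da.congr h, hf.w.congr fun τ hτ => h τ (sphere_subset_closedBall hτ)⟩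

theorem HW.add {f g : ℂ → ℂ} (hf : HW f) (hg : HW g) : HW fun τ => f τ + g τ :=
  ⟨hf.da.add' hg.da, hf.w.add hg.w⟩

theorem HW.sub {f g : ℂ → ℂ} (hf : HW f) (hg : HW g) : HW fun τ => f τ - g τ :=
  ⟨hf.da.sub' hg.da, hf.w.sub hg.w⟩

theorem HW.neg {f : ℂ → ℂ} (hf : HW f) : HW fun τ => -f τ := ⟨hf.da.neg', hf.w.neg⟩

theorem HW.mul {f g : ℂ → ℂ} (hf : HW f) (hg : HW g) : HW fun τ => f τ * g τ :=
  ⟨hf.da.mul hg.da, hf.w.mul hg.w⟩

theorem HW.sum {ι : Type*} (s : Finset ι) {f : ι → ℂ → ℂ} (hf : ∀ i ∈ s, HW (f i)) :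
    HW fun τ => ∑ i ∈ s, f i τ :=
  ⟨DA.sum s fun i hi => (hf i hi).da, W12.sum s fun i hi => (hf i hi).w⟩

theorem HW.prod {ι : Type*} (s : Finset ι) {f : ι → ℂ → ℂ} (hf : ∀ i ∈ s, HW (f i)) :
    HW fun τ => ∏ i ∈ s, f i τ := by
  classical
  induction s using Finset.induction_on with
  | empty => simpa using hw_const 1
  | insert a s ha ih =>
    simp only [Finset.prod_insert ha]
    exact (hf a (Finset.mem_insert_self _ _)).mul
      (ih fun i hi => hf i (Finset.mem_insert_of_mem hi))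

theorem HW.pow {f : ℂ → ℂ} (hf : HW f) (n : ℕ) : HW fun τ => f τ ^ n := by
  simpa using HW.prod (Finset.range n) (f := fun _ => f) fun _ _ => hf

theorem HW.inv {f : ℂ → ℂ} (hf : HW f) (h : ∀ τ ∈ closedBall (0 : ℂ) 1, f τ ≠ 0) :
    HW fun τ => (f τ)⁻¹ :=
  ⟨hf.da.inv' h, hf.w.comp_contDiff (Φ := fun z : ℂ => z⁻¹) fun τ hτ =>
    (contDiffAt_inv ℝ (h τ (sphere_subset_closedBall hτ)))⟩

theorem HW.exp {f : ℂ → ℂ} (hf : HW f) : HW fun τ => Complex.exp (f τ) :=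
  ⟨hf.da.exp, hf.w.comp_contDiff (Φ := Complex.exp) fun _ _ => Complex.contDiff_exp.contDiffAt⟩

theorem HW.rt {f : ℂ → ℂ} (hf : HW f) (h : ℝ) : HW fun τ => f (rt h τ) :=
  ⟨hf.da.rt h, ⟨_, hf.w.choose_spec.rot h⟩⟩

/-- functions that are holomorphic near the closed disc -/
theorem hw_of_analytic {f : ℂ → ℂ} (hf : ∀ τ ∈ closedBall (0 : ℂ) 1, AnalyticAt ℂ f τ) : HW f :=
  ⟨DA.mk' (fun τ hτ => (hf τ (ball_subset_closedBall hτ)).differentiableAt.differentiableWithinAt)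
    fun τ hτ => (hf τ hτ).continuousAt.continuousWithinAt,
    dq_id.w12.comp_contDiff (Φ := f) fun τ hτ =>
      ((hf τ (sphere_subset_closedBall hτ)).contDiffAt (n := 1)).restrict_scalars ℝ⟩

theorem hw_of_differentiable {f : ℂ → ℂ} (hf : Differentiable ℂ f) : HW f :=
  hw_of_analytic fun τ _ => hf.analyticAt τ

theorem hw_of_ball {f : ℂ → ℂ} (hf : DifferentiableOn ℂ f (ball 0 1)) {ρ : ℂ} (hρ : ‖ρ‖ < 1) :
    HW fun τ => f (ρ * τ) :=
  hw_of_analytic fun τ hτ =>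
    AnalyticAt.comp (g := f) (f := fun τ => ρ * τ)
      (hf.analyticAt (isOpen_ball.mem_nhds (mul_mem_ball' hρ hτ))) (by fun_prop)

theorem HW.dil {f : ℂ → ℂ} (hf : HW f) {ρ : ℝ} (h0 : 0 ≤ ρ) (h1 : ρ ≤ 1) :
    HW fun τ => f (ρ * τ) := by
  rcases h1.eq_or_lt with rfl | h
  · simpa using hf
  · exact hw_of_ball hf.da.differentiableOn (by simpa [abs_of_nonneg h0] using h)

theorem HWv.w12 {ι : Type*} [Fintype ι] {f : ℂ → ι → ℂ} (hf : HWv f) : W12 f :=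
  W12.pi fun i => (hf i).w

theorem HWv.cb {ι : Type*} {f : ℂ → ι → ℂ} (hf : HWv f) : ContinuousOn f (closedBall 0 1) :=
  continuousOn_pi.2 fun i => (hf i).cb

/-- composition with a holomorphic function of several variables -/
theorem HWv.comp {ι : Type*} [Fintype ι] {f : ℂ → ι → ℂ} (hf : HWv f) {Φ : (ι → ℂ) → ℂ}
    (hΦ : ∀ τ ∈ closedBall (0 : ℂ) 1, ContDiffAt ℂ 1 Φ (f τ)) : HW fun τ => Φ (f τ) := by
  refine ⟨DA.mk' (fun τ hτ => ?_) fun τ hτ => ?_, hf.w12.comp_contDiff fun τ hτ =>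
    (hΦ τ (sphere_subset_closedBall hτ)).restrict_scalars ℝ⟩
  · exact ((hΦ τ (ball_subset_closedBall hτ)).differentiableAt
      one_ne_zero).comp_differentiableWithinAt τ
      (differentiableWithinAt_pi.2 fun i => (hf i).da.differentiableOn τ hτ)
  · exact (hΦ τ hτ).continuousAt.comp_continuousWithinAt (hf.cb τ hτ)

theorem HWv.add {ι : Type*} {f g : ℂ → ι → ℂ} (hf : HWv f) (hg : HWv g) : HWv (f + g) :=
  fun i => (hf i).add (hg i)

theorem HWv.sub {ι : Type*} {f g : ℂ → ι → ℂ} (hf : HWv f) (hg : HWv g) : HWv (f - g) :=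
  fun i => (hf i).sub (hg i)

theorem hwm_const {ι κ : Type*} (c : Matrix ι κ ℂ) : HWm fun _ => c := fun i j => hw_const (c i j)

theorem HWm.da {ι κ : Type*} {A : ℂ → Matrix ι κ ℂ} (hA : HWm A) (i : ι) (j : κ) :
    DA fun τ => A τ i j := (hA i j).da

theorem HWm.cb {ι κ : Type*} {A : ℂ → Matrix ι κ ℂ} (hA : HWm A) :
    ContinuousOn A (closedBall 0 1) :=
  continuousOn_pi.2 fun i => continuousOn_pi.2 fun j => (hA i j).cb

theorem HWm.congr {ι κ : Type*} {A B : ℂ → Matrix ι κ ℂ} (hA : HWm A)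
    (h : ∀ τ ∈ closedBall (0 : ℂ) 1, B τ = A τ) : HWm B :=
  fun i j => (hA i j).congr fun τ hτ => by rw [h τ hτ]

theorem HWm.add {ι κ : Type*} {A B : ℂ → Matrix ι κ ℂ} (hA : HWm A) (hB : HWm B) :
    HWm fun τ => A τ + B τ := fun i j => (hA i j).add (hB i j)

theorem HWm.sub {ι κ : Type*} {A B : ℂ → Matrix ι κ ℂ} (hA : HWm A) (hB : HWm B) :
    HWm fun τ => A τ - B τ := fun i j => (hA i j).sub (hB i j)

theorem HWm.smul {ι κ : Type*} {c : ℂ → ℂ} {A : ℂ → Matrix ι κ ℂ} (hc : HW c) (hA : HWm A) :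
    HWm fun τ => c τ • A τ := fun i j => hc.mul (hA i j)

theorem HWm.sum {ι κ μ : Type*} (s : Finset μ) {A : μ → ℂ → Matrix ι κ ℂ}
    (hA : ∀ m ∈ s, HWm (A m)) : HWm fun τ => ∑ m ∈ s, A m τ := fun i j => by
  simp only [Matrix.sum_apply]
  exact HW.sum s fun m hm => hA m hm i j

theorem HWm.mul {ι κ μ : Type*} [Fintype κ] {A : ℂ → Matrix ι κ ℂ} {B : ℂ → Matrix κ μ ℂ}
    (hA : HWm A) (hB : HWm B) : HWm fun τ => A τ * B τ := fun i j => by
  simp only [Matrix.mul_apply]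
  exact HW.sum _ fun k _ => (hA i k).mul (hB k j)

theorem HWm.mulVec {ι κ : Type*} [Fintype κ] {A : ℂ → Matrix ι κ ℂ} {v : ℂ → κ → ℂ}
    (hA : HWm A) (hv : HWv v) : HWv fun τ => A τ *ᵥ v τ := fun i => by
  simp only [Matrix.mulVec, dotProduct]
  exact HW.sum _ fun k _ => (hA i k).mul (hv k)

theorem HWm.det {ι : Type*} [Fintype ι] [DecidableEq ι] {A : ℂ → Matrix ι ι ℂ} (hA : HWm A) :
    HW fun τ => (A τ).det := by
  simp only [Matrix.det_apply']
  exact HW.sum _ fun σ _ => (hw_const _).mul (HW.prod _ fun i _ => hA _ _)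

theorem HWm.adjugate {ι : Type*} [Fintype ι] [DecidableEq ι] {A : ℂ → Matrix ι ι ℂ} (hA : HWm A) :
    HWm fun τ => (A τ).adjugate := fun i j => by
  simp only [Matrix.adjugate_apply]
  refine HWm.det fun a b => ?_
  by_cases h : a = j
  · subst h
    simpa using hw_const _
  · simpa [Matrix.updateRow_ne h] using hA a b

theorem HWm.inv {ι : Type*} [Fintype ι] [DecidableEq ι] {A : ℂ → Matrix ι ι ℂ} (hA : HWm A)
    (h : ∀ τ ∈ closedBall (0 : ℂ) 1, (A τ).det ≠ 0) : HWm fun τ => (A τ)⁻¹ := fun i j => by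
  simp only [Matrix.inv_def, Ring.inverse_eq_inv', Matrix.smul_apply, smul_eq_mul]
  exact (hA.det.inv h).mul (hA.adjugate i j)

theorem HWm.dil {ι κ : Type*} {A : ℂ → Matrix ι κ ℂ} (hA : HWm A) {ρ : ℝ} (h0 : 0 ≤ ρ)
    (h1 : ρ ≤ 1) : HWm fun τ => A (ρ * τ) := fun i j => (hA i j).dil h0 h1

theorem HWm.exists_dqm {ι κ : Type*} [Finite ι] [Finite κ] {A : ℂ → Matrix ι κ ℂ} (hA : HWm A) :
    ∃ B, 0 ≤ B ∧ Dqm B A := by
  obtain ⟨B, h0, hB⟩ := exists_dq_common (u := fun (p : ι × κ) τ => A τ p.1 p.2)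
    fun p => (hA p.1 p.2).w
  exact ⟨B, h0, fun i j => hB (i, j)⟩

theorem HWv.exists_dqv {ι : Type*} [Finite ι] {f : ℂ → ι → ℂ} (hf : HWv f) :
    ∃ B, 0 ≤ B ∧ Dqv B f := exists_dq_common (u := fun i τ => f τ i) fun i => (hf i).w

theorem Dqm.conjTranspose {ι κ : Type*} {B : ℝ} {A : ℂ → Matrix ι κ ℂ} (hA : Dqm B A) :
    Dqm B fun τ => (A τ)ᴴ := fun i j => (hA j i).conj

theorem Dqm.mono {ι κ : Type*} {B C : ℝ} {A : ℂ → Matrix ι κ ℂ} (hA : Dqm B A) (h : B ≤ C) :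
    Dqm C A := fun i j => (hA i j).mono h

theorem Dqm.congr {ι κ : Type*} {B : ℝ} {A A' : ℂ → Matrix ι κ ℂ} (hA : Dqm B A)
    (h : ∀ τ ∈ sphere (0 : ℂ) 1, A' τ = A τ) : Dqm B A' :=
  fun i j => (hA i j).congr fun τ hτ => by rw [h τ hτ]

theorem Dqm.mul {ι κ μ : Type*} [Fintype κ] {A : ℂ → Matrix ι κ ℂ} {B : ℂ → Matrix κ μ ℂ}
    {a b x y : ℝ} (hA : Dqm x A) (hB : Dqm y B)
    (ha : ∀ τ ∈ sphere (0 : ℂ) 1, ∀ i j, ‖A τ i j‖ ≤ a)
    (hb : ∀ τ ∈ sphere (0 : ℂ) 1, ∀ i j, ‖B τ i j‖ ≤ b) :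
    Dqm (Fintype.card κ * (b * x + a * y)) fun τ => A τ * B τ := fun i j => by
  simp only [Matrix.mul_apply]
  have := Dq.sum Finset.univ (A := fun _ : κ => b * x + a * y)
    (u := fun k τ => A τ i k * B τ k j) fun k _ =>
      (hA i k).mul (hB k j) (fun τ hτ => ha τ hτ i k) fun τ hτ => hb τ hτ k j
  rwa [Finset.sum_const, Finset.card_univ, nsmul_eq_mul] at this

theorem norm_mul_apply_le {ι κ μ : Type*} [Fintype κ] {A : Matrix ι κ ℂ} {B : Matrix κ μ ℂ}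
    {a b : ℝ} (ha : ∀ i j, ‖A i j‖ ≤ a) (hb : ∀ i j, ‖B i j‖ ≤ b) (i : ι) (j : μ) :
    ‖(A * B) i j‖ ≤ Fintype.card κ * (a * b) := by
  rw [Matrix.mul_apply]
  calc _ ≤ ∑ k, ‖A i k * B k j‖ := norm_sum_le _ _
    _ ≤ ∑ _k : κ, a * b := Finset.sum_le_sum fun k _ => by
        rw [norm_mul]
        exact mul_le_mul (ha i k) (hb k j) (norm_nonneg _) ((norm_nonneg _).trans (ha i k))
    _ = _ := by simp

/-- `exp` is Lipschitz on half planes -/
theorem Dq.exp {A M : ℝ} {u : ℂ → ℂ} (hu : Dq A u) (hM : ∀ τ ∈ sphere (0 : ℂ) 1, (u τ).re ≤ M) :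
    Dq (Real.exp M * A) fun τ => Complex.exp (u τ) := by
  refine hu.of_le (Real.exp_pos M).le fun σ hσ τ hτ => ?_
  simp only [dist_eq_norm]
  refine (convex_halfSpace_re_le M).norm_image_sub_le_of_norm_deriv_le (𝕜 := ℂ) (f := Complex.exp)
    (fun x _ => Complex.differentiable_exp x) (fun x hx => ?_) (hM τ hτ) (hM σ hσ)
  rw [Complex.deriv_exp, Complex.norm_exp]
  exact Real.exp_le_exp.2 hx

end Vale.Agent.P253W.WM
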