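import Vale.Agent.P253W.WM.Defs

/-!
# P253W, block WM: the variational principle of Borwein and Preiss
-/

open Metric Set Filter Topology
open scoped RealInnerProductSpace

noncomputable section

namespace Vale.Agent.P253W.WM

namespace Bpa

variable {H : Type} [NormedAddCommGroup H] [InnerProductSpace ℝ H] {X : Type}

/-- the perturbed function -/
def G (Z : X → H) (F : X → ℝ) (lam : ℝ) (k : ℕ) (s : H) (y : X) : ℝ :=
  F y + lam * ((1 - (1 / 2) ^ (k + 1)) * ‖Z y‖ ^ 2 - 2 * ⟪s, Z y⟫)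

variable {Z : X → H} {F : X → ℝ} {ε lam : ℝ} {x1 : X}

theorem G_succ (k : ℕ) (s : H) (x y : X) : G Z F lam (k + 1) (s + (1 / 2 : ℝ) ^ (k + 2) • Z x) y =
    G Z F lam k s y + lam * (1 / 2) ^ (k + 2) * (‖Z y - Z x‖ ^ 2 - ‖Z x‖ ^ 2) := by
  rw [G, G, norm_sub_sq_real, inner_add_left, real_inner_smul_left, real_inner_comm (Z x)]
  ring

theorem step (hl : 0 < lam) (h : ∀ x, F x1 ≤ F x + ε) {δ : ℝ} (hδ : 0 < δ) (k : ℕ) (x : X) (s : H) :
    ∃ x', G Z F lam k s x' ≤ G Z F lam k s x ∧ ∀ y, G Z F lam k s x' ≤ G Z F lam k s y + δ := by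
  have b : BddBelow (range (G Z F lam k s)) := ⟨F x1 - ε - lam * (2 * ‖s‖ ^ 2), by
    rintro _ ⟨y, rfl⟩
    have h1 : (1 / 2 : ℝ) ^ (k + 1) ≤ 1 / 2 := pow_le_of_le_one (by norm_num) (by norm_num) k.succ_ne_zero
    have h2 : -(2 * ‖s‖ ^ 2) ≤ (1 - (1 / 2) ^ (k + 1)) * ‖Z y‖ ^ 2 - 2 * ⟪s, Z y⟫ := by
      nlinarith [real_inner_le_norm s (Z y), sq_nonneg (‖Z y‖ - 2 * ‖s‖), sq_nonneg ‖Z y‖]
    have := mul_le_mul_of_nonneg_left h2 hl.le
    rw [G]
    linarith [h y]⟩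
  have : Nonempty X := ⟨x⟩
  obtain ⟨x', hx⟩ := exists_lt_of_ciInf_lt (lt_add_of_pos_right (⨅ y, G Z F lam k s y) hδ)
  rcases le_total (G Z F lam k s x') (G Z F lam k s x) with a | a
  · exact ⟨x', a, fun y => by linarith [ciInf_le b y]⟩
  · exact ⟨x, le_rfl, fun y => by linarith [ciInf_le b y]⟩

theorem main [CompleteSpace H] (he : 0 < ε) (hl : 0 < lam) (h : ∀ x, F x1 ≤ F x + ε)
    (h0 : Z x1 = 0) : ∃ (x : ℕ → X) (z g : H), (∀ k, F (x k) ≤ F x1) ∧
      Tendsto (fun k => Z (x k)) atTop (𝓝 z) ∧ ‖z‖ ^ 2 ≤ 8 * ε / lam ∧ ‖g‖ ^ 2 ≤ 8 * ε / lam ∧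
      ∀ c, (∀ η : ℝ, 0 < η → ∀ᶠ k in atTop, c ≤ F (x k) + η) →
        ∀ y, c + lam * ‖z - g‖ ^ 2 ≤ F y + lam * ‖Z y - g‖ ^ 2 := by
  choose nx n1 n2 using fun k => step (Z := Z) hl h
    (show 0 < ε * (1 / 8) ^ (k + 1) by positivity) k
  obtain ⟨p, p0, p1⟩ : ∃ p : ℕ → X × H, p 0 = (x1, 0) ∧ ∀ k, p (k + 1) = (nx k (p k).1 (p k).2,
      (p k).2 + (1 / 2 : ℝ) ^ (k + 2) • Z (nx k (p k).1 (p k).2)) :=
    ⟨fun n => n.rec (x1, 0) fun k q => (nx k q.1 q.2, q.2 + (1 / 2 : ℝ) ^ (k + 2) • Z (nx k q.1 q.2)),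
      rfl, fun _ => rfl⟩
  have M : ∀ k y, G Z F lam k (p k).2 (p k).1 + lam * (1 / 2) ^ (k + 1) * ‖Z y - Z (p k).1‖ ^ 2 ≤
      G Z F lam k (p k).2 y + ε * (1 / 8) ^ k := fun k y => by
    cases k with
    | zero => simp only [p0, G, h0]; simp; linarith [h y]
    | succ k =>
      simp only [p1, G_succ, sub_self, norm_zero]
      linarith [n2 k (p k).1 (p k).2 y]
  have N : ∀ k y, G Z F lam k (p k).2 (p k).1 + F y ≤ F x1 + G Z F lam k (p k).2 y := fun k y => by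
    induction k with
    | zero => simp only [p0, G, h0]; simp; positivity
    | succ k ih =>
      simp only [p1, G_succ, sub_self, norm_zero]
      have : 0 ≤ lam * (1 / 2) ^ (k + 2) * ‖Z y - Z (nx k (p k).1 (p k).2)‖ ^ 2 := by positivity
      linarith [n1 k (p k).1 (p k).2]
  obtain ⟨a, a0, ha⟩ : ∃ a ≥ (0 : ℝ), a ^ 2 = 2 * ε / lam := ⟨_, Real.sqrt_nonneg _,
    Real.sq_sqrt (by positivity)⟩
  have d : ∀ k, dist (Z (p k).1) (Z (p (k + 1)).1) ≤ a * (1 / 2) ^ k := fun k => by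
    refine (pow_le_pow_iff_left₀ dist_nonneg (by positivity) two_ne_zero).1 (le_of_mul_le_mul_left
      (a := lam * (1 / 2) ^ (k + 1)) ?_ (by positivity))
    have := M k (p (k + 1)).1
    rw [dist_comm, dist_eq_norm, mul_pow a, ha, show lam * (1 / 2) ^ (k + 1) * (2 * ε / lam *
      ((1 / 2) ^ k) ^ 2) = ε * ((1 / 2) ^ 3) ^ k by rw [← pow_mul, ← pow_mul]; field_simp; ring]
    rw [p1] at this ⊢
    norm_num at this ⊢
    linarith [n1 k (p k).1 (p k).2]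
  obtain ⟨z, hz⟩ := cauchySeq_tendsto_of_complete (cauchySeq_of_le_geometric _ _ one_half_lt_one d)
  have z1 := dist_le_of_le_geometric_of_tendsto _ _ one_half_lt_one d hz
  have z0 : ‖z‖ ≤ 2 * a := by
    simpa [p0, h0, show (1 - 2⁻¹ : ℝ) = 2⁻¹ by norm_num, mul_comm] using z1 0
  have e : ∀ k, dist (p k).2 (p (k + 1)).2 ≤ a * (1 / 2) ^ k := fun k => by
    have b := z1 (k + 1)
    have c : (1 / 2 : ℝ) ^ (k + 1) ≤ 1 := pow_le_one₀ (by norm_num) (by norm_num)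
    have : ‖Z (p (k + 1)).1‖ ≤ 4 * a := by
      rw [dist_eq_norm, le_div_iff₀ (by norm_num)] at b
      nlinarith [norm_le_norm_add_norm_sub' (Z (p (k + 1)).1) z]
    rw [p1] at this ⊢
    rw [dist_self_add_right, norm_smul, Real.norm_of_nonneg (by positivity)]
    exact (mul_le_mul_of_nonneg_left this (by positivity)).trans_eq (by ring)
  obtain ⟨g, hg⟩ := cauchySeq_tendsto_of_complete (cauchySeq_of_le_geometric _ _ one_half_lt_one e)
  have g0 : ‖g‖ ≤ 2 * a := by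
    simpa [p0, show (1 - 2⁻¹ : ℝ) = 2⁻¹ by norm_num, mul_comm] using
      dist_le_of_le_geometric_of_tendsto₀ _ _ one_half_lt_one e hg
  have sq : ∀ v : H, ‖v‖ ≤ 2 * a → ‖v‖ ^ 2 ≤ 8 * ε / lam := fun v hv =>
    (pow_le_pow_left₀ (norm_nonneg _) hv 2).trans_eq (by rw [mul_pow, ha]; ring)
  refine ⟨fun k => (p k).1, z, g, fun k => by linarith [N k (p k).1], hz, sq z z0, sq g g0,
    fun c hc y => le_of_forall_pos_le_add fun η e0 => ?_⟩
  have w := ((tendsto_pow_atTop_nhds_zero_of_lt_one (r := (1 / 2 : ℝ)) one_half_pos.le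
    one_half_lt_one).comp (tendsto_add_atTop_nat 1)).const_sub 1
  have := le_of_tendsto_of_tendsto
    ((((w.mul (hz.norm.pow 2)).sub ((hg.inner (𝕜 := ℝ) hz).const_mul 2)).const_mul lam).const_add c)
    ((((((w.mul_const (‖Z y‖ ^ 2)).sub ((hg.inner (𝕜 := ℝ) (tendsto_const_nhds (x := Z y))).const_mul
      2)).const_mul lam).const_add (F y)).add ((tendsto_pow_atTop_nhds_zero_of_lt_one
        (r := (1 / 8 : ℝ)) (by norm_num) (by norm_num)).const_mul ε)).add_const η)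
    ((hc η e0).mono fun k hk => by
      have := M k y
      have : 0 ≤ lam * (1 / 2) ^ (k + 1) * ‖Z y - Z (p k).1‖ ^ 2 := by positivity
      simp only [G, Function.comp] at *
      linarith)
  rw [norm_sub_sq_real, norm_sub_sq_real, real_inner_comm, real_inner_comm g]
  linarith

end Bpa

theorem bpa : BPA := by
  intro H _ _ _ X Y F ε lam x1 he hl h hc
  let := InnerProductSpace.complexToReal (G := H)
  obtain ⟨x, z, g, a1, a2, a3, a4, a5⟩ := Bpa.main (Z := fun y => Y y - Y x1) he hl h (sub_self _)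
  obtain ⟨x', b1, b2⟩ := hc x (z + Y x1) a1 (by simpa using a2.add_const (Y x1))
  have e : ∀ v, v - (g + Y x1) = v - Y x1 - g := fun v => by abel
  have c := a5 _ b2
  have d := c x1
  rw [sub_self, zero_sub, norm_neg] at d
  rw [le_div_iff₀ hl] at a3 a4
  refine ⟨x', g + Y x1, le_of_forall_pos_le_add fun η e0 => ?_, ?_, ?_, fun y => ?_⟩
  · obtain ⟨k, hk⟩ := (b2 η e0).exists
    linarith [a1 k]
  · rw [b1, add_sub_cancel_right, le_div_iff₀ hl]
    linarith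
  · rw [e, b1, add_sub_cancel_right, le_div_iff₀ hl]
    linarith [h x']
  · rw [e, e, b1, add_sub_cancel_right]
    exact c y

end Vale.Agent.P253W.WM
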