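import Vale.Agent.P253W.WM.Defs2

/-!
# P253W, block WM: Taylor expansion of holomorphic families
-/

set_option linter.all false

open Complex Metric Set Filter Topology
open scoped Matrix ComplexConjugate ComplexOrder

noncomputable section

namespace Vale.Agent.P253W.WM

namespace Fam

/-- the Taylor remainder of a bounded holomorphic function -/
theorem rem {g : ℂ → ℂ} {c s : ℂ} {R M : ℝ} (hd : DifferentiableOn ℂ g (ball c R))
    (hM : ∀ z ∈ ball c R, ‖g z‖ ≤ M) (hs : s ∈ ball c R) :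
    ‖g s - g c - (s - c) * deriv g c‖ ≤ 4 * M / R ^ 2 * ‖s - c‖ ^ 2 := by
  have R0 : 0 < R := nonempty_ball.1 ⟨s, hs⟩
  have k : ∀ {f : ℂ → ℂ} {N : ℝ}, (∀ z ∈ ball c R, ‖f z‖ ≤ N) →
      MapsTo f (ball c R) (closedBall (f c) (2 * N)) := fun h z hz =>
    mem_closedBall_iff_norm.2 ((norm_sub_le _ _).trans (by linarith [h z hz, h c (mem_ball_self R0)]))
  have h2 := dist_le_div_mul_dist_of_mapsTo_ball
    ((differentiableOn_dslope (ball_mem_nhds c R0)).2 hd)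
    (k fun z hz => norm_dslope_le_div_of_mapsTo_ball hd (k hM) hz) hs
  rw [dist_eq_norm, dist_eq_norm, dslope_same] at h2
  rw [← sub_smul_dslope g c s, smul_eq_mul, ← mul_sub, norm_mul]
  refine (mul_le_mul_of_nonneg_left h2 (norm_nonneg _)).trans_eq ?_
  ring

/-- a test functional for the rotation differences -/
def T (h : ℝ) (φ u : ℂ → ℂ) : ℂ := av fun τ => (u (rt h τ) - u τ) * φ τ

variable {h : ℝ} {φ u v w : ℂ → ℂ}

theorem T_lin (hφ : ContinuousOn φ (sphere 0 1)) (hu : ContinuousOn u (sphere 0 1))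
    (hv : ContinuousOn v (sphere 0 1)) (hw : ContinuousOn w (sphere 0 1)) (c : ℂ) :
    T h φ u - T h φ v - c * T h φ w = T h φ fun τ => u τ - v τ - c * w τ := by
  have k : ∀ {u : ℂ → ℂ}, ContinuousOn u (sphere 0 1) →
      ContinuousOn (fun τ => (u (rt h τ) - u τ) * φ τ) (sphere 0 1) := fun hu =>
    ((cs_rt hu h).sub hu).mul hφ
  rw [T, T, T, T, ← av_mul_complex, ← av_sub (k hu) (k hv),
    ← av_sub ((k hu).fun_sub (k hv)) (continuousOn_const.fun_mul (k hw))]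
  exact av_congr fun τ _ => by ring

theorem T_le {A b : ℝ} (hφ : ContinuousOn φ (sphere 0 1)) (hu : ContinuousOn u (sphere 0 1))
    (hA : 0 ≤ A) (hb : 0 ≤ b) (h1 : av (fun τ => dist (u (rt h τ)) (u τ) ^ 2) ≤ A ^ 2)
    (h2 : av (fun τ => ‖φ τ‖ ^ 2) ≤ b ^ 2) : ‖T h φ u‖ ≤ A * b := by
  have := av_mul_le (cs_dist hu h) hφ.norm hA hb h1 h2
  rw [T]
  refine norm_av_le.trans (le_trans (le_of_eq ?_) this)
  exact av_congr fun τ _ => by rw [norm_mul, dist_eq_norm]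

end Fam

open Fam

theorem fam : FAM := by
  intro r A Y r0 hY hd
  have A0 : 0 ≤ A := (hY 0 (mem_ball_self r0)).2.1.1
  obtain ⟨V, hV⟩ : ∃ V : ℂ → ℂ → ℂ, ∀ s0 τ, deriv (fun s => Y s τ) s0 = V s0 τ := ⟨_, fun _ _ => rfl⟩
  simp only [hV]
  have u : ∀ {s0 : ℂ} {R : ℝ}, ball s0 R ⊆ ball 0 r → ∀ s ∈ ball s0 R, ∀ τ ∈ closedBall (0 : ℂ) 1,
      ‖Y s τ - Y s0 τ - (s - s0) * V s0 τ‖ ≤ 4 * A / R ^ 2 * ‖s - s0‖ ^ 2 := fun e s hs τ hτ =>
    hV _ τ ▸ rem ((hd τ hτ).mono e) (fun z hz => (hY z (e hz)).1.da.norm_le (hY z (e hz)).2.2 τ hτ) hs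
  have da : ∀ s0 ∈ ball (0 : ℂ) r, DA (V s0) := fun s0 h0 => by
    obtain ⟨R, R0, e⟩ := Metric.isOpen_iff.1 isOpen_ball s0 h0
    have b := mem_nhdsWithin_of_mem_nhds (t := {s0}ᶜ) (ball_mem_nhds s0 R0)
    refine DA.lim (l := 𝓝[≠] s0) (u := fun s τ => (s - s0)⁻¹ * (Y s τ - Y s0 τ))
      (mem_of_superset b fun s hs => (da_const _).mul ((hY s (e hs)).1.da.sub' (hY s0 h0).1.da))
      (Metric.tendstoUniformlyOn_iff.2 fun ε ε0 => ?_)
    have c : ContinuousAt (fun s => 4 * A / R ^ 2 * ‖s - s0‖) s0 := by fun_prop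
    filter_upwards [b, self_mem_nhdsWithin, mem_nhdsWithin_of_mem_nhds
      (c.eventually_lt_const (u := ε) (by simpa using ε0))] with s h1 h2 h3 τ hτ
    have h4 := norm_pos_iff.2 (sub_ne_zero.2 h2)
    refine lt_of_le_of_lt (le_of_mul_le_mul_left ?_ h4) h3
    rw [dist_comm, dist_eq_norm, ← norm_mul, mul_sub, mul_inv_cancel_left₀ (sub_ne_zero.2 h2)]
    exact (u e s h1 τ hτ).trans_eq (by ring)
  have dT : ∀ (h : ℝ) (φ : ℂ → ℂ), ContinuousOn φ (sphere 0 1) → ∀ s0 ∈ ball (0 : ℂ) r,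
      HasDerivAt (fun s => T h φ (Y s)) (T h φ (V s0)) s0 := fun h φ hφ s0 h0 => by
    obtain ⟨R, R0, e⟩ := Metric.isOpen_iff.1 isOpen_ball s0 h0
    obtain ⟨b, b0, hb⟩ := exists_bound_cs hφ
    refine hasDerivAt_iff_isLittleO.2 ((Asymptotics.IsBigO.of_bound (2 * (4 * A / R ^ 2) * b)
      ?_).trans_isLittleO (Asymptotics.isLittleO_pow_sub_sub s0 one_lt_two))
    filter_upwards [ball_mem_nhds s0 R0] with s hs
    have c := ((hY s (e hs)).1.cs.sub (hY s0 h0).1.cs).sub ((da s0 h0).cs.const_smul (s - s0))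
    rw [smul_eq_mul, T_lin hφ (hY s (e hs)).1.cs (hY s0 h0).1.cs (da s0 h0).cs]
    refine norm_av_le_const (((cs_rt c h).sub c).mul hφ) fun τ hτ => (norm_mul_le _ _).trans ?_
    rw [Real.norm_of_nonneg (sq_nonneg _)]
    refine (mul_le_mul ((norm_sub_le _ _).trans (add_le_add
      (u e s hs _ (sphere_subset_closedBall (rt_mem h hτ))) (u e s hs _ (sphere_subset_closedBall hτ))))
      (hb τ hτ) (norm_nonneg _) (by positivity)).trans_eq (by ring)
  refine ⟨4 * A / (r / 2) ^ 2, by positivity, fun s0 h0 => ?_⟩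
  have e : ball s0 (r / 2) ⊆ ball 0 r := ball_subset_ball' (by linarith [mem_ball.1 h0])
  have h0' := e (mem_ball_self (half_pos r0))
  have q : ∀ s ∈ ball s0 (r / 2), Dq (4 * A / (r / 2) ^ 2 * ‖s - s0‖ ^ 2)
      fun τ => Y s τ - Y s0 τ - (s - s0) * V s0 τ := fun s hs => by
    obtain ⟨w, hw⟩ : ∃ w, w = fun τ => Y s τ - Y s0 τ - (s - s0) * V s0 τ := ⟨_, rfl⟩
    have c : ContinuousOn w (sphere 0 1) := hw ▸
      ((hY s (e hs)).1.cs.sub (hY s0 h0').1.cs).sub ((da s0 h0').cs.const_smul (s - s0))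
    refine hw ▸ ⟨by positivity, c, fun h => ?_⟩
    have cφ : ContinuousOn (fun τ => conj (w (rt h τ) - w τ)) (sphere 0 1) :=
      continuous_conj.comp_continuousOn ((cs_rt c h).sub c)
    obtain ⟨b, b0, hb⟩ : ∃ b, 0 ≤ b ∧ b ^ 2 = av fun τ => dist (w (rt h τ)) (w τ) ^ 2 :=
      ⟨_, Real.sqrt_nonneg _, Real.sq_sqrt (av_nonneg fun _ _ => sq_nonneg _)⟩
    have h1 := rem (fun z hz => (dT h _ cφ z (e hz)).differentiableAt.differentiableWithinAt)
      (fun z hz => T_le (A := A * |h|) cφ (hY z (e hz)).1.cs (by positivity) b0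
        (by simpa only [mul_pow, sq_abs] using (hY z (e hz)).2.1.le h)
        (by simp only [hb, norm_conj, dist_eq_norm, le_refl])) hs
    rw [(dT h _ cφ s0 h0').deriv, T_lin cφ (hY s (e hs)).1.cs (hY s0 h0').1.cs (da s0 h0').cs,
      ← hw, show T h (fun τ => conj (w (rt h τ) - w τ)) w = (b ^ 2 : ℝ) by
        rw [hb, ← av_ofReal ((cs_dist c h).fun_pow 2), T]
        exact av_congr fun τ _ => by rw [mul_conj', dist_eq_norm, ofReal_pow],
      norm_real, Real.norm_of_nonneg (sq_nonneg _)] at h1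
    rw [← hb, mul_pow _ h, ← sq_abs h, ← mul_pow]
    rcases b0.eq_or_lt with rfl | b1
    · simpa using sq_nonneg _
    refine pow_le_pow_left₀ b0 (le_of_mul_le_mul_right ?_ b1) 2
    rw [← sq]
    exact h1.trans_eq (by ring)
  have e' : ball s0 (r / 8) ⊆ ball s0 (r / 2) := ball_subset_ball (by linarith)
  refine ⟨⟨da s0 h0', ?_⟩, fun s hs => ⟨q s (e' hs), fun τ hτ =>
    u e s (e' hs) τ (sphere_subset_closedBall hτ)⟩⟩
  have hs : s0 + (r / 4 : ℝ) ∈ ball s0 (r / 2) := by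
    rw [mem_ball_iff_norm, add_sub_cancel_left, norm_real, Real.norm_of_nonneg (by positivity)]
    linarith
  refine ((w12_const ((r / 4 : ℝ) : ℂ)⁻¹).mul (((hY _ (e hs)).1.w.sub (hY _ h0').1.w).sub
    (q _ hs).w12)).congr fun τ _ => ?_
  have : ((r / 4 : ℝ) : ℂ) ≠ 0 := ofReal_ne_zero.2 (by positivity)
  field_simp
  ring

end Vale.Agent.P253W.WM
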