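import Vale.Agent.P253W.WM.Defs2

/-!
# P253W, block WM: the gauge along a holomorphic family
-/

open Complex Metric Set Filter Topology

noncomputable section

namespace Vale.Agent.P253W.WM

namespace Gau

theorem tay {H : Type*} [NormedAddCommGroup H] [NormedSpace ℂ H] [CompleteSpace H] {φ : ℂ → H}
    {r : ℝ} (hr : 0 < r) (h : DifferentiableOn ℂ φ (ball 0 r)) :
    ∃ C ≥ (0 : ℝ), ∀ s : ℂ, ‖s‖ < r / 2 → ‖φ s - φ 0 - s • deriv φ 0‖ ≤ C * ‖s‖ ^ 2 := by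
  have n := ball_mem_nhds (0 : ℂ) hr
  obtain ⟨C, hC⟩ := (isCompact_closedBall (0 : ℂ) (r / 2)).exists_bound_of_continuousOn
    (((differentiableOn_dslope n).2 ((differentiableOn_dslope n).2 h)).continuousOn.mono
      (closedBall_subset_ball (half_lt_self hr)))
  refine ⟨|C|, abs_nonneg _, fun s hs => ?_⟩
  have e1 := sub_smul_dslope φ 0 s
  have e2 := sub_smul_dslope (dslope φ 0) 0 s
  rw [sub_zero] at e1 e2
  rw [← e1, ← dslope_same, ← smul_sub, ← e2, norm_smul, norm_smul, ← mul_assoc, ← sq, mul_comm]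
  exact mul_le_mul_of_nonneg_right ((hC s (by simpa using hs.le)).trans (le_abs_self C)) (sq_nonneg _)

theorem core (h1 : EMB) (h2 : FAM) {ι : Type} [Fintype ι] {N r A : ℝ} {Y : ℂ → ℂ → ι → ℂ}
    {g : ℂ → ι → ℂ} (hN : 0 < N) (hr : 0 < r) (hg : HWv g)
    (hY : ∀ s ∈ ball (0 : ℂ) r, HWv (Y s) ∧ Dqv A (Y s) ∧
      ∀ τ ∈ sphere (0 : ℂ) 1, ∀ i, ‖Y s τ i‖ ≤ A)
    (hd : ∀ τ ∈ closedBall (0 : ℂ) 1, ∀ i, DifferentiableOn ℂ (fun s => Y s τ i) (ball 0 r)) :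
    HWv (fun τ i => deriv (fun s => Y s τ i) 0) ∧ ∃ (x D : Hs ι) (e : ℂ → Hs ι) (C : ℝ), 0 ≤ C ∧
      DifferentiableOn ℂ e (ball 0 r) ∧ e 0 = 0 ∧
      gq N (fun τ i => deriv (fun s => Y s τ i) 0) = ‖D‖ ^ 2 ∧
      (∀ s ∈ ball (0 : ℂ) r, gq N (Y s - g) = ‖x + e s‖ ^ 2 ∧ gq N (Y s - Y 0) = ‖e s‖ ^ 2) ∧
      ∀ s : ℂ, ‖s‖ < r / 2 → ‖e s - s • D‖ ≤ C * ‖s‖ ^ 2 := by
  obtain ⟨Φ, p1, p2, p3, -, -, -, p4⟩ := h1 ι N hN
  have at0 : ∀ (r : ℝ) (Y : ℂ → ℂ → ι → ℂ), 0 < r → (∀ s ∈ ball (0 : ℂ) r, HWv (Y s) ∧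
      Dqv A (Y s) ∧ ∀ τ ∈ sphere (0 : ℂ) 1, ∀ i, ‖Y s τ i‖ ≤ A) →
      (∀ τ ∈ closedBall (0 : ℂ) 1, ∀ i, DifferentiableOn ℂ (fun s => Y s τ i) (ball 0 r)) →
      HWv (fun τ i => deriv (fun s => Y s τ i) 0) ∧
        HasDerivAt (fun s => Φ (Y s)) (Φ fun τ i => deriv (fun s => Y s τ i) 0) 0 := by
    intro r Y hr hY hd
    choose C C0 hC using fun i => h2 r A (fun s τ => Y s τ i) hr
      (fun s hs => ⟨(hY s hs).1 i, (hY s hs).2.1 i, fun τ hτ => (hY s hs).2.2 τ hτ i⟩)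
      fun τ hτ => hd τ hτ i
    have b : ∀ i, C i ≤ ∑ j, C j := fun i => Finset.single_le_sum (fun j _ => C0 j) (Finset.mem_univ i)
    have hC := fun i => hC i 0 (mem_ball_self (half_pos hr))
    have v : HWv fun τ i => deriv (fun s => Y s τ i) 0 := fun i => (hC i).1
    refine ⟨v, hasDerivAt_iff_isLittleO_nhds_zero.2 (Asymptotics.IsBigO.trans_isLittleO
      (.of_bound (Fintype.card ι * (∑ j, C j + (∑ j, C j) / N)) ?_)
      (Asymptotics.isLittleO_norm_pow_id one_lt_two))⟩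
    filter_upwards [ball_mem_nhds (0 : ℂ) (show 0 < r / 8 by positivity)] with s hs
    have y1 := (hY s (ball_subset_ball (by linarith) hs)).1
    have y0 := (hY 0 (mem_ball_self hr)).1
    have v' : HWv (s • fun τ i => deriv (fun s => Y s τ i) 0) := fun i => (hw_const s).mul (v i)
    have c : ∀ i, C i * ‖s - 0‖ ^ 2 ≤ (∑ j, C j) * ‖s‖ ^ 2 := fun i => by
      rw [sub_zero]; exact mul_le_mul_of_nonneg_right (b i) (sq_nonneg _)
    rw [zero_add, ← p1 _ _ y1 y0, ← p2 _ _ v, ← p1 _ _ (y1.sub y0) v']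
    refine (p4 _ _ _ ((y1.sub y0).sub v') (fun i => (((hC i).2 s hs).1.mono (c i)).congr
      fun τ _ => by simp) fun τ hτ i => le_trans (by simp) ((((hC i).2 s hs).2 τ hτ).trans
        (c i))).trans_eq ?_
    rw [norm_pow, norm_norm]
    ring
  obtain ⟨v, d0⟩ := at0 r Y hr hY hd
  have d : DifferentiableOn ℂ (fun s => Φ (Y s)) (ball 0 r) := fun s hs => by
    have m : MapsTo (fun t => t + s) (ball (0 : ℂ) (r - ‖s‖)) (ball 0 r) := fun t ht => by
      rw [mem_ball_zero_iff] at *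
      linarith [norm_add_le t s]
    have := (at0 _ (fun t => Y (t + s)) (sub_pos.2 (mem_ball_zero_iff.1 hs)) (fun t ht => hY _ (m ht))
      fun τ hτ i => (hd τ hτ i).comp (by fun_prop) m).2
    exact ((HasDerivAt.comp_sub_const s s ((sub_self s).symm ▸ this)).congr_of_eventuallyEq
      (.of_forall fun t => by simp)).differentiableAt.differentiableWithinAt
  obtain ⟨C, C0, hC⟩ := tay hr d
  have y0 := (hY 0 (mem_ball_self hr)).1
  refine ⟨v, Φ (Y 0) - Φ g, _, fun s => Φ (Y s) - Φ (Y 0), C, C0, d.sub_const _, sub_self _,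
    (p3 _ v).symm, fun s hs => ?_, d0.deriv ▸ hC⟩
  rw [← p3 _ ((hY s hs).1.sub hg), ← p3 _ ((hY s hs).1.sub y0), p1 _ _ (hY s hs).1 hg,
    p1 _ _ (hY s hs).1 y0, sub_add_sub_cancel']
  exact ⟨rfl, rfl⟩

end Gau

theorem gau (h1 : EMB) (h2 : FAM) : GAU := by
  intro ι _ N r A Y g hN hr hg hY hd
  obtain ⟨v, x, D, e, C, C0, a1, a2, a3, a4, a5⟩ := Gau.core h1 h2 hN hr hg hY hd
  have c : ContinuousOn (fun s => gq N (Y s - g)) (ball 0 r) :=
    ((continuousOn_const.add a1.continuousOn).norm.pow 2).congr fun s hs => (a4 s hs).1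
  refine ⟨v, c, C + (2 * C * ‖D‖ + C ^ 2 * r), fun ρ hρ => ?_⟩
  have r0 := hρ.1
  have b : ∀ s : ℂ, ‖s‖ = ρ → ‖e s‖ ≤ ρ * ‖D‖ + C * ρ ^ 2 := fun s hs => by
    have := a5 s (hs ▸ hρ.2)
    linarith [norm_le_norm_add_norm_sub' (e s) (s • D), norm_smul s D, hs ▸ this,
      show ‖s‖ * ‖D‖ = ρ * ‖D‖ by rw [hs]]
  have m : closedBall (0 : ℂ) |ρ| ⊆ ball 0 r :=
    closedBall_subset_ball (by rw [abs_of_pos r0]; linarith [hρ.2])
  have m' := sphere_subset_closedBall.trans m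
  rw [a3, Real.sqrt_sq (norm_nonneg _)]
  refine ⟨fun s hs => ?_, ?_⟩
  · rw [(a4 s (by rw [mem_ball_zero_iff, hs]; linarith [hρ.2])).2, Real.sqrt_sq (norm_nonneg _)]
    refine (b s hs).trans ?_
    gcongr
    exact le_add_of_nonneg_right (by positivity)
  · have d : DifferentiableOn ℂ (fun s => inner ℂ x (e s)) (ball 0 r) :=
      (innerSL ℂ x).differentiable.comp_differentiableOn a1
    have i1 := (d.continuousOn.mono m').circleIntegrable'
    have i2 : CircleIntegrable (fun s => 2 * (inner ℂ x (e s)).re) 0 ρ :=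
      (continuousOn_const.mul (continuous_re.comp_continuousOn
        (d.continuousOn.mono m'))).circleIntegrable'
    have z : Real.circleAverage (fun s => 2 * (inner ℂ x (e s)).re) 0 ρ = 0 := by
      have := reCLM.circleAverage_comp_comm i1
      rw [(d.diffContOnCl_ball m).circleAverage, a2, inner_zero_right, map_zero] at this
      exact (Real.circleAverage_fun_smul (a := (2 : ℝ))).trans (smul_eq_zero_of_right _ this)
    refine (Real.circleAverage_mono (c.mono m').circleIntegrable'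
      (i2.fun_add (circleIntegrable_const (‖x‖ ^ 2 + (ρ * ‖D‖ + C * ρ ^ 2) ^ 2) _ _))
      fun s hs => ?_).trans ?_
    · have := pow_le_pow_left₀ (norm_nonneg _) (b s (by simpa [abs_of_pos r0] using hs)) 2
      rw [(a4 s (m' hs)).1, norm_add_sq (𝕜 := ℂ), RCLike.re_to_complex]
      linarith
    · rw [Real.circleAverage_fun_add i2 (circleIntegrable_const _ _ _), z,
        Real.circleAverage_const, (a4 0 (mem_ball_self hr)).1, a2, add_zero]
      have : C ^ 2 * ρ ^ 3 * ρ ≤ C ^ 2 * ρ ^ 3 * r :=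
        mul_le_mul_of_nonneg_left (by linarith [hρ.2]) (by positivity)
      nlinarith [mul_nonneg C0 (pow_pos r0 3).le]

theorem gau2 (h1 : EMB) (h2 : FAM) : GAU2 := by
  intro ι _ N r A Y g hN hr hg hY hd
  obtain ⟨-, x, D, e, C, C0, -, a2, a3, a4, a5⟩ := Gau.core h1 h2 hN hr hg hY hd
  rw [a3, (a4 0 (mem_ball_self hr)).1, a2, add_zero]
  refine ⟨inner ℂ x D, 2 * ‖x‖ * C + (‖D‖ + C * r) ^ 2, mul_pow ‖x‖ _ 2 ▸
    pow_le_pow_left₀ (norm_nonneg _) (norm_inner_le_norm x D) 2, fun s hs => ?_⟩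
  have b := a5 s hs
  have c : ‖e s‖ ≤ (‖D‖ + C * r) * ‖s‖ := by
    have : C * ‖s‖ * ‖s‖ ≤ C * ‖s‖ * r := mul_le_mul_of_nonneg_left (by linarith) (by positivity)
    linarith [norm_le_norm_add_norm_sub' (e s) (s • D), norm_smul s D]
  have d := ((abs_re_le_norm _).trans (norm_inner_le_norm (𝕜 := ℂ) x (e s - s • D))).trans
    (mul_le_mul_of_nonneg_left b (norm_nonneg x))
  rw [inner_sub_right, inner_smul_right, sub_re, mul_comm s, abs_le] at d
  have c2 := pow_le_pow_left₀ (norm_nonneg _) c 2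
  rw [(a4 s (mem_ball_zero_iff.2 (by linarith))).1, norm_add_sq (𝕜 := ℂ), RCLike.re_to_complex,
    abs_le]
  constructor <;> nlinarith [d.1, d.2, sq_nonneg ‖e s‖, sq_nonneg ((‖D‖ + C * r) * ‖s‖)]

end Vale.Agent.P253W.WM
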