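import Vale.Agent.P253W.WM.Defs2

/-!
# P253W, block WM: generalised inverses
-/

open Complex Metric Set Filter Topology
open scoped Matrix ComplexConjugate ComplexOrder

noncomputable section

namespace Vale.Agent.P253W.WM

/-- rank factorisation -/
theorem rank_fac {ι κ : Type} [Fintype ι] [Fintype κ] {q : ℕ} {A : Matrix ι κ ℂ}
    (h : A.rank = q) : ∃ (X : Matrix ι (Fin q) ℂ) (Y : Matrix (Fin q) κ ℂ)
      (L : Matrix (Fin q) ι ℂ) (C : Matrix κ (Fin q) ℂ), A = X * Y ∧ L * X = 1 ∧ Y * C = 1 := by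
  classical
  let e := (Module.finBasisOfFinrankEq ℂ (LinearMap.range A.mulVecLin) h).equivFun
  obtain ⟨l, hl⟩ := ((LinearMap.range A.mulVecLin).subtype ∘ₗ
    e.symm.toLinearMap).exists_leftInverse_of_injective
      (LinearMap.ker_eq_bot.2 (Subtype.val_injective.comp e.symm.injective))
  obtain ⟨c, hc⟩ := (e.toLinearMap ∘ₗ A.mulVecLin.rangeRestrict).exists_rightInverse_of_surjective
    (by simp [LinearMap.range_comp])
  refine ⟨_, _, LinearMap.toMatrix' l, LinearMap.toMatrix' c, ?_,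
    by rw [← LinearMap.toMatrix'_comp, hl, LinearMap.toMatrix'_id],
    by rw [← LinearMap.toMatrix'_comp, hc, LinearMap.toMatrix'_id]⟩
  rw [← LinearMap.toMatrix'_comp]
  refine (LinearMap.toMatrix'_toLin' A).symm.trans (congrArg _ (LinearMap.ext fun v => ?_))
  simp

theorem ginv_alg {ι κ : Type} [Fintype ι] [Fintype κ] {q : ℕ} {A : Matrix ι κ ℂ} (h : A.rank = q)
    (R : Matrix (Fin q) ι ℂ) (C : Matrix κ (Fin q) ℂ) :
    A * (C * (R * A * C).adjugate * R) * A = (R * A * C).det • A := by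
  obtain ⟨X, Y, -, -, rfl, -⟩ := rank_fac h
  have e : R * (X * Y) * C = R * X * (Y * C) := by simp only [Matrix.mul_assoc]
  calc _ = X * (Y * C * (Y * C).adjugate) * ((R * X).adjugate * (R * X)) * Y := by
        rw [e, Matrix.adjugate_mul_distrib]
        simp only [Matrix.mul_assoc]
    _ = _ := by
        rw [Matrix.mul_adjugate, Matrix.adjugate_mul, e, Matrix.det_mul]
        simp [smul_smul]

theorem ginv (h : UI) : GINV := by
  intro ι κ _ _ q A hA hq
  choose! X Y R C e1 e2 e3 using fun τ hτ => rank_fac (hq τ hτ)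
  have hM : ∀ s, HWm fun τ => R s * A τ * C s := fun s =>
    ((hwm_const _).mul hA).mul (hwm_const _)
  obtain ⟨t, -, ht⟩ := (isCompact_closedBall (0 : ℂ) 1).elim_nhdsWithin_subcover
    (fun s => {τ | (R s * A τ * C s).det ≠ 0}) fun s hs => ((hM s).det.cb s hs).eventually_ne (by
      simp [e1 s hs, ← Matrix.mul_assoc, e2 s hs, e3 s hs])
  obtain ⟨g, hg, hs⟩ := h t (fun τ s => (R s * A τ * C s).det) (fun s => (hM s).det)
    fun τ hτ e => by
      obtain ⟨s, h1, h2⟩ := mem_iUnion₂.1 (ht hτ)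
      exact h2 (congrFun e ⟨s, h1⟩)
  refine ⟨fun τ => ∑ s : t, g τ s • (C s * (R s * A τ * C s).adjugate * R s),
    HWm.sum _ fun s _ => HWm.smul (hg s) (((hwm_const _).mul (hM s).adjugate).mul (hwm_const _)),
    fun τ hτ => ?_⟩
  simp only [Matrix.mul_sum, Matrix.sum_mul, Matrix.mul_smul, Matrix.smul_mul,
    ginv_alg (hq τ hτ), smul_smul, ← Finset.sum_smul, hs τ hτ, one_smul]

end Vale.Agent.P253W.WM
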