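import Vale.Agent.P253W.WM.Defs2

/-!
# P253W, block WM: idempotents and free images
-/

open Complex Metric Set Filter Topology
open scoped Matrix

noncomputable section

namespace Vale.Agent.P253W.WM

/-- the intertwiner of two idempotents -/
def itw {R : Type*} [Ring R] (P Q : R) : R := P * Q + (1 - P) * (1 - Q)

theorem itw_self {R : Type*} [Ring R] {P : R} (h : P * P = P) : itw P P = 1 := by
  rw [itw, mul_sub, sub_mul 1 P P, h, one_mul, sub_self, sub_zero, mul_one, add_sub_cancel]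

theorem mul_itw {R : Type*} [Ring R] {P Q : R} (h : P * P = P) (h' : Q * Q = Q) :
    P * itw P Q = itw P Q * Q := by
  rw [itw, mul_add, add_mul, ← mul_assoc, h, ← mul_assoc, mul_sub P, h, mul_one, sub_self,
    zero_mul, mul_assoc, h', mul_assoc, sub_mul 1 Q, h', one_mul, sub_self, mul_zero]

theorem idem : IDEM := by
  intro ι _ _ P hP hi
  have c1 : ContinuousOn (fun a : ℂ × ℂ => P a.1) (closedBall 0 1 ×ˢ closedBall 0 1) :=
    hP.cb.comp continuousOn_fst fun _ h => h.1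
  have c2 : ContinuousOn (fun a : ℂ × ℂ => P a.2) (closedBall 0 1 ×ˢ closedBall 0 1) :=
    hP.cb.comp continuousOn_snd fun _ h => h.2
  have c3 : ContinuousOn (fun a : ℂ × ℂ => (itw (P a.1) (P a.2)).det)
      (closedBall 0 1 ×ˢ closedBall 0 1) :=
    (continuous_id.matrix_det).comp_continuousOn
      ((c1.mul c2).add ((continuousOn_const.sub c1).mul (continuousOn_const.sub c2)))
  obtain ⟨δ, h0, hδ⟩ := Metric.uniformContinuousOn_iff_le.1
    (((isCompact_closedBall 0 1).prod (isCompact_closedBall 0 1)).uniformContinuousOn_of_continuous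
      c3) (1 / 2) (by norm_num)
  have m : ∀ {r : ℝ} {τ : ℂ}, 0 ≤ r → r ≤ 1 → τ ∈ closedBall (0 : ℂ) 1 →
      r * τ ∈ closedBall (0 : ℂ) 1 := fun a b c => mul_mem_cb (by simpa [abs_of_nonneg a]) c
  have key : ∀ (k : ℕ) (r : ℝ), 0 ≤ r → r ≤ 1 → r ≤ k * δ → ∃ U : ℂ → Matrix ι ι ℂ, HWm U ∧
      ∀ τ ∈ closedBall (0 : ℂ) 1, (U τ).det ≠ 0 ∧ P (r * τ) * U τ = U τ * P 0 := by
    intro k
    induction k with
    | zero =>
      intro r a _ c
      obtain rfl : r = 0 := le_antisymm (by simpa using c) a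
      exact ⟨fun _ => 1, hwm_const _, fun τ _ => by simp⟩
    | succ k ih =>
      intro r a b c
      have s0 : 0 ≤ max 0 (r - δ) := le_max_left _ _
      have s1 : max 0 (r - δ) ≤ r := max_le a (by linarith)
      obtain ⟨U, hU, h⟩ := ih _ s0 (s1.trans b)
        (max_le (by positivity) (by push_cast at c; linarith))
      have p1 := hP.dil a b
      have p2 := hP.dil s0 (s1.trans b)
      refine ⟨fun τ => itw (P (r * τ)) (P ((max 0 (r - δ) : ℝ) * τ)) * U τ, ((p1.mul p2).add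
        (((hwm_const 1).sub p1).mul ((hwm_const 1).sub p2))).mul hU, fun τ hτ => ⟨?_, ?_⟩⟩
      · rw [Matrix.det_mul]
        refine mul_ne_zero (fun e => ?_) (h τ hτ).1
        have := hδ (r * τ, (max 0 (r - δ) : ℝ) * τ) ⟨m a b hτ, m s0 (s1.trans b) hτ⟩
          (r * τ, r * τ) ⟨m a b hτ, m a b hτ⟩ (by
            rw [Prod.dist_eq, dist_self, max_eq_right dist_nonneg, dist_comm, dist_eq_norm,
              ← sub_mul, ← ofReal_sub, norm_mul, norm_real, Real.norm_of_nonneg (by linarith)]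
            have := le_max_right 0 (r - δ)
            exact (mul_le_of_le_one_right (by linarith) (by simpa using hτ)).trans (by linarith))
        rw [e, itw_self (hi _ (m a b hτ))] at this
        norm_num at this
      · rw [← mul_assoc, mul_itw (hi _ (m a b hτ)) (hi _ (m s0 (s1.trans b) hτ)), mul_assoc,
          (h τ hτ).2, mul_assoc]
  obtain ⟨k, hk⟩ := exists_nat_ge (1 / δ)
  obtain ⟨U, hU, h⟩ := key k 1 zero_le_one le_rfl ((div_le_iff₀ h0).1 hk)
  exact ⟨U, fun τ => (U τ)⁻¹, hU, hU.inv fun τ hτ => (h τ hτ).1, fun τ hτ =>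
    ⟨Matrix.mul_nonsing_inv _ (h τ hτ).1.isUnit, by simpa using (h τ hτ).2⟩⟩

/-- rank factorisation of an idempotent -/
theorem idem_fact {ι : Type} [Fintype ι] {q : ℕ} {P : Matrix ι ι ℂ} (h : P * P = P)
    (hq : P.rank = q) : ∃ (R : Matrix ι (Fin q) ℂ) (S : Matrix (Fin q) ι ℂ),
      R * S = P ∧ S * R = 1 := by
  classical
  let e := (Module.finBasisOfFinrankEq ℂ (LinearMap.range P.mulVecLin) hq).equivFun
  refine ⟨LinearMap.toMatrix' ((LinearMap.range P.mulVecLin).subtype ∘ₗ e.symm.toLinearMap),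
    LinearMap.toMatrix' (e.toLinearMap ∘ₗ P.mulVecLin.rangeRestrict), ?_, ?_⟩
  · rw [← LinearMap.toMatrix'_comp]
    exact (congrArg _ (LinearMap.ext fun x => by simp)).trans (LinearMap.toMatrix'_toLin' P)
  · rw [← LinearMap.toMatrix'_comp, ← LinearMap.toMatrix'_id]
    refine congrArg _ (LinearMap.ext fun x => ?_)
    obtain ⟨⟨_, y, rfl⟩, rfl⟩ := e.surjective x
    simp only [LinearMap.comp_apply, LinearEquiv.coe_coe, LinearEquiv.symm_apply_apply,
      LinearMap.id_apply]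
    exact congrArg e (Subtype.ext (by simp [h]))

theorem free (h1 : GINV) : FREE := by
  classical
  intro ι κ _ _ q A hA hq
  obtain ⟨G, hG, h⟩ := h1 ι κ q A hA hq
  have z : (0 : ℂ) ∈ closedBall (0 : ℂ) 1 := by simp
  have hi : ∀ τ ∈ closedBall (0 : ℂ) 1, A τ * G τ * (A τ * G τ) = A τ * G τ := fun τ hτ => by
    rw [← Matrix.mul_assoc, h τ hτ]
  obtain ⟨U, V, hU, hV, e⟩ := idem ι _ (hA.mul hG) hi
  obtain ⟨R, S, a, b⟩ := idem_fact (q := q) (hi 0 z) (le_antisymm
    ((Matrix.rank_mul_le_left _ _).trans (hq 0 z).le)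
    ((hq 0 z).ge.trans ((congrArg _ (h 0 z)).ge.trans (Matrix.rank_mul_le_left _ _))))
  have c : ∀ τ ∈ closedBall (0 : ℂ) 1, A τ * (G τ * U τ * R) = U τ * R := fun τ hτ => by
    rw [← Matrix.mul_assoc, ← Matrix.mul_assoc, (e τ hτ).2, ← a, Matrix.mul_assoc,
      Matrix.mul_assoc R, b, Matrix.mul_one]
  refine ⟨fun τ => G τ * U τ * R, fun τ => S * V τ, (hG.mul hU).mul (hwm_const _),
    (hwm_const _).mul hV, fun τ hτ => ⟨?_, ?_⟩⟩
  · rw [c τ hτ, Matrix.mul_assoc, ← Matrix.mul_assoc (V τ), mul_eq_one_comm.1 (e τ hτ).1,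
      Matrix.one_mul, b]
  · rw [c τ hτ, Matrix.mul_assoc (U τ), ← Matrix.mul_assoc R, a, ← Matrix.mul_assoc,
      ← (e τ hτ).2, Matrix.mul_assoc _ (U τ), (e τ hτ).1, Matrix.mul_one, h τ hτ]

end Vale.Agent.P253W.WM
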