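import Vale.Agent.P253W.WM.Defs2

/-!
# P253W, block WM: isometric frames
-/

open Complex Metric Set Filter Topology
open scoped Matrix ComplexConjugate ComplexOrder

noncomputable section

namespace Vale.Agent.P253W.WM

/-- a common quotient is in the disc algebra -/
theorem DA.quot {ι : Type*} {f g : ι → ℂ → ℂ} {v : ℂ → ℂ} (hf : ∀ i, DA (f i))
    (hg : ∀ i, DA (g i))
    (h : ∀ τ ∈ closedBall (0 : ℂ) 1, (∃ i, g i τ ≠ 0) ∧ ∀ i, f i τ = v τ * g i τ) : DA v := by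
  have e : ∀ τ ∈ closedBall (0 : ℂ) 1, ∀ i, g i τ ≠ 0 →
      v =ᶠ[𝓝[closedBall 0 1] τ] fun σ => f i σ / g i σ := fun τ hτ i hi => by
    filter_upwards [((hg i).cb τ hτ).eventually_ne hi, self_mem_nhdsWithin] with σ a b
    rw [(h σ b).2 i, mul_div_cancel_right₀ _ a]
  refine DA.mk' (fun τ hτ => ?_) fun τ hτ => ?_
  · have b := ball_subset_closedBall hτ
    obtain ⟨i, hi⟩ := (h τ b).1
    exact (((hf i).differentiableOn τ hτ).div ((hg i).differentiableOn τ hτ)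
      hi).congr_of_eventuallyEq ((e τ b i hi).filter_mono (nhdsWithin_mono _
        ball_subset_closedBall)) ((e τ b i hi).eq_of_nhdsWithin b)
  · obtain ⟨i, hi⟩ := (h τ hτ).1
    exact (((hf i).cb τ hτ).div ((hg i).cb τ hτ) hi).congr_of_eventuallyEq (e τ hτ i hi)
      ((e τ hτ i hi).eq_of_nhdsWithin hτ)

theorem iso2 (h0 : CB1) (h1 : FREE) (h2 : WME) (h3 : KEY1) (h4 : KEY3) : ISO2 := by
  intro ι _ q c C hc
  obtain ⟨K1, k1, H1⟩ := h3 ι q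
  obtain ⟨K3, k3, H3⟩ := h4 ι q c C hc
  refine ⟨K1 * K3, mul_nonneg k1 k3, fun ι₂ κ _ _ A j B hA hq hj hB hs hb => ?_⟩
  obtain ⟨X, Y, hX, hY, e⟩ := h1 _ κ q A hA hq
  have ne : ∀ (Z : Matrix (ι ⊕ ι₂) (Fin q) ℂ) (W : Matrix (Fin q) (ι ⊕ ι₂) ℂ) (v : ℂ) τ,
      W * Z = 1 → (∀ J, (Z.submatrix J id).det = v * j J τ) → v ≠ 0 := fun Z W v τ a b z => by
    have := h0 _ q W Z
    simp [a, b, z] at this
  have hT : HWm fun τ => (A τ * X τ).toRows₁ := fun a b => hA.mul hX _ b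
  obtain ⟨Φ, Ψ, hΦ, hΨ, i1, i2⟩ := h2 (Fin q)
    (fun τ => (A τ * X τ).toRows₁ᴴ * (A τ * X τ).toRows₁) (fun a b => by
      simp only [Matrix.mul_apply (M := _ᴴ), Matrix.conjTranspose_apply]
      exact W12.sum _ fun k _ => (hT k a).w.conj.mul (hT k b).w) fun τ hτ => by
    have b := sphere_subset_closedBall hτ
    obtain ⟨v, hv⟩ := (hb τ b).2 (X τ)
    obtain ⟨J, hJ⟩ := (hs τ hτ).2
    refine Matrix.PosDef.conjTranspose_mul_self _ ((injective_iff_map_eq_zero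
      (Matrix.mulVecLin (A τ * X τ).toRows₁)).2 fun x hx => ?_)
    exact Matrix.eq_zero_of_mulVec_eq_zero ((hv (Sum.inl ∘ J)).trans_ne (mul_ne_zero
      (ne _ _ v τ (e τ b).1 hv) (norm_pos_iff.1 (hc.trans_le hJ))))
        (funext fun a => congrFun hx (J a))
  have i3 : ∀ τ ∈ closedBall (0 : ℂ) 1, Ψ τ * Φ τ = 1 := fun τ hτ => mul_eq_one_comm.1 (i1 τ hτ)
  have l : ∀ τ ∈ closedBall (0 : ℂ) 1, Ψ τ * Y τ * (A τ * (X τ * Φ τ)) = 1 := fun τ hτ => by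
    rw [Matrix.mul_assoc, ← Matrix.mul_assoc (A τ), ← Matrix.mul_assoc (Y τ), (e τ hτ).1,
      Matrix.one_mul, i3 τ hτ]
  have s : ∀ τ ∈ sphere (0 : ℂ) 1,
      (A τ * (X τ * Φ τ)).toRows₁ᴴ * (A τ * (X τ * Φ τ)).toRows₁ = 1 := fun τ hτ => by
    have : (A τ * (X τ * Φ τ)).toRows₁ = (A τ * X τ).toRows₁ * Φ τ := by
      rw [← Matrix.mul_assoc]; rfl
    rw [this, Matrix.conjTranspose_mul, Matrix.mul_assoc, ← Matrix.mul_assoc _ _ (Φ τ), ← i2 τ hτ,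
      Matrix.mul_assoc, ← Matrix.mul_assoc, ← Matrix.conjTranspose_mul,
      i3 τ (sphere_subset_closedBall hτ), Matrix.conjTranspose_one, Matrix.one_mul]
  have hZ := hA.mul (hX.mul hΦ)
  choose! v hv using fun τ hτ => (hb τ hτ).2 (X τ * Φ τ)
  refine ⟨fun τ => X τ * Φ τ, fun τ => Ψ τ * Y τ, hX.mul hΦ, hΨ.mul hY,
    fun τ hτ => ⟨l τ hτ, ?_⟩, s, ?_⟩
  · rw [← Matrix.mul_assoc (A τ), Matrix.mul_assoc _ (Φ τ), ← Matrix.mul_assoc (Φ τ), i1 τ hτ,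
      Matrix.one_mul, (e τ hτ).2]
  · rw [mul_assoc]
    exact H1 _ _ (fun a b => hZ _ b) s (H3 _ (fun J => j (Sum.inl ∘ J)) v B s hB hs
      (DA.quot (f := fun J τ => ((A τ * (X τ * Φ τ)).submatrix J id).det)
        (fun J => DA.det fun a b => hZ.da (J a) b) hj fun τ hτ => ⟨(hb τ hτ).1, hv τ hτ⟩)
      (fun τ hτ => ne _ _ _ τ (l τ hτ) (hv τ hτ))
      fun τ hτ J => hv τ (sphere_subset_closedBall hτ) (Sum.inl ∘ J))

end Vale.Agent.P253W.WM
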