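import Vale.Agent.P253W.WM.Defs2

/-!
# P253W, row WM.JEN: Jensen's inequality up to the boundary
-/

open Complex Metric Set Filter Topology
open scoped ComplexConjugate

noncomputable section

namespace Vale.Agent.P253W.WM

namespace Jen

theorem exists_w12 {w : ℂ → ℝ} (hw : ContinuousOn w (sphere 0 1)) {ε : ℝ} (hε : 0 < ε) :
    ∃ v : ℂ → ℝ, W12 v ∧ ∀ τ ∈ sphere (0 : ℂ) 1, w τ ≤ v τ ∧ v τ ≤ w τ + 2 * ε := by
  obtain ⟨g, hg⟩ := ContinuousMap.exists_restrict_eq (isClosed_sphere (x := (0 : ℂ)) (ε := 1))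
    (⟨fun τ => w τ, hw.domRestrict⟩ : C(sphere (0 : ℂ) 1, ℝ))
  obtain ⟨k, hk, hk', -⟩ := g.continuous.exists_contDiff_approx 1 (ε := fun _ => ε)
    continuous_const fun _ => hε
  refine ⟨fun τ => k τ + ε, dq_id.w12.comp_contDiff (Φ := fun τ => k τ + ε) fun τ _ =>
    (hk.add contDiff_const).contDiffAt, fun τ hτ => ?_⟩
  have h1 : g τ = w τ := DFunLike.congr_fun hg ⟨τ, hτ⟩
  have h2 := hk' τ
  rw [h1, Real.dist_eq, abs_lt] at h2
  constructor <;> linarith [h2.1, h2.2]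

theorem scalar (h : OUT) {g : ℂ → ℂ} (hg : DA g) {v : ℂ → ℝ} (hv : W12 v) {c : ℝ}
    (H : ∀ τ ∈ sphere (0 : ℂ) 1, ‖g τ‖ ^ 2 ≤ c * Real.exp (v τ)) :
    ‖g 0‖ ^ 2 ≤ c * Real.exp (av v) := by
  obtain ⟨A, hA⟩ := hv
  obtain ⟨f, hf, -, h0, h1⟩ := h v A hA
  have h2 := ((hg.pow 2).mul hf.da.neg'.exp).norm_le (C := c) (fun τ hτ => by
    rw [norm_mul, norm_pow, Complex.norm_exp, neg_re, h1 τ hτ, Real.exp_neg,
      ← div_eq_mul_inv, div_le_iff₀ (Real.exp_pos _)]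
    exact H τ hτ) 0 (mem_closedBall_self zero_le_one)
  rwa [norm_mul, norm_pow, Complex.norm_exp, neg_re, h0, ofReal_re, Real.exp_neg,
    ← div_eq_mul_inv, div_le_iff₀ (Real.exp_pos _)] at h2

end Jen

open Jen in
/-- **Row WM.JEN.** -/
theorem jen (h : OUT) : JEN := by
  intro ι _ G w hG hw H
  set c : ℝ := ∑ i, ‖G 0 i‖ ^ 2 with hc
  have hc0 : 0 ≤ c := Finset.sum_nonneg fun _ _ => sq_nonneg _
  have hg : DA fun τ => ∑ i, conj (G 0 i) * G τ i :=
    DA.sum _ fun i _ => (da_const _).mul (hG i)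
  have h0 : ‖∑ i, conj (G 0 i) * G 0 i‖ = c := by
    have : ∑ i, conj (G 0 i) * G 0 i = (c : ℂ) := by
      rw [hc]
      push_cast
      exact Finset.sum_congr rfl fun i _ => Complex.conj_mul' _
    rw [this, norm_real, Real.norm_of_nonneg hc0]
  have key : ∀ ε : ℝ, 0 < ε → c ≤ Real.exp (av w + 2 * ε) := by
    intro ε hε
    obtain ⟨v, hv, hv'⟩ := exists_w12 hw hε
    have h1 := scalar h hg hv (c := c) fun τ hτ => by
      have h2 : ‖∑ i, conj (G 0 i) * G τ i‖ ≤ ∑ i, ‖G 0 i‖ * ‖G τ i‖ :=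
        (norm_sum_le _ _).trans (Finset.sum_le_sum fun i _ => by rw [norm_mul, norm_conj])
      refine (pow_le_pow_left₀ (norm_nonneg _) h2 2).trans
        ((Finset.sum_mul_sq_le_sq_mul_sq _ _ _).trans (mul_le_mul_of_nonneg_left ?_ hc0))
      exact (H τ hτ).trans (Real.exp_le_exp.2 (hv' τ hτ).1)
    have h3 : av v ≤ av w + 2 * ε := by
      have := av_mono (v := fun τ => w τ + 2 * ε) hv.cs (hw.add continuousOn_const)
        fun τ hτ => (hv' τ hτ).2
      rwa [av_add hw continuousOn_const, av_const] at this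
    rw [h0] at h1
    rcases hc0.eq_or_lt with h4 | h4
    · exact h4 ▸ (Real.exp_pos _).le
    · rw [sq] at h1
      exact (le_of_mul_le_mul_left h1 h4).trans (Real.exp_le_exp.2 h3)
  have h5 : Tendsto (fun ε : ℝ => Real.exp (av w + 2 * ε)) (𝓝[>] 0) (𝓝 (Real.exp (av w))) := by
    have : Continuous fun ε : ℝ => Real.exp (av w + 2 * ε) := by fun_prop
    simpa using (this.tendsto 0).mono_left nhdsWithin_le_nhds
  exact ge_of_tendsto h5 (eventually_mem_nhdsWithin.mono fun ε hε => key ε hε)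

end Vale.Agent.P253W.WM
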