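import Vale.Agent.P253W.WM.Four

/-!
# P253W, block WM: synthesis, Taylor series, Riesz projection, outer functions
-/

open Complex Metric Set Filter Topology
open scoped Matrix ComplexConjugate ComplexOrder

noncomputable section

namespace Vale.Agent.P253W.WM

/-- the power series with coefficients `c` -/
def syn (c : ℕ → ℂ) (τ : ℂ) : ℂ := ∑' k, c k * τ ^ k

theorem norm_term_le (c : ℕ → ℂ) (k : ℕ) {τ : ℂ} (hτ : τ ∈ closedBall (0 : ℂ) 1) :
    ‖c k * τ ^ k‖ ≤ ‖c k‖ := by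
  have h : ‖τ‖ ≤ 1 := by simpa using hτ
  rw [norm_mul, norm_pow]
  exact mul_le_of_le_one_right (norm_nonneg _) (pow_le_one₀ (norm_nonneg _) h)

theorem hasSum_syn {c : ℕ → ℂ} (hc : Summable fun k => ‖c k‖) {τ : ℂ}
    (hτ : τ ∈ closedBall (0 : ℂ) 1) : HasSum (fun k => c k * τ ^ k) (syn c τ) :=
  (hc.of_norm_bounded fun k => norm_term_le c k hτ).hasSum

theorem da_syn {c : ℕ → ℂ} (hc : Summable fun k => ‖c k‖) : DA (syn c) :=
  DA.mk' (Complex.differentiableOn_tsum_of_summable_norm hc (fun _ => by fun_prop) isOpen_ball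
      fun k _ hτ => norm_term_le c k (ball_subset_closedBall hτ))
    (continuousOn_tsum (fun _ => by fun_prop) hc fun k _ hτ => norm_term_le c k hτ)

theorem fc_syn {c : ℕ → ℂ} (hc : Summable fun k => ‖c k‖) (k : ℕ) : fc (syn c) k = c k := by
  have h1 := fc_tsum (c := c) (fun i : ℕ => (i : ℤ)) hc k
  have h2 : HasSum (fun i : ℕ => if (i : ℤ) = k then c i else 0) (c k) := by
    have := hasSum_single (f := fun i : ℕ => if (i : ℤ) = k then c i else 0) k fun i hi => by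
      simp [hi]
    simpa using this
  simp only [zpow_natCast] at h1
  exact h1.unique h2

theorem syn_zero (c : ℕ → ℂ) : syn c 0 = c 0 := by
  rw [syn, tsum_eq_single 0 fun k hk => by simp [hk]]
  simp

theorem norm_syn_sub_le {c : ℕ → ℂ} (hc : Summable fun k => ‖c k‖) {τ : ℂ}
    (hτ : τ ∈ closedBall (0 : ℂ) 1) : ‖syn c τ - c 0‖ ≤ ∑' k, ‖c (k + 1)‖ := by
  have h1 := (hasSum_nat_add_iff' 1).2 (hasSum_syn hc hτ)
  simp only [Finset.range_one, Finset.sum_singleton, pow_zero, mul_one] at h1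
  exact h1.norm_le_of_bounded ((summable_nat_add_iff 1).2 hc).hasSum
    fun k => norm_term_le c (k + 1) hτ

/-- a series over `ℤ` that vanishes on the negative integers -/
theorem hasSum_int_iff {f : ℤ → ℝ} {a : ℝ} (h : ∀ k < 0, f k = 0) :
    HasSum f a ↔ HasSum (fun k : ℕ => f k) a :=
  (Function.Injective.hasSum_iff (g := fun k : ℕ => (k : ℤ)) Nat.cast_injective fun k hk => h k (by
    by_contra h'
    exact hk ⟨k.toNat, by simp; omega⟩)).symm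

theorem DA.hasSum_l2 {f : ℂ → ℂ} (hf : DA f) : HasSum (fun k : ℕ => ‖fc f k‖ ^ 2) (l2 f) :=
  (hasSum_int_iff fun k hk => by simp [hf.fc_neg hk]).1 (pars f hf.cs)

theorem HW.hasSum_en {f : ℂ → ℂ} (hf : HW f) :
    HasSum (fun k : ℕ => (k : ℝ) ^ 2 * ‖fc f k‖ ^ 2) (en f) := by
  have := (hasSum_int_iff fun k hk => by simp [hf.da.fc_neg hk]).1 hf.w.summable.hasSum
  simpa [en] using this

theorem Dq.sum_nat_le {A : ℝ} {u : ℂ → ℂ} (hu : Dq A u) (e : ℕ → ℤ) (he : Function.Injective e)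
    (he' : ∀ k, ((e k : ℤ) : ℝ) ^ 2 = (k : ℝ) ^ 2) (s : Finset ℕ) :
    ∑ k ∈ s, (k : ℝ) ^ 2 * ‖fc u (e k)‖ ^ 2 ≤ A ^ 2 := by
  have h1 := (hu.w12.summable.sum_le_tsum (s.map ⟨e, he⟩) fun _ _ => by positivity).trans hu.en_le
  rw [Finset.sum_map] at h1
  simpa only [Function.Embedding.coeFn_mk, he'] using h1

theorem dq_syn {c : ℕ → ℂ} {A : ℝ} (hA : 0 ≤ A)
    (h : ∀ s : Finset ℕ, ∑ k ∈ s, (k : ℝ) ^ 2 * ‖c k‖ ^ 2 ≤ A ^ 2) : Dq A (syn c) := by
  have hc := (sob hA h).1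
  have hs : Summable fun k : ℕ => (k : ℝ) ^ 2 * ‖c k‖ ^ 2 :=
    summable_of_sum_le (fun _ => by positivity) h
  have h1 : HasSum (fun k : ℤ => (k : ℝ) ^ 2 * ‖fc (syn c) k‖ ^ 2)
      (∑' k : ℕ, (k : ℝ) ^ 2 * ‖c k‖ ^ 2) := by
    refine (hasSum_int_iff fun k hk => by simp [(da_syn hc).fc_neg hk]).2 ?_
    simpa [fc_syn hc] using hs.hasSum
  refine (enq _ _).2 ⟨hA, (da_syn hc).cs, h1.summable, ?_⟩
  rw [en, h1.tsum_eq]
  exact Real.tsum_le_of_sum_le (fun _ => by positivity) h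

theorem hw_syn {c : ℕ → ℂ} {A : ℝ} (hA : 0 ≤ A)
    (h : ∀ s : Finset ℕ, ∑ k ∈ s, (k : ℝ) ^ 2 * ‖c k‖ ^ 2 ≤ A ^ 2) : HW (syn c) :=
  ⟨da_syn (sob hA h).1, (dq_syn hA h).w12⟩

theorem Dq.sum_pos_le {A : ℝ} {u : ℂ → ℂ} (hu : Dq A u) (s : Finset ℕ) :
    ∑ k ∈ s, (k : ℝ) ^ 2 * ‖fc u k‖ ^ 2 ≤ A ^ 2 :=
  hu.sum_nat_le (fun k => k) Nat.cast_injective (fun k => by simp) s

theorem Dq.sum_neg_le {A : ℝ} {u : ℂ → ℂ} (hu : Dq A u) (s : Finset ℕ) :
    ∑ k ∈ s, (k : ℝ) ^ 2 * ‖fc u (-k)‖ ^ 2 ≤ A ^ 2 :=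
  hu.sum_nat_le (fun k => -k) (fun a b h => by simpa using h) (fun k => by simp) s

theorem W12.summable_fc {u : ℂ → ℂ} (hu : W12 u) : Summable fun k => ‖fc u k‖ := by
  obtain ⟨A, hA⟩ := hu
  exact Summable.of_nat_of_neg (sob hA.1 hA.sum_pos_le).1 (sob hA.1 hA.sum_neg_le).1

theorem HW.eq_syn {f : ℂ → ℂ} (hf : HW f) :
    ∀ τ ∈ closedBall (0 : ℂ) 1, f τ = syn (fun k => fc f k) τ := by
  obtain ⟨A, hA⟩ := hf.w
  have hc := (sob hA.1 hA.sum_pos_le).1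
  refine hf.da.eq_of_sphere (da_syn hc) (eq_of_fc hf.cs (da_syn hc).cs fun k => ?_)
  rcases lt_or_ge k 0 with h | h
  · rw [hf.da.fc_neg h, (da_syn hc).fc_neg h]
  · lift k to ℕ using h
    rw [fc_syn hc]

theorem tay : TAY := by
  intro f hf
  obtain ⟨A, hA⟩ := hf.w
  have hc := (sob hA.1 hA.sum_pos_le).1
  exact ⟨hc, fun τ hτ => by rw [hf.eq_syn τ hτ]; exact hasSum_syn hc hτ⟩

/-- Sobolev embedding -/
theorem HW.norm_sub_le {f : ℂ → ℂ} {A : ℝ} (hf : HW f) (hA : Dq A f) {τ : ℂ}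
    (hτ : τ ∈ closedBall (0 : ℂ) 1) : ‖f τ - f 0‖ ≤ 2 * A := by
  obtain ⟨hc, hb⟩ := sob hA.1 hA.sum_pos_le
  have := (norm_syn_sub_le hc hτ).trans hb
  rwa [← hf.eq_syn τ hτ, Nat.cast_zero, fc_zero, hf.da.av_eq] at this

theorem HW.fc_dil {f : ℂ → ℂ} (hf : HW f) {ρ : ℂ} (hρ : ‖ρ‖ ≤ 1) (k : ℕ) :
    fc (fun τ => f (ρ * τ)) k = ρ ^ k * fc f k := by
  have hc := (tay f hf).1
  have hc' : Summable fun k : ℕ => ‖ρ ^ k * fc f k‖ :=
    hc.of_nonneg_of_le (fun _ => norm_nonneg _) fun k => by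
      rw [mul_comm]; exact norm_term_le (fun k => fc f k) k (by simpa using hρ)
  rw [← fc_syn hc' k]
  refine fc_congr (fun τ hτ => ?_) k
  rw [hf.eq_syn _ (mul_mem_cb hρ (sphere_subset_closedBall hτ))]
  refine tsum_congr fun k => ?_
  rw [mul_pow]
  ring

theorem rie : RIE := by
  intro u A hu
  set d : ℕ → ℂ := fun k => if k = 0 then 0 else conj (fc u (-k)) with hd
  have hd' : ∀ s : Finset ℕ, ∑ k ∈ s, (k : ℝ) ^ 2 * ‖d k‖ ^ 2 ≤ A ^ 2 := fun s => by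
    refine le_trans (Finset.sum_le_sum fun k _ => ?_) (hu.sum_neg_le s)
    by_cases h : k = 0
    · simp [h]
    · simp [hd, h]
  obtain ⟨c1, c2⟩ := sob hu.1 hu.sum_pos_le
  obtain ⟨d1, d2⟩ := sob hu.1 hd'
  have hp := hw_syn hu.1 hu.sum_pos_le
  have hm := hw_syn hu.1 hd'
  refine ⟨syn fun k => fc u k, syn d, hp, hm, by simp [syn_zero, hd],
    by simp [syn_zero, fc_zero], dq_syn hu.1 hu.sum_pos_le, dq_syn hu.1 hd', ?_, fun τ hτ => ⟨?_, ?_⟩⟩
  · refine eq_of_fc hu.cs (hp.cs.add (cs_conj hm.cs)) fun k => ?_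
    rw [fc_add hp.cs (cs_conj hm.cs), fc_conj hm.cs]
    rcases lt_trichotomy k 0 with h | rfl | h
    · obtain ⟨m, rfl⟩ : ∃ m : ℕ, k = -m := ⟨(-k).toNat, by omega⟩
      have hm0 : m ≠ 0 := by omega
      rw [hp.da.fc_neg h, neg_neg, fc_syn d1]
      simp [hd, hm0]
    · have a := fc_syn c1 0
      have b := fc_syn d1 0
      simp only [Nat.cast_zero] at a b
      rw [neg_zero, a, b]
      simp [hd]
    · rw [hm.da.fc_neg (by omega)]
      lift k to ℕ using h.le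
      simp [fc_syn c1]
  · rw [syn_zero]
    exact (norm_syn_sub_le c1 hτ).trans c2
  · have := (norm_syn_sub_le d1 hτ).trans d2
    simpa [hd] using this

theorem out : OUT := by
  intro u A hu
  obtain ⟨p, m, hp, hm, m0, p0, dp, dm, e, -⟩ := rie _ A hu.ofReal
  refine ⟨fun τ => p τ + m τ, hp.add hm, by simpa [two_mul] using dp.add dm, ?_, fun τ hτ => ?_⟩
  · simp only [m0, p0, add_zero]
    exact av_ofReal hu.cs
  · have := congrArg Complex.re (e τ hτ)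
    simpa using this.symm

theorem norm_one_sub_pow_le {x : ℝ} (h0 : 0 ≤ x) (h1 : x ≤ 1) (k : ℕ) :
    ‖(1 : ℂ) - ((1 - x : ℝ) : ℂ) ^ k‖ ≤ k * x := by
  have a := one_add_mul_le_pow (a := -x) (by linarith) k
  have b : (1 - x) ^ k ≤ 1 := pow_le_one₀ (by linarith) (by linarith)
  have e : (1 : ℂ) - ((1 - x : ℝ) : ℂ) ^ k = ((1 - (1 - x) ^ k : ℝ) : ℂ) := by push_cast; ring
  rw [e, Complex.norm_real, Real.norm_eq_abs, abs_of_nonneg (by linarith)]
  rw [← sub_eq_add_neg] at a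
  linarith

theorem tr : TR := by
  intro f hf ε hε
  set F : ℝ → ℕ → ℝ := fun h k => ‖(Complex.exp (((k : ℝ) : ℂ) * h * I) - 1) / h -
    I * ((1 - ((1 - h : ℝ) : ℂ) ^ k) / h)‖ ^ 2 * ‖fc f k‖ ^ 2 with hF
  have hlim : ∀ k, Tendsto (fun h => F h k) (𝓝[>] 0) (𝓝 0) := by
    intro k
    have h1 := tendsto_slope_exp k
    have h2 : Tendsto (fun h : ℝ => (1 - ((1 - h : ℝ) : ℂ) ^ k) / h) (𝓝[≠] 0) (𝓝 ((k : ℝ) : ℂ)) := by
      have d : HasDerivAt (fun h : ℝ => (1 : ℂ) - ((1 - h : ℝ) : ℂ) ^ k) ((k : ℝ) : ℂ) 0 := by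
        have d2 : HasDerivAt (fun h : ℂ => (1 : ℂ) - (1 - h) ^ k) ((k : ℝ) : ℂ) ((0 : ℝ) : ℂ) := by
          have := (((hasDerivAt_id ((0 : ℝ) : ℂ)).const_sub 1).fun_pow k).const_sub 1
          simpa using this
        simpa using d2.comp_ofReal
      refine (hasDerivAt_iff_tendsto_slope_zero.1 d).congr fun h => ?_
      simp [div_eq_inv_mul]
    have h3 := (((h1.sub (h2.const_mul I)).norm.pow 2).mul_const (‖fc f k‖ ^ 2)).mono_left
      (nhdsGT_le_nhdsNE 0)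
    have e0 : ‖((k : ℝ) : ℂ) * I - I * ((k : ℝ) : ℂ)‖ ^ 2 * ‖fc f k‖ ^ 2 = 0 := by
      rw [mul_comm I, sub_self]; simp
    rw [e0] at h3
    exact h3
  have hb : ∀ᶠ h in 𝓝[>] (0 : ℝ), ∀ k, ‖F h k‖ ≤ 4 * ((k : ℝ) ^ 2 * ‖fc f k‖ ^ 2) := by
    filter_upwards [Ioo_mem_nhdsGT zero_lt_one] with h hh k
    have a := norm_exp_sub_one_le (k * h)
    have b := norm_one_sub_pow_le hh.1.le hh.2.le k
    rw [abs_of_nonneg (mul_nonneg (Nat.cast_nonneg k) hh.1.le), Complex.ofReal_mul] at a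
    have c : ‖(Complex.exp (((k : ℝ) : ℂ) * h * I) - 1) / h -
        I * ((1 - ((1 - h : ℝ) : ℂ) ^ k) / h)‖ ≤ 2 * k := by
      refine (norm_sub_le _ _).trans ?_
      rw [norm_mul, Complex.norm_I, one_mul, norm_div, norm_div, Complex.norm_real,
        Real.norm_eq_abs, abs_of_pos hh.1, ← add_div, div_le_iff₀ hh.1]
      linarith
    rw [hF, Real.norm_eq_abs, abs_of_nonneg (by positivity)]
    calc _ ≤ (2 * (k : ℝ)) ^ 2 * ‖fc f k‖ ^ 2 :=
          mul_le_mul_of_nonneg_right (pow_le_pow_left₀ (norm_nonneg _) c 2) (sq_nonneg _)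
      _ = _ := by ring
  have ht := tendsto_tsum_of_dominated_convergence (hf.hasSum_en.summable.mul_left 4) hlim hb
  rw [tsum_zero] at ht
  have hev := (ht.eventually (gt_mem_nhds (by positivity : (0 : ℝ) < ε ^ 2))).and
    (Ioo_mem_nhdsGT zero_lt_one)
  obtain ⟨δ, hδ, hd⟩ := (nhdsGT_basis (0 : ℝ)).eventually_iff.1 hev
  refine ⟨δ, hδ, fun h hh => ?_⟩
  obtain ⟨h1, h2⟩ := hd hh
  have hρ : ‖((1 - h : ℝ) : ℂ)‖ ≤ 1 := by
    rw [Complex.norm_real, Real.norm_eq_abs, abs_of_nonneg (by linarith [h2.2])]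
    linarith [h2.1]
  have a1 := (hf.da.rt h).sub' hf.da
  have a2 := hf.da.sub' (hf.da.dil hρ)
  have a3 := (da_const I).mul a2
  have hs := (a1.sub' a3).hasSum_l2
  have hne : (h : ℂ) ≠ 0 := by exact_mod_cast hh.1.ne'
  have e : ∀ k : ℕ, ‖fc (fun τ => (f (rt h τ) - f τ) - I * (f τ - f ((1 - h : ℝ) * τ))) k‖ ^ 2 =
      h ^ 2 * F h k := by
    intro k
    rw [fc_sub a1.cs a3.cs, fc_const_mul, fc_sub (hf.da.rt h).cs hf.cs,
      fc_sub hf.cs (hf.da.dil hρ).cs, fc_rt, hf.fc_dil hρ, hF]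
    simp only
    have e0 : h ^ 2 = ‖(h : ℂ)‖ ^ 2 := by simp
    rw [e0, ← mul_pow, ← mul_pow, ← norm_mul, ← norm_mul]
    congr 2
    push_cast
    field_simp
  simp only [e] at hs
  rw [← hs.tsum_eq, tsum_mul_left, mul_pow, mul_comm]
  exact mul_le_mul_of_nonneg_right h1.le (sq_nonneg _)

/-- Hoelder continuity of `W^{1,2}` loops in a metric space -/
theorem Dq.holder (hd : DENS) {X : Type*} [PseudoMetricSpace X] {A : ℝ} {u : ℂ → X} (hu : Dq A u)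
    {τ : ℂ} (hτ : τ ∈ sphere (0 : ℂ) 1) {k : ℝ} (hk : |k| ≤ 2 * Real.pi) :
    dist (u (rt k τ)) (u τ) ^ 2 ≤ 2 * Real.pi * A ^ 2 * |k| := by
  have key : ∀ τ ∈ sphere (0 : ℂ) 1, ∀ k : ℝ, 0 ≤ k → k ≤ 2 * Real.pi →
      dist (u (rt k τ)) (u τ) ^ 2 ≤ 2 * Real.pi * A ^ 2 * k := by
    intro τ hτ k h0 h1
    obtain ⟨θ, rfl⟩ := exists_cm hτ
    have hv : Dq A fun σ => dist (u σ) (u (circleMap 0 1 θ)) :=
      hu.of_le_one fun σ _ σ' _ => by
        rw [Real.dist_eq]; exact abs_dist_sub_le _ _ _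
    obtain ⟨m, m0, mi, ma, mb⟩ := hd _ A hv.ofReal
    have h2 := mb θ (θ + k) (by linarith)
    rw [rt_cm]
    simp only [dist_self, Complex.ofReal_zero, sub_zero, Complex.norm_real, Real.norm_eq_abs,
      sq_abs, add_sub_cancel_left] at h2
    have hp : Function.Periodic (fun θ => m (circleMap 0 1 θ)) (2 * Real.pi) :=
      fun x => by simp [periodic_circleMap 0 1 x]
    have hi : ∀ a b, IntervalIntegrable (fun θ => m (circleMap 0 1 θ)) MeasureTheory.volume a b :=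
      fun a b => hp.intervalIntegrable₀ Real.two_pi_pos.ne' mi a b
    have h3 : ∫ x in θ..θ + k, m (circleMap 0 1 x) ≤
        ∫ x in θ..θ + 2 * Real.pi, m (circleMap 0 1 x) :=
      intervalIntegral.integral_mono_interval le_rfl (by linarith) (by linarith)
        (Eventually.of_forall fun x => m0 _) (hi _ _)
    rw [hp.intervalIntegral_add_eq θ 0, zero_add] at h3
    rw [av, Real.circleAverage, smul_eq_mul, inv_mul_le_iff₀ Real.two_pi_pos] at ma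
    calc _ ≤ k * (2 * Real.pi * A ^ 2) := h2.trans (mul_le_mul_of_nonneg_left (h3.trans ma) h0)
      _ = _ := by ring
  rcases le_total 0 k with h | h
  · rw [abs_of_nonneg h] at hk ⊢
    exact key τ hτ k h hk
  · rw [abs_of_nonpos h] at hk ⊢
    have := key _ (rt_mem k hτ) (-k) (by linarith) hk
    rwa [rt_rt, neg_add_cancel, rt_zero, dist_comm] at this

end Vale.Agent.P253W.WM
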