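import Vale.Agent.P253W.WM.Tay2
import Vale.Agent.P253W.WM.Syn

/-!
# P253W, block WM: an inner frame is controlled by its maximal minors
-/

open Complex Metric Set Filter Topology
open scoped Matrix ComplexConjugate ComplexOrder

noncomputable section

namespace Vale.Agent.P253W.WM

section alg

variable {ι n : Type*} [Fintype ι] [Fintype n] [DecidableEq n]

theorem star_dot_self (v : ι → ℂ) : star v ⬝ᵥ v = ((∑ i, ‖v i‖ ^ 2 : ℝ) : ℂ) := by
  simp only [dotProduct, Pi.star_apply, Complex.ofReal_sum]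
  refine Finset.sum_congr rfl fun i _ => ?_
  rw [Complex.star_def, Complex.conj_mul']
  push_cast
  rfl

omit [DecidableEq n] in
theorem form_eq (T U : Matrix ι n ℂ) (v : n → ℂ) :
    star v ⬝ᵥ ((Tᴴ * U) *ᵥ v) = star (T *ᵥ v) ⬝ᵥ (U *ᵥ v) := by
  rw [Matrix.star_mulVec, ← Matrix.mulVec_mulVec, Matrix.dotProduct_mulVec]

theorem iso_normSq {T : Matrix ι n ℂ} (hT : Tᴴ * T = 1) (v : n → ℂ) :
    ∑ a, ‖(T *ᵥ v) a‖ ^ 2 = ∑ i, ‖v i‖ ^ 2 := by
  have := form_eq T T v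
  rw [hT, Matrix.one_mulVec, star_dot_self, star_dot_self] at this
  exact_mod_cast this.symm

theorem iso_entry_le {T : Matrix ι n ℂ} (hT : Tᴴ * T = 1) (a : ι) (b : n) : ‖T a b‖ ≤ 1 := by
  have h := iso_normSq hT (Pi.single b 1)
  have h1 : ∑ i, ‖(Pi.single b (1 : ℂ) : n → ℂ) i‖ ^ 2 = 1 := by
    rw [Finset.sum_eq_single b (fun i _ hi => by simp [hi]) (by simp)]
    simp
  have h2 := Finset.single_le_sum (f := fun a => ‖(T *ᵥ Pi.single b 1) a‖ ^ 2)
    (fun _ _ => by positivity) (Finset.mem_univ a)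
  rw [h, h1] at h2
  have h3 : (T *ᵥ Pi.single b 1) a = T a b := by simp
  rw [h3] at h2
  exact (sq_le_one_iff₀ (norm_nonneg _)).1 h2

theorem iso_form_le {T U : Matrix ι n ℂ} (hT : Tᴴ * T = 1) (hU : Uᴴ * U = 1) (v : n → ℂ) :
    ‖star v ⬝ᵥ ((Tᴴ * U) *ᵥ v)‖ ≤ ∑ i, ‖v i‖ ^ 2 := by
  rw [form_eq, dotProduct]
  refine (norm_sum_le _ _).trans ?_
  have : ∑ a, ‖star (T *ᵥ v) a * (U *ᵥ v) a‖ ≤
      ∑ a, (‖(T *ᵥ v) a‖ ^ 2 / 2 + ‖(U *ᵥ v) a‖ ^ 2 / 2) := Finset.sum_le_sum fun a _ => by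
    rw [norm_mul, Pi.star_apply, norm_star]
    nlinarith [sq_nonneg (‖(T *ᵥ v) a‖ - ‖(U *ᵥ v) a‖)]
  rw [Finset.sum_add_distrib, ← Finset.sum_div, ← Finset.sum_div, iso_normSq hT,
    iso_normSq hU] at this
  linarith

theorem psd_entry {R : Matrix n n ℂ} (h : ∀ v, 0 ≤ (star v ⬝ᵥ (R *ᵥ v)).re) (i j : n) :
    ‖R i j + conj (R j i)‖ ≤ 2 * R.trace.re := by
  have hd : ∀ k, 0 ≤ (R k k).re := fun k => by simpa using h (Pi.single k 1)
  have ht : ∀ k, (R k k).re ≤ R.trace.re := fun k => by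
    rw [Matrix.trace, Complex.re_sum]
    exact Finset.single_le_sum (f := fun k => (R k k).re) (fun k _ => hd k) (Finset.mem_univ k)
  obtain ⟨c, hc, hc'⟩ := Complex.exists_norm_eq_mul_self (R i j + conj (R j i))
  have h1 := h (Pi.single i 1 + Pi.single j (-c))
  have h2 : star (Pi.single i 1 + Pi.single j (-c) : n → ℂ) ⬝ᵥ
      (R *ᵥ (Pi.single i 1 + Pi.single j (-c))) =
      R i i + conj c * c * R j j - (c * R i j + conj c * R j i) := by
    simp only [star_add, Matrix.mulVec_add, add_dotProduct, dotProduct_add, Pi.star_single,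
      single_dotProduct, Matrix.mulVec_single, Pi.smul_apply, Matrix.col_apply, star_one, star_neg,
      Complex.star_def, MulOpposite.smul_eq_mul_unop, MulOpposite.unop_op]
    ring
  have h3 : conj c * c = 1 := by rw [Complex.conj_mul', hc]; simp
  have h4 : (c * R i j + conj c * R j i).re = ‖R i j + conj (R j i)‖ := by
    have := congrArg Complex.re hc'
    rw [Complex.ofReal_re] at this
    rw [this]
    simp only [mul_add, Complex.add_re, Complex.mul_re, Complex.conj_re, Complex.conj_im]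
    ring
  rw [h2, h3, one_mul, Complex.sub_re, h4, Complex.add_re] at h1
  linarith [ht i, ht j]

theorem det_sub_le [DecidableEq ι] (T T' : Matrix ι n ℂ) {W : Matrix n ι ℂ} {w : ℝ}
    (hW : ∀ a b, ‖W a b‖ ≤ w) :
    ‖(W * T').det - (W * T).det‖ ≤ w ^ Fintype.card n *
      ∑ J : n → ι, ‖(T'.submatrix J id).det - (T.submatrix J id).det‖ := by
  rw [cb1', cb1', ← Finset.sum_sub_distrib, Finset.mul_sum]
  refine (norm_sum_le _ _).trans (Finset.sum_le_sum fun J _ => ?_)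
  rw [← mul_sub, norm_mul, norm_prod]
  gcongr
  calc ∏ a, ‖W a (J a)‖ ≤ ∏ _a : n, w :=
        Finset.prod_le_prod (fun _ _ => norm_nonneg _) fun a _ => hW _ _
    _ = _ := by simp

omit [DecidableEq n] in
theorem ent_le (M : Matrix ι n ℂ) (a : ι) (j : n) : ‖M a j‖ ≤ ∑ p : ι × n, ‖M p.1 p.2‖ :=
  Finset.single_le_sum (f := fun p : ι × n => ‖M p.1 p.2‖) (fun _ _ => norm_nonneg _)
    (Finset.mem_univ (a, j))

theorem iso_entry_le' {T : Matrix ι n ℂ} (hT : Tᴴ * T = 1) (b : n) (a : ι) : ‖Tᴴ b a‖ ≤ 1 := by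
  rw [Matrix.conjTranspose_apply, norm_star]
  exact iso_entry_le hT a b

/-- the tangential part -/
theorem key_tan {T T' T'' : Matrix ι n ℂ} (hT : Tᴴ * T = 1) (hT' : T'ᴴ * T' = 1)
    (hc : ∀ v, ‖star v ⬝ᵥ ((Tᴴ * T'') *ᵥ v)‖ ≤ ∑ i, ‖v i‖ ^ 2) {x e t : ℝ}
    (hx : ∀ a j, ‖(T' - T) a j‖ ≤ x) (he : ∀ a j, ‖(T' - T - I • (T - T'')) a j‖ ≤ e)
    (ht : ‖(Tᴴ * (T' - T)).trace‖ ≤ t) (i j : n) :
    ‖(Tᴴ * (T' - T)) i j‖ ≤ Fintype.card ι * (x * x) / 2 +
      (t + Fintype.card n * (Fintype.card ι * e)) + Fintype.card ι * e := by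
  have hN3 : Tᴴ * (T' - T) + (Tᴴ * (T' - T))ᴴ = -((T' - T)ᴴ * (T' - T)) := by
    simp only [Matrix.conjTranspose_mul, Matrix.conjTranspose_conjTranspose,
      Matrix.conjTranspose_sub, Matrix.mul_sub, Matrix.sub_mul, hT, hT', Matrix.conjTranspose_one]
    abel
  have hS := psd_entry (R := 1 - Tᴴ * T'') fun v => by
    rw [Matrix.sub_mulVec, Matrix.one_mulVec, dotProduct_sub, star_dot_self, Complex.sub_re,
      Complex.ofReal_re]
    linarith [hc v, Complex.re_le_norm (star v ⬝ᵥ ((Tᴴ * T'') *ᵥ v))]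
  generalize T' - T = D at *
  have hN2 : Tᴴ * D = I • (1 - Tᴴ * T'') + Tᴴ * (D - I • (T - T'')) := by
    rw [Matrix.mul_sub Tᴴ D, Matrix.mul_smul, Matrix.mul_sub, hT]
    abel
  have hGb : ∀ i j, ‖(Tᴴ * (D - I • (T - T''))) i j‖ ≤ Fintype.card ι * e := fun i j => by
    simpa using norm_mul_apply_le (iso_entry_le' hT) he i j
  have hDD : ‖(Dᴴ * D) i j‖ ≤ Fintype.card ι * (x * x) :=
    norm_mul_apply_le (fun i a => by
      rw [Matrix.conjTranspose_apply, norm_star]; exact hx a i) hx i j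
  generalize Tᴴ * (D - I • (T - T'')) = G at *
  generalize 1 - Tᴴ * T'' = R at *
  generalize Tᴴ * D = N at *
  generalize Dᴴ * D = Q at *
  have htG : ‖G.trace‖ ≤ Fintype.card n * (Fintype.card ι * e) := by
    rw [Matrix.trace]
    refine (norm_sum_le _ _).trans ((Finset.sum_le_sum fun i _ => hGb i i).trans ?_)
    simp
  have htR : R.trace.re ≤ t + Fintype.card n * (Fintype.card ι * e) := by
    have h1 : R.trace.re = N.trace.im - G.trace.im := by
      rw [hN2, Matrix.trace_add, Matrix.trace_smul]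
      simp
    have h2 := (abs_le.1 (Complex.abs_im_le_norm N.trace)).2
    have h3 := (abs_le.1 (Complex.abs_im_le_norm G.trace)).1
    linarith
  have h1 : 2 * N i j = -Q i j + (I * (R i j + conj (R j i)) + (G i j - conj (G j i))) := by
    have h2 := congrFun (congrFun hN3 i) j
    have h3 := congrFun (congrFun hN2 i) j
    have h4 := congrArg conj (congrFun (congrFun hN2 j) i)
    simp only [Matrix.add_apply, Matrix.conjTranspose_apply, Matrix.neg_apply, Matrix.smul_apply,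
      smul_eq_mul, Complex.star_def, map_add, map_mul, Complex.conj_I] at h2 h3 h4
    linear_combination h2 + h3 - h4
  have h5 : 2 * ‖N i j‖ = ‖2 * N i j‖ := by simp
  have h6 := norm_add_le (-Q i j) (I * (R i j + conj (R j i)) + (G i j - conj (G j i)))
  have h7 := norm_add_le (I * (R i j + conj (R j i))) (G i j - conj (G j i))
  have h8 := norm_sub_le (G i j) (conj (G j i))
  rw [norm_mul, Complex.norm_I, one_mul] at h7
  rw [Complex.norm_conj] at h8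
  rw [← h1, norm_neg] at h6
  linarith [hS i j, hGb i j, hGb j i]

/-- the normal part -/
theorem key_nor [DecidableEq ι] {T T' : Matrix ι n ℂ} (hT : Tᴴ * T = 1) (hT' : T'ᴴ * T' = 1)
    (a : ι) (j : n) : ‖(((1 : Matrix ι ι ℂ) - T * Tᴴ) * T' : Matrix ι n ℂ) a j‖ ≤
      (1 + Fintype.card n) ^ Fintype.card n *
      ∑ J : n → ι, ‖(T'.submatrix J id).det - (T.submatrix J id).det‖ := by
  have hPT : ((1 : Matrix ι ι ℂ) - T * Tᴴ) * T = 0 := by rw [Matrix.sub_mul, Matrix.mul_assoc, hT]; simp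
  have hPb : ∀ a b, ‖((1 : Matrix ι ι ℂ) - T * Tᴴ : Matrix ι ι ℂ) a b‖ ≤ 1 + Fintype.card n :=
    fun a b => by
    rw [Matrix.sub_apply]
    refine (norm_sub_le _ _).trans (add_le_add ?_ ?_)
    · rw [Matrix.one_apply]
      split_ifs <;> simp
    · simpa using norm_mul_apply_le (iso_entry_le hT) (iso_entry_le' hT) a b
  generalize (1 : Matrix ι ι ℂ) - T * Tᴴ = P at *
  have h1 := det_sub_le T T' (W := T'ᴴ.updateRow j (P a)) (w := 1 + Fintype.card n) fun i b => by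
    rw [Matrix.updateRow_apply]
    split_ifs
    · exact hPb a b
    · linarith [iso_entry_le' hT' i b, (Nat.cast_nonneg (Fintype.card n) : (0 : ℝ) ≤ _)]
  have h2 : (T'ᴴ.updateRow j (P a) * T).det = 0 := by
    refine Matrix.det_eq_zero_of_row_eq_zero j fun l => ?_
    rw [Matrix.updateRow_mul, Matrix.updateRow_self]
    exact congrFun (congrFun hPT a) l
  have h3 : (T'ᴴ.updateRow j (P a) * T').det = (P * T') a j := by
    have h4 := Matrix.det_updateRow_sum (1 : Matrix n n ℂ) j (P a ᵥ* T')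
    have h5 : ∑ l, (P a ᵥ* T') l • (1 : Matrix n n ℂ) l = P a ᵥ* T' := by
      ext l
      simp [Matrix.one_apply]
    rw [h5, Matrix.det_one, smul_eq_mul, mul_one] at h4
    rw [Matrix.updateRow_mul, hT', h4]
    rfl
  rwa [h2, h3, sub_zero] at h1

theorem key_num {m k w C x e Δ : ℝ} (hm : 0 ≤ m) (hk : 0 ≤ k) (hw : 0 ≤ w)
    (hx : 0 ≤ x) (he : 0 ≤ e) (hΔ : 0 ≤ Δ)
    (h1 : x * (m + 2 * (m * k * k * (m / 2 + C * m ^ 2)) + 1) ≤ 1)
    (h2 : x ≤ m * k * (k * (m * (x * x) / 2 + (Δ + C * (m * x) ^ 2 + k * (m * e)) + m * e) +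
      w * Δ)) :
    x ≤ 2 * (m * k * (k + w) + m * k * k * (k * m + m)) * (Δ + e) := by
  have h9 : m * k * (k * (m * (x * x) / 2 + (Δ + C * (m * x) ^ 2 + k * (m * e)) + m * e) + w * Δ) =
      (m * k * k * (m / 2 + C * m ^ 2)) * x * x + (m * k * (k + w)) * Δ +
        (m * k * k * (k * m + m)) * e := by ring
  have h11 : 0 ≤ m * k * (k + w) := by positivity
  have h12 : 0 ≤ m * k * k * (k * m + m) := by positivity
  rw [h9] at h2
  generalize m * k * k * (m / 2 + C * m ^ 2) = γ at *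
  generalize m * k * (k + w) = α at *
  generalize m * k * k * (k * m + m) = β at *
  have h10 : γ * x ≤ 1 / 2 := by nlinarith [mul_nonneg hm hx]
  have h13 : γ * x * x ≤ 1 / 2 * x := mul_le_mul_of_nonneg_right h10 hx
  nlinarith [mul_nonneg h11 he, mul_nonneg h12 hΔ]

theorem key_pt (ι n : Type*) [Fintype ι] [Fintype n] [DecidableEq n] :
    ∃ K η : ℝ, 0 ≤ K ∧ 0 < η ∧ ∀ T T' T'' : Matrix ι n ℂ, Tᴴ * T = 1 → T'ᴴ * T' = 1 →
    (∀ v, ‖star v ⬝ᵥ ((Tᴴ * T'') *ᵥ v)‖ ≤ ∑ i, ‖v i‖ ^ 2) →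
    ∑ p : ι × n, ‖(T' - T) p.1 p.2‖ ≤ η →
    ∑ p : ι × n, ‖(T' - T) p.1 p.2‖ ≤
      K * (∑ J : n → ι, ‖(T'.submatrix J id).det - (T.submatrix J id).det‖ +
        ∑ p : ι × n, ‖(T' - T - I • (T - T'')) p.1 p.2‖) := by
  classical
  obtain ⟨C, hC0, hC⟩ := det_one_add_le n
  obtain ⟨m, hm⟩ : ∃ m : ℝ, m = Fintype.card ι := ⟨_, rfl⟩
  obtain ⟨k, hk⟩ : ∃ k : ℝ, k = Fintype.card n := ⟨_, rfl⟩
  have hm0 : 0 ≤ m := hm ▸ Nat.cast_nonneg _
  have hk0 : 0 ≤ k := hk ▸ Nat.cast_nonneg _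
  refine ⟨2 * (m * k * (k + (1 + k) ^ Fintype.card n) + m * k * k * (k * m + m)),
    1 / (m + 2 * (m * k * k * (m / 2 + C * m ^ 2)) + 1), by positivity,
    by positivity, fun T T' T'' hT hT' hc hx => ?_⟩
  have hY := key_nor hT hT'
  have hdet := det_sub_le T T' (iso_entry_le' hT)
  have hxe := ent_le (T' - T)
  have hee := ent_le (T' - T - I • (T - T''))
  have hfin : ∀ y : ℝ, (∀ a j, ‖(T' - T) a j‖ ≤ y) →
      ∑ p : ι × n, ‖(T' - T) p.1 p.2‖ ≤ m * k * y := fun y hy => by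
    refine (Finset.sum_le_sum fun p _ => hy p.1 p.2).trans (le_of_eq ?_)
    simp [hm, hk]
  have hx0 : 0 ≤ ∑ p : ι × n, ‖(T' - T) p.1 p.2‖ := Finset.sum_nonneg fun _ _ => norm_nonneg _
  have he0 : 0 ≤ ∑ p : ι × n, ‖(T' - T - I • (T - T'')) p.1 p.2‖ :=
    Finset.sum_nonneg fun _ _ => norm_nonneg _
  have hΔ0 : 0 ≤ ∑ J : n → ι, ‖(T'.submatrix J id).det - (T.submatrix J id).det‖ :=
    Finset.sum_nonneg fun _ _ => norm_nonneg _
  generalize ∑ p : ι × n, ‖(T' - T) p.1 p.2‖ = x at *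
  generalize ∑ p : ι × n, ‖(T' - T - I • (T - T'')) p.1 p.2‖ = e at *
  generalize ∑ J : n → ι, ‖(T'.submatrix J id).det - (T.submatrix J id).det‖ = Δ at *
  have hx1 := (le_div_iff₀ (by positivity)).1 hx
  have hN1 : Tᴴ * T' = 1 + Tᴴ * (T' - T) := by rw [Matrix.mul_sub, hT]; abel
  have hNb : ∀ i j, ‖(Tᴴ * (T' - T)) i j‖ ≤ m * x := fun i j => by
    simpa [hm] using norm_mul_apply_le (iso_entry_le' hT) hxe i j
  have htN : ‖(Tᴴ * (T' - T)).trace‖ ≤ Δ + C * (m * x) ^ 2 := by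
    have h0 : 0 ≤ x * (m * k * k * (m / 2 + C * m ^ 2)) := by positivity
    have h1 := hC _ (m * x) (by positivity) (by linarith) hNb
    rw [hN1, hT, Matrix.det_one, one_pow, one_mul] at hdet
    generalize Tᴴ * (T' - T) = N at *
    have h3 : N.trace = ((1 + N).det - 1) - ((1 + N).det - 1 - N.trace) := by ring
    rw [h3]
    exact (norm_sub_le _ _).trans (add_le_add hdet h1)
  have hNν := key_tan hT hT' hc hxe hee htN
  rw [← hm, ← hk] at hNν
  rw [← hk] at hY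
  have hDY : T' - T = T * (Tᴴ * (T' - T)) + ((1 : Matrix ι ι ℂ) - T * Tᴴ) * T' := by
    rw [Matrix.sub_mul, Matrix.mul_assoc, Matrix.mul_sub, hT, Matrix.mul_sub]
    simp only [Matrix.one_mul, Matrix.mul_one]
    abel
  refine key_num (C := C) hm0 hk0 (by positivity) hx0 he0 hΔ0 hx1 (hfin _ fun a j => ?_)
  rw [hDY, Matrix.add_apply]
  refine (norm_add_le _ _).trans (add_le_add ?_ (hY a j))
  simpa [hk] using norm_mul_apply_le (iso_entry_le hT) hNν a j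

end alg

theorem ev_small {u : ℂ → ℂ} (hu : ContinuousOn u (sphere 0 1)) {ε : ℝ} (hε : 0 < ε) :
    ∀ᶠ h in 𝓝[>] (0 : ℝ), ∀ τ ∈ sphere (0 : ℂ) 1, ‖u (rt h τ) - u τ‖ ≤ ε := by
  obtain ⟨δ, hδ, H⟩ := Metric.uniformContinuousOn_iff.1
    ((isCompact_sphere (0 : ℂ) 1).uniformContinuousOn_of_continuous hu) ε hε
  filter_upwards [Ioo_mem_nhdsGT hδ] with h hh τ hτ
  rw [← dist_eq_norm]
  refine (H _ (rt_mem h hτ) _ hτ ?_).le
  rw [dist_eq_norm]
  exact (norm_rt_sub h (sphere_subset_closedBall hτ)).trans_lt (by rw [abs_of_pos hh.1]; exact hh.2)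

theorem key1 : KEY1 := by
  intro ι _ q
  obtain ⟨K, η, hK, hη, H⟩ := key_pt ι (Fin q)
  refine ⟨K * Fintype.card (Fin q → ι), by positivity, fun Θ B hΘ hI hJ a b => ?_⟩
  have hm1 : (1 : ℝ) ≤ Fintype.card (ι × Fin q) := by
    exact_mod_cast Fintype.card_pos_iff.2 ⟨(a, b)⟩
  obtain ⟨m, hm⟩ : ∃ m : ℝ, m = Fintype.card (ι × Fin q) := ⟨_, rfl⟩
  rw [← hm] at hm1
  have hB : 0 ≤ B := (hJ fun _ => a).nonneg
  refine Dq.of_small (by positivity) (hΘ a b).cs fun e he => ?_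
  have hε : 0 < e / ((K + 1) * m) := by positivity
  have h1 : ∀ᶠ h in 𝓝[>] (0 : ℝ), ∀ p : ι × Fin q, l2 (fun τ => (Θ (rt h τ) p.1 p.2 - Θ τ p.1 p.2) -
      I * (Θ τ p.1 p.2 - Θ ((1 - h : ℝ) * τ) p.1 p.2)) ≤ (e / ((K + 1) * m) * h) ^ 2 := by
    refine eventually_all.2 fun p => ?_
    obtain ⟨δ, hδ, hh⟩ := tr _ (hΘ p.1 p.2) _ hε
    filter_upwards [Ioo_mem_nhdsGT hδ] with h hh' using hh h hh'
  have h2 : ∀ᶠ h in 𝓝[>] (0 : ℝ), ∀ p : ι × Fin q, ∀ τ ∈ sphere (0 : ℂ) 1,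
      ‖Θ (rt h τ) p.1 p.2 - Θ τ p.1 p.2‖ ≤ η / m :=
    eventually_all.2 fun p => ev_small (hΘ p.1 p.2).cs (by positivity)
  have h3 : ∀ᶠ h in 𝓝[>] (0 : ℝ), h ∈ Ioo (0 : ℝ) 1 := Ioo_mem_nhdsGT one_pos
  obtain ⟨δ, hδ, hs⟩ := mem_nhdsGT_iff_exists_Ioo_subset.1 (h1.and (h2.and h3))
  refine ⟨δ, hδ, fun h hh => ?_⟩
  obtain ⟨h1, h2, h3⟩ := hs hh
  have hρ : ‖((1 - h : ℝ) : ℂ)‖ ≤ 1 := by
    rw [Complex.norm_real, Real.norm_of_nonneg (by linarith [h3.2])]
    linarith [h3.1]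
  have cJ : ∀ J : Fin q → ι, ContinuousOn (fun τ => dist ((Θ (rt h τ)).submatrix J id).det
      ((Θ τ).submatrix J id).det) (sphere 0 1) := fun J => cs_dist (hJ J).cs h
  have cE : ∀ p : ι × Fin q, ContinuousOn (fun τ => ‖(Θ (rt h τ) p.1 p.2 - Θ τ p.1 p.2) -
      I * (Θ τ p.1 p.2 - Θ ((1 - h : ℝ) * τ) p.1 p.2)‖) (sphere 0 1) := fun p =>
    (((cs_rt (hΘ p.1 p.2).cs h).sub (hΘ p.1 p.2).cs).sub (continuousOn_const.mul
      ((hΘ p.1 p.2).cs.sub ((hΘ p.1 p.2).da.dil hρ).cs))).norm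
  have a1 := av_sq_sum_le Finset.univ (a := fun _ => B * h) (fun J _ => cJ J)
    (fun _ _ => mul_nonneg hB hh.1.le) fun J _ => (hJ J).le h
  have a2 := av_sq_sum_le Finset.univ (a := fun _ => e / ((K + 1) * m) * h) (fun p _ => cE p)
    (fun _ _ => mul_nonneg hε.le hh.1.le) fun p _ => h1 p
  have cJ' := continuousOn_finsetSum Finset.univ fun J _ => cJ J
  have cE' := continuousOn_finsetSum Finset.univ fun p _ => cE p
  have a3 := av_sq_add_le cJ' cE'
    (Finset.sum_nonneg fun _ _ => mul_nonneg hB hh.1.le)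
    (Finset.sum_nonneg fun _ _ => mul_nonneg hε.le hh.1.le) a1 a2
  refine (av_mono ((cs_dist (hΘ a b).cs h).pow 2)
    (continuousOn_const.mul ((cJ'.add cE').pow 2)) (v := fun τ => K ^ 2 * _) ?_).trans ?_
  · intro τ hτ
    have h4 := H (Θ τ) (Θ (rt h τ)) (Θ ((1 - h : ℝ) * τ)) (hI τ hτ) (hI _ (rt_mem h hτ))
      (fun v => ?_) ?_
    · simp only [Pi.pow_apply, Pi.add_apply]
      rw [← mul_pow]
      refine pow_le_pow_left₀ dist_nonneg ?_ 2
      rw [dist_eq_norm]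
      refine ((ent_le (Θ (rt h τ) - Θ τ) a b).trans h4).trans (le_of_eq ?_)
      simp only [dist_eq_norm]
      rfl
    · refine DA.norm_le (f := fun σ => star v ⬝ᵥ (((Θ τ)ᴴ * Θ σ) *ᵥ v)) ?_
        (fun σ hσ => iso_form_le (hI τ hτ) (hI σ hσ) v) _
        (mul_mem_cb hρ (sphere_subset_closedBall hτ))
      simp only [dotProduct, Matrix.mulVec]
      exact DA.sum _ fun i _ => (da_const _).mul (DA.sum _ fun j _ =>
        (DA.matMul (A := fun _ => (Θ τ)ᴴ) (fun _ _ => da_const _) hΘ.da i j).mul (da_const _))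
    · refine (Finset.sum_le_sum fun p _ => h2 p τ hτ).trans (le_of_eq ?_)
      rw [Finset.sum_const, Finset.card_univ, nsmul_eq_mul, ← hm]
      field_simp
  · rw [av_mul_real]
    refine (mul_le_mul_of_nonneg_left a3 (by positivity)).trans ?_
    rw [← mul_pow]
    have hh0 := hh.1
    refine pow_le_pow_left₀ (by positivity) ?_ 2
    simp only [Finset.sum_const, Finset.card_univ, nsmul_eq_mul, ← hm]
    have : K * (m * (e / ((K + 1) * m) * h)) ≤ e * h := by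
      have : K * (m * (e / ((K + 1) * m) * h)) = K / (K + 1) * (e * h) := by field_simp
      rw [this]
      exact mul_le_of_le_one_left (by positivity) ((div_le_one (by positivity)).2 (by linarith))
    nlinarith

end Vale.Agent.P253W.WM
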