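import Vale.Agent.P253W.WM.Defs2

/-!
# P253W, block WM: Cauchy-Binet and the maximal minors of an inner frame
-/

open Complex Metric Set Filter Topology
open scoped Matrix ComplexConjugate ComplexOrder

noncomputable section

namespace Vale.Agent.P253W.WM

theorem cb2 (h : CB1) : CB2 := fun ι _ q X => by
  have e : ∀ σ : Equiv.Perm (Fin q), (Xᴴ * X).det = ∑ J : Fin q → ι,
      conj ((Equiv.Perm.sign σ : ℂ) * ∏ a, X (J (σ a)) a) * (X.submatrix J id).det := fun σ => by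
    rw [h, ← (Equiv.arrowCongr σ.symm (Equiv.refl ι)).sum_comp]
    refine Finset.sum_congr rfl fun J _ => ?_
    have := Matrix.det_permute σ (X.submatrix J id)
    rw [Matrix.submatrix_submatrix] at this
    simp only [Equiv.arrowCongr_apply, Equiv.symm_symm, Equiv.coe_refl, Function.comp_id,
      Function.comp_apply, id, Matrix.conjTranspose_apply, map_mul, map_prod,
      map_intCast, star_def] at this ⊢
    rw [show (X.submatrix ((σ.symm.arrowCongr (Equiv.refl ι)) J) id).det = _ from this]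
    ring
  have e2 : ∑ _σ : Equiv.Perm (Fin q), (Xᴴ * X).det = (q.factorial : ℂ) * (Xᴴ * X).det := by
    rw [Finset.sum_const, Finset.card_univ, Fintype.card_perm, Fintype.card_fin, nsmul_eq_mul]
  rw [← e2, Finset.sum_congr rfl fun σ _ => e σ, Finset.sum_comm]
  push_cast
  refine Finset.sum_congr rfl fun J _ => ?_
  rw [← Finset.sum_mul, ← map_sum, ← conj_mul', Matrix.det_apply' (X.submatrix J id)]
  rfl

theorem abs_log_sub_le {a b c : ℝ} (hc : 0 < c) (ha : c ≤ a) (hb : c ≤ b) :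
    |Real.log a - Real.log b| ≤ c⁻¹ * |a - b| :=
  (convex_Ici c).norm_image_sub_le_of_norm_deriv_le (f := Real.log)
    (fun _ hx => Real.differentiableAt_log (hc.trans_le hx).ne')
    (fun x hx => by
      rw [Real.deriv_log, Real.norm_of_nonneg (inv_nonneg.2 (hc.le.trans hx))]
      exact inv_anti₀ hc hx) hb ha

theorem key3 (h0 : CB1) (h : OUT) : KEY3 := fun ι _ q c C hc => by
  have c2 := pow_pos hc 2
  refine ⟨|C| * (Real.exp (q.factorial / c ^ 2) * (2 * ((c ^ 2)⁻¹ *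
    (Fintype.card (Fin q → ι) * (|C| + |C|))))) + Real.exp (q.factorial / c ^ 2), by positivity,
    fun Θ j v B hΘ hj hC hv v0 hd J => ?_⟩
  have b1 : ∀ J, ∀ τ ∈ sphere (0 : ℂ) 1, ‖j J τ‖ ≤ |C| := fun J τ hτ =>
    ((hC τ hτ).1 J).trans (le_abs_self C)
  have s1 : ∀ τ ∈ sphere (0 : ℂ) 1, c ^ 2 ≤ ∑ J, ‖j J τ‖ * ‖j J τ‖ := fun τ hτ => by
    obtain ⟨J, hJ⟩ := (hC τ hτ).2
    exact ((sq c).trans_le (mul_self_le_mul_self hc.le hJ)).trans (Finset.single_le_sum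
      (f := fun J => ‖j J τ‖ * ‖j J τ‖) (fun _ _ => mul_self_nonneg _) (Finset.mem_univ J))
  have s2 : ∀ τ ∈ sphere (0 : ℂ) 1, ‖v τ‖ ^ 2 * ∑ J, ‖j J τ‖ * ‖j J τ‖ = q.factorial :=
    fun τ hτ => by
      have := cb2 h0 ι q (Θ τ)
      rw [hΘ τ hτ, Matrix.det_one, mul_one, ← ofReal_natCast, ofReal_inj] at this
      rw [← this, Finset.mul_sum]
      exact Finset.sum_congr rfl fun J _ => by rw [hd τ hτ, norm_mul]; ring
  have n0 : ∀ τ ∈ sphere (0 : ℂ) 1, 0 < ‖v τ‖ := fun τ hτ =>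
    norm_pos_iff.2 (v0 τ (sphere_subset_closedBall hτ))
  have s3 : ∀ τ ∈ sphere (0 : ℂ) 1, 2 * Real.log ‖v τ‖ =
      Real.log q.factorial - Real.log (∑ J, ‖j J τ‖ * ‖j J τ‖) := fun τ hτ => by
    rw [← s2 τ hτ, Real.log_mul (pow_pos (n0 τ hτ) 2).ne' (c2.trans_le (s1 τ hτ)).ne', Real.log_pow]
    simp
  have s4 : ∀ τ ∈ sphere (0 : ℂ) 1, Real.log ‖v τ‖ ≤ q.factorial / c ^ 2 := fun τ hτ => by
    have := (le_div_iff₀ c2).2
      ((mul_le_mul_of_nonneg_left (s1 τ hτ) (sq_nonneg ‖v τ‖)).trans_eq (s2 τ hτ))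
    nlinarith [Real.log_le_sub_one_of_pos (n0 τ hτ), sq_nonneg (‖v τ‖ - 1)]
  have d1 := (Dq.sum Finset.univ fun J _ => (hj J).norm.mul (hj J).norm
    (fun τ hτ => norm_norm (j J τ) ▸ b1 J τ hτ) fun τ hτ => norm_norm (j J τ) ▸ b1 J τ hτ).of_le
    (w := fun τ => Real.log ‖v τ‖) (inv_nonneg.2 c2.le) fun σ hσ τ hτ => by
      have := abs_log_sub_le c2 (s1 σ hσ) (s1 τ hτ)
      rw [Real.dist_eq, Real.dist_eq]
      refine le_trans ?_ this
      rw [show Real.log (∑ J, ‖j J σ‖ * ‖j J σ‖) - Real.log (∑ J, ‖j J τ‖ * ‖j J τ‖) =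
        -2 * (Real.log ‖v σ‖ - Real.log ‖v τ‖) by linarith [s3 σ hσ, s3 τ hτ], abs_mul]
      exact le_mul_of_one_le_left (abs_nonneg _) (by norm_num)
  obtain ⟨g, g1, g2, -, g3⟩ := h _ _ d1
  have n1 : ∀ τ ∈ sphere (0 : ℂ) 1, ‖v τ * exp (-g τ)‖ = 1 := fun τ hτ => by
    rw [norm_mul, norm_exp, neg_re, g3 τ hτ, Real.exp_neg, Real.exp_log (n0 τ hτ),
      mul_inv_cancel₀ (n0 τ hτ).ne']
  have k := (hv.mul g1.da.neg'.exp).const_of_norm
    (fun τ hτ => mul_ne_zero (v0 τ hτ) (exp_ne_zero _)) n1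
  have d2 := ((g2.exp fun τ hτ => (g3 τ hτ).trans_le (s4 τ hτ)).const_mul
    (v 0 * exp (-g 0))).congr (w := v) fun τ hτ => by
      rw [← k τ (sphere_subset_closedBall hτ), mul_assoc, ← exp_add, neg_add_cancel, exp_zero,
        mul_one]
  rw [← k _ (sphere_subset_closedBall (cm_mem 0)), n1 _ (cm_mem 0), one_mul] at d2
  refine ((d2.mul (hj J) (fun τ hτ => (Real.log_le_iff_le_exp (n0 τ hτ)).1 (s4 τ hτ))
    (b1 J)).congr fun τ hτ => hd τ hτ J).mono (le_of_eq ?_)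
  rw [Finset.sum_const, Finset.card_univ, nsmul_eq_mul]
  ring

end Vale.Agent.P253W.WM
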