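import Vale.Agent.P253W.WM.Syn

/-!
# P253W, block WM: Poisson smoothing
-/

open Complex Metric Set Filter Topology
open scoped Matrix ComplexConjugate ComplexOrder

noncomputable section

namespace Vale.Agent.P253W.WM

namespace Psm

theorem cs_ofReal {w : ℂ → ℝ} (hw : ContinuousOn w (sphere 0 1)) :
    ContinuousOn (fun τ => (w τ : ℂ)) (sphere 0 1) := continuous_ofReal.comp_continuousOn hw

theorem fc_real {w : ℂ → ℝ} (hw : ContinuousOn w (sphere 0 1)) (k : ℤ) :
    conj (fc (fun τ => (w τ : ℂ)) (-k)) = fc (fun τ => (w τ : ℂ)) k := by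
  simpa using (fc_conj (cs_ofReal hw) k).symm

theorem mul_pow_le {x : ℝ} (h0 : 0 ≤ x) (h1 : x ≤ 1) (k : ℕ) : k * x * (1 - x) ^ k ≤ 1 := by
  have a := one_add_mul_le_pow (a := x) (by linarith) k
  have b : 0 ≤ (1 - x) ^ k := pow_nonneg (by linarith) k
  have c : (1 + x) ^ k * (1 - x) ^ k ≤ 1 := by
    rw [← mul_pow]; exact pow_le_one₀ (by nlinarith) (by nlinarith)
  nlinarith

theorem ker {q : ℂ} (hq : ‖q‖ < 1) :
    HasSum (fun k : ℕ => (if k = 0 then 1 else 2) * q ^ k) ((1 + q) / (1 - q)) ∧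
      0 ≤ ((1 + q) / (1 - q)).re := by
  have h : 1 - q ≠ 0 := fun h => by simp [← sub_eq_zero.1 h] at hq
  refine ⟨?_, ?_⟩
  · rw [show (1 + q) / (1 - q) = 2 * (1 - q)⁻¹ - 1 by field_simp; ring]
    rw [show (fun k : ℕ => (if k = 0 then 1 else 2) * q ^ k) = fun k => 2 * q ^ k -
      if k = 0 then 1 else 0 from
        funext fun k => by split_ifs with h <;> simp [h, ← one_add_one_eq_two]]
    exact ((hasSum_geometric_of_norm_lt_one hq).mul_left 2).sub (hasSum_ite_eq 0 1)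
  · have h1 : q.re * q.re + q.im * q.im ≤ 1 := by
      rw [← normSq_apply, normSq_eq_norm_sq]; nlinarith [norm_nonneg q]
    rw [div_re, ← add_div]
    exact div_nonneg (by simp; linarith) (normSq_nonneg _)

theorem re_nonneg {φ : ℂ → ℝ} (hc : ContinuousOn φ (sphere 0 1))
    (h0 : ∀ τ ∈ sphere (0 : ℂ) 1, 0 ≤ φ τ) {z : ℂ} (hz : ‖z‖ < 1) :
    0 ≤ (∑' k : ℕ, (if k = 0 then 1 else 2) * z ^ k * fc (fun τ => (φ τ : ℂ)) k).re := by
  obtain ⟨a, -, ha⟩ := exists_bound_cs (cs_ofReal hc)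
  have hq (w) (hw : w ∈ sphere (0 : ℂ) 1) : ‖z * w⁻¹‖ < 1 := by simpa [norm_of_mem hw]
  have h := hasSum_av (f := fun (k : ℕ) w => (if k = 0 then 1 else 2) * z ^ k *
    ((φ w : ℂ) * w ^ (-(k : ℤ)))) (a := fun k => 2 * ‖z‖ ^ k * a)
    (((summable_geometric_of_lt_one (norm_nonneg _) hz).mul_left 2).mul_right a)
    (fun k => continuousOn_const.mul ((cs_ofReal hc).mul (cs_zpow _))) fun k w hw => by
      rw [norm_mul, norm_mul, norm_mul, norm_zpow_of_mem hw, mul_one, norm_pow]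
      gcongr
      · split_ifs <;> simp
      · exact ha w hw
  simp only [av_mul_complex] at h
  have c : ContinuousOn (fun w => (φ w : ℂ) * ((1 + z * w⁻¹) / (1 - z * w⁻¹))) (sphere 0 1) := by
    have := continuousOn_const (c := z).mul (continuousOn_id.inv₀ fun w hw => ne_zero_of_mem hw)
    exact (cs_ofReal hc).mul ((continuousOn_const.add this).div (continuousOn_const.sub this)
      fun w hw h => (hq w hw).ne (by rw [← sub_eq_zero.1 h, norm_one]))
  rw [av_congr (v := fun w => (φ w : ℂ) * ((1 + z * w⁻¹) / (1 - z * w⁻¹))) fun w hw => by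
    rw [← ((ker (hq w hw)).1.mul_left _).tsum_eq]
    exact tsum_congr fun k => by rw [zpow_neg, zpow_natCast, mul_pow, inv_pow]; ring] at h
  simp only [fc]
  rw [h.tsum_eq, ← av_re c]
  exact av_nonneg fun w hw => by
    rw [re_ofReal_mul]; exact mul_nonneg (h0 w hw) (ker (hq w hw)).2

end Psm

open Psm in
theorem psm' : PSM := fun φ N hN hc h0 => by
  have N0 : 0 < N := by linarith
  have x0 : 0 < N⁻¹ := inv_pos.2 N0
  have x1 : N⁻¹ ≤ 1 := inv_le_one_of_one_le₀ hN
  set c := fc fun τ => (φ τ : ℂ) with hcd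
  set L := av fun τ => φ τ ^ 2
  have hL : HasSum (fun k => ‖c k‖ ^ 2) L := by simpa [l2] using pars _ (cs_ofReal hc)
  have L0 : 0 ≤ L := hL.nonneg fun _ => sq_nonneg _
  have hs (s : Finset ℕ) : ∑ k ∈ s, ‖c k‖ ^ 2 ≤ L := by
    simpa using sum_le_hasSum (s.map Nat.castEmbedding) (fun _ _ => sq_nonneg _) hL
  set d : ℕ → ℂ := fun k => (if k = 0 then 1 else 2) * ((1 - N⁻¹ : ℝ) : ℂ) ^ k * c k with hd
  have d1 (k : ℕ) : ‖d k‖ ≤ 2 * (1 - N⁻¹) ^ k * ‖c k‖ := by
    rw [hd, norm_mul, norm_mul, norm_pow, norm_real, Real.norm_of_nonneg (by linarith)]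
    have : 0 ≤ (1 - N⁻¹) ^ k := pow_nonneg (by linarith) k
    gcongr
    split_ifs <;> simp
  have d2 (s : Finset ℕ) : ∑ k ∈ s, (k : ℝ) ^ 2 * ‖d k‖ ^ 2 ≤ (2 * N * √L) ^ 2 := by
    rw [mul_pow, Real.sq_sqrt L0]
    refine le_trans ?_ (mul_le_mul_of_nonneg_left (hs s) (sq_nonneg _))
    rw [Finset.mul_sum]
    refine Finset.sum_le_sum fun k _ => ?_
    rw [← mul_pow, ← mul_pow]
    refine pow_le_pow_left₀ (by positivity) ((mul_le_mul_of_nonneg_left (d1 k)
      k.cast_nonneg).trans ?_) 2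
    have := mul_le_mul_of_nonneg_left (mul_pow_le x0.le x1 k)
      (by positivity : 0 ≤ 2 * N * ‖c k‖)
    refine le_trans (le_of_eq ?_) (this.trans_eq (mul_one _))
    field_simp
  have hA : 0 ≤ 2 * N * √L := by positivity
  have hp := hw_syn hA d2
  have sd := (sob hA d2).1
  refine ⟨syn d, hp, by simp [syn_zero, hd, hcd, fc_zero, av_ofReal hc], fun τ hτ => ?_, ?_,
    fun X B hX => ?_⟩
  · have := re_nonneg hc h0 (z := ((1 - N⁻¹ : ℝ) : ℂ) * τ) (mem_ball_zero_iff.1 (mul_mem_ball'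
      (by rw [norm_real, Real.norm_of_nonneg (by linarith)]; linarith) hτ))
    rwa [tsum_congr (g := fun k => d k * τ ^ k) fun k => by rw [hd, mul_pow]; ring] at this
  · have h1 : l2 (syn d) ≤ 4 * L := by
      refine hasSum_le_of_sum_le hp.da.hasSum_l2 fun s => ?_
      refine le_trans ?_ (mul_le_mul_of_nonneg_left (hs s) (by norm_num))
      rw [Finset.mul_sum]
      refine Finset.sum_le_sum fun k _ => ?_
      have : ‖d k‖ ≤ 2 * 1 * ‖c k‖ := (d1 k).trans (by
        gcongr; exact pow_le_one₀ (by linarith) (by linarith))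
      rw [fc_syn sd]
      nlinarith [norm_nonneg (d k)]
    have h2 := (dq_syn hA d2).en_le
    rw [mul_pow, Real.sq_sqrt L0] at h2
    have h3 : en (syn d) / N ^ 2 ≤ 4 * L := by rw [div_le_iff₀ (by positivity)]; linarith
    linarith
  · have cp : ContinuousOn (fun τ => (syn d τ).re) (sphere 0 1) :=
      continuous_re.comp_continuousOn hp.cs
    have cv : ContinuousOn (fun τ => (syn d τ).re - φ τ) (sphere 0 1) := cp.sub hc
    have f1 (k : ℕ) : ‖fc (fun τ => (((syn d τ).re - φ τ : ℝ) : ℂ)) k‖ ≤ k * N⁻¹ * ‖c k‖ := by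
      simp only [ofReal_sub, re_eq_add_conj, div_eq_inv_mul]
      rw [fc_sub (continuousOn_const.fun_mul (hp.cs.fun_add (cs_conj hp.cs))) (cs_ofReal hc),
        fc_const_mul, fc_add hp.cs (cs_conj hp.cs), fc_conj hp.cs, fc_syn sd, ← hcd]
      rcases k.eq_zero_or_pos with rfl | hk
      · have := fc_syn sd 0
        have h2 := fc_real hc 0
        simp only [Nat.cast_zero, neg_zero, ← hcd] at this h2 ⊢
        rw [this]
        simp [hd, h2, ← two_mul]
      · rw [hp.da.fc_neg (by omega), map_zero, add_zero, hd]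
        simp only [hk.ne', if_false]
        rw [show ∀ x y : ℂ, 2⁻¹ * (2 * x * y) - y = -((1 - x) * y) from fun x y => by ring,
          norm_neg, norm_mul]
        exact mul_le_mul_of_nonneg_right (norm_one_sub_pow_le x0.le x1 k) (norm_nonneg _)
    have f2 (k : ℤ) : ‖fc (fun τ => (((syn d τ).re - φ τ : ℝ) : ℂ)) k‖ ≤ |k| * N⁻¹ * ‖c k‖ := by
      obtain ⟨k, rfl | rfl⟩ := k.eq_nat_or_neg
      · simpa using f1 k
      · have := f1 k
        rw [← fc_real cv, hcd, ← fc_real hc, RCLike.norm_conj, RCLike.norm_conj] at this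
        simpa using this
    have h1 := hasSum_fc_mul_conj hX.ofReal.cs (cs_ofReal cv)
    simp only [conj_ofReal, ← ofReal_mul, mul_sub] at h1
    rw [av_ofReal ((hX.cs.fun_mul cp).fun_sub (hX.cs.fun_mul hc)),
      av_sub (hX.cs.fun_mul cp) (hX.cs.fun_mul hc)] at h1
    rw [← Real.norm_eq_abs, ← norm_real]
    refine le_of_tendsto' (Tendsto.norm h1) fun s => (norm_sum_le _ _).trans ?_
    calc _ ≤ ∑ k ∈ s, N⁻¹ * (|(k : ℝ)| * ‖fc (fun τ => (X τ : ℂ)) k‖ * ‖c k‖) :=
          Finset.sum_le_sum fun k _ => by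
            rw [norm_mul, RCLike.norm_conj]
            exact (mul_le_mul_of_nonneg_left (f2 k) (norm_nonneg _)).trans_eq (by push_cast; ring)
      _ ≤ N⁻¹ * (B * √L) := by
          rw [← Finset.mul_sum]
          refine mul_le_mul_of_nonneg_left ((Real.sum_mul_le_sqrt_mul_sqrt _ _ _).trans
            (mul_le_mul (Real.sqrt_le_iff.2 ⟨hX.1, ?_⟩) (Real.sqrt_le_sqrt (sum_le_hasSum s
              (fun _ _ => sq_nonneg _) hL)) (Real.sqrt_nonneg _) hX.1)) x0.le
          simp only [mul_pow, sq_abs]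
          exact (hX.ofReal.w12.summable.sum_le_tsum s fun _ _ => by positivity).trans
            hX.ofReal.en_le
      _ = _ := by ring

theorem psm (_ : PARS) (_ : ENQ) : PSM := psm'

end Vale.Agent.P253W.WM
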