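import Vale.Agent.P253W.WM.Defs2

/-!
# P253W, row WM.UI: the unit ideal theorem for the `W^{1,2}` disc algebra
-/

open Complex Metric Set Filter Topology

noncomputable section

namespace Vale.Agent.P253W.WM

namespace Ui

/-- the closed disc -/
abbrev KD : Type := closedBall (0 : ℂ) 1

/-- the coordinate -/
def zz : C(KD, ℂ) := ⟨Subtype.val, continuous_subtype_val⟩

/-- the polynomials -/
def PP : Subalgebra ℂ C(KD, ℂ) := Algebra.adjoin ℂ {zz}

/-- the uniform limits of polynomials -/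
def AA : Subalgebra ℂ C(KD, ℂ) := PP.topologicalClosure

theorem le_AA : PP ≤ AA := Subalgebra.le_topologicalClosure _

theorem closed_AA : IsClosed (AA : Set C(KD, ℂ)) := Subalgebra.isClosed_topologicalClosure _

instance : CompleteSpace AA := closed_AA.completeSpace_coe

theorem zz_mem : zz ∈ PP := Algebra.subset_adjoin rfl

theorem norm_zz : ‖zz‖ ≤ 1 :=
  (ContinuousMap.norm_le _ zero_le_one).2 fun τ => mem_closedBall_zero_iff.1 τ.2

theorem norm_one' : ‖(1 : C(KD, ℂ))‖ ≤ 1 :=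
  (ContinuousMap.norm_le _ zero_le_one).2 fun τ => by simp

/-- the restriction to the closed disc -/
def res {f : ℂ → ℂ} (hf : HW f) : C(KD, ℂ) := ⟨fun τ => f τ, hf.cb.domRestrict⟩

theorem res_mem (h : TAY) {f : ℂ → ℂ} (hf : HW f) : res hf ∈ AA := by
  obtain ⟨h1, h2⟩ := h f hf
  have h3 : Summable fun k : ℕ => fc f k • zz ^ k := by
    refine Summable.of_norm_bounded h1 fun k => ?_
    rw [norm_smul]
    refine mul_le_of_le_one_right (norm_nonneg _) ?_
    refine (ContinuousMap.norm_le _ zero_le_one).2 fun τ => ?_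
    rw [ContinuousMap.pow_apply, norm_pow]
    exact pow_le_one₀ (norm_nonneg _) (mem_closedBall_zero_iff.1 τ.2)
  have h4 : ∑' k : ℕ, fc f k • zz ^ k = res hf := by
    ext τ
    exact ((ContinuousMap.evalCLM ℂ τ).hasSum h3.hasSum).unique (h2 τ τ.2)
  rw [← h4]
  exact closed_AA.mem_of_tendsto h3.hasSum (Eventually.of_forall fun s =>
    AA.sum_mem fun k _ => AA.smul_mem (AA.pow_mem (le_AA zz_mem) k) _)

theorem exists_hw {a : C(KD, ℂ)} (ha : a ∈ PP) : ∃ q : ℂ → ℂ, HW q ∧ ∀ τ : KD, q τ = a τ := by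
  induction ha using Algebra.adjoin_induction with
  | mem x hx => exact ⟨_, hw_id, fun τ => by rw [mem_singleton_iff.1 hx]; rfl⟩
  | algebraMap c => exact ⟨_, hw_const c, fun τ => by simp⟩
  | add x y _ _ hx hy =>
    obtain ⟨q, hq, e⟩ := hx
    obtain ⟨q', hq', e'⟩ := hy
    exact ⟨_, hq.add hq', fun τ => by simp [e, e']⟩
  | mul x y _ _ hx hy =>
    obtain ⟨q, hq, e⟩ := hx
    obtain ⟨q', hq', e'⟩ := hy
    exact ⟨_, hq.mul hq', fun τ => by simp [e, e']⟩

/-- the characters are evaluations -/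
theorem exists_pt (χ : WeakDual.characterSpace ℂ AA) :
    ∃ l : KD, ∀ a : AA, χ a = (a : C(KD, ℂ)) l := by
  have h1 : ‖χ ⟨zz, le_AA zz_mem⟩‖ ≤ 1 := by
    refine (AlgHom.norm_apply_le_self_mul_norm_one χ _).trans ?_
    exact mul_le_one₀ norm_zz (norm_nonneg _) norm_one'
  let l : KD := ⟨χ ⟨zz, le_AA zz_mem⟩, by simpa using h1⟩
  have h2 : ∀ (a : C(KD, ℂ)) (ha : a ∈ PP), χ ⟨a, le_AA ha⟩ = a l := by
    intro a ha
    induction ha using Algebra.adjoin_induction with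
    | mem x hx =>
      obtain rfl := mem_singleton_iff.1 hx
      rfl
    | algebraMap c => exact (AlgHomClass.commutes χ c).trans (by simp)
    | add x y hx hy h h' =>
      exact (map_add χ ⟨x, le_AA hx⟩ ⟨y, le_AA hy⟩).trans (by rw [h, h'])
    | mul x y hx hy h h' =>
      exact (map_mul χ ⟨x, le_AA hx⟩ ⟨y, le_AA hy⟩).trans (by rw [h, h'])
  refine ⟨l, fun a => ?_⟩
  obtain ⟨s, hs, hl⟩ := mem_closure_iff_seq_limit.1 (show (a : C(KD, ℂ)) ∈ closure (PP : Set _)
    from a.2)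
  have h3 : Tendsto (fun n => (⟨s n, le_AA (hs n)⟩ : AA)) atTop (𝓝 a) := tendsto_subtype_rng.2 hl
  have h4 := ((map_continuous χ).tendsto a).comp h3
  have h5 := ((ContinuousMap.evalCLM ℂ l).continuous.tendsto _).comp hl
  exact tendsto_nhds_unique h4 (h5.congr fun n => (h2 _ (hs n)).symm)

theorem span_top {ι : Type} (G : ι → AA) (h : ∀ l : KD, ∃ i, (G i : C(KD, ℂ)) l ≠ 0) :
    Ideal.span (range G) = ⊤ := by
  by_contra hne
  obtain ⟨M, hM, hle⟩ := Ideal.exists_le_maximal _ hne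
  obtain ⟨l, hl⟩ := exists_pt M.toCharacterSpace
  obtain ⟨i, hi⟩ := h l
  exact hi ((hl _).symm.trans
    (M.toCharacterSpace_apply_eq_zero_of_mem (hle (Ideal.subset_span ⟨i, rfl⟩))))

end Ui

open Ui in
/-- **Row WM.UI.** -/
theorem ui (h : TAY) : UI := by
  intro ι _ g hg h0
  let G : ι → AA := fun i => ⟨res (hg i), res_mem h (hg i)⟩
  have h1 := span_top G fun l => by
    by_contra hc
    push Not at hc
    exact h0 l l.2 (funext hc)
  obtain ⟨c, hc⟩ := Ideal.mem_span_range_iff_exists_fun.1 (h1 ▸ Submodule.mem_top (x := (1 : AA)))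
  have h2 : ∑ i, (c i : C(KD, ℂ)) * res (hg i) = 1 := by
    have := congrArg (Subtype.val : AA → C(KD, ℂ)) hc
    rwa [AddSubmonoidClass.coe_finsetSum] at this
  have h3 : (fun i => (c i : C(KD, ℂ))) ∈ closure (univ.pi fun _ : ι => (PP : Set C(KD, ℂ))) := by
    rw [closure_pi_set]
    exact fun i _ => (c i).2
  have h4 : IsOpen {q : ι → C(KD, ℂ) | ‖∑ i, q i * res (hg i) - 1‖ < 1} :=
    isOpen_lt (by fun_prop) continuous_const
  obtain ⟨q, hq1, hq2⟩ := _root_.mem_closure_iff.1 h3 _ h4 (by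
    change ‖∑ i, (c i : C(KD, ℂ)) * res (hg i) - 1‖ < 1
    rw [h2, sub_self, norm_zero]
    exact one_pos)
  choose r hr er using fun i => exists_hw (hq2 i (mem_univ i))
  have h5 : HW fun τ => ∑ i, r i τ * g τ i := HW.sum _ fun i _ => (hr i).mul (hg i)
  have h6 : ∀ τ ∈ closedBall (0 : ℂ) 1, ∑ i, r i τ * g τ i ≠ 0 := by
    intro τ hτ h7
    have h8 := ((∑ i, q i * res (hg i) - 1).norm_coe_le_norm ⟨τ, hτ⟩).trans_lt hq1
    have h9 : (∑ i, q i * res (hg i)) ⟨τ, hτ⟩ = 0 := by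
      rw [ContinuousMap.sum_apply]
      exact (Finset.sum_congr rfl fun i _ => by rw [er i ⟨τ, hτ⟩]; rfl).trans h7
    rw [ContinuousMap.sub_apply, h9] at h8
    simp at h8
  refine ⟨fun τ i => (∑ j, r j τ * g τ j)⁻¹ * r i τ, fun i => (h5.inv h6).mul (hr i),
    fun τ hτ => ?_⟩
  simp only [mul_assoc]
  rw [← Finset.mul_sum, inv_mul_cancel₀ (h6 τ hτ)]

end Vale.Agent.P253W.WM
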