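import Vale.Agent.P253W.WM.Defs2

/-!
# P253W, block WM: the Wiener-Masani factorisation near the identity
-/

open Complex Metric Set Filter Topology
open scoped Matrix ComplexConjugate ComplexOrder

noncomputable section

namespace Vale.Agent.P253W.WM

namespace Wm1

variable {q : Type} [Fintype q] [DecidableEq q]

theorem re_pos {W : Matrix q q ℂ} {ε : ℝ} (hW : ∀ i j, ‖W i j‖ ≤ ε) (hε : Fintype.card q * ε < 1)
    {v : q → ℂ} (hv : v ≠ 0) : 0 < (star v ⬝ᵥ ((1 + W) *ᵥ v)).re := by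
  obtain ⟨k, hk⟩ := Function.ne_iff.1 hv
  have h0 : 0 ≤ ε := (norm_nonneg _).trans (hW k k)
  have h1 : (star v ⬝ᵥ v).re = ∑ i, ‖v i‖ ^ 2 := by
    simp only [dotProduct, re_sum, Pi.star_apply, star_def, Complex.conj_mul', ← ofReal_pow,
      ofReal_re]
  have h2 : ‖star v ⬝ᵥ (W *ᵥ v)‖ ≤ ε * (∑ i, ‖v i‖) ^ 2 := by
    rw [sq, Finset.sum_mul_sum]
    simp only [dotProduct, Matrix.mulVec, Finset.mul_sum]
    refine norm_sum_le_of_le _ fun i _ => norm_sum_le_of_le _ fun j _ => ?_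
    rw [norm_mul, norm_mul, Pi.star_apply, norm_star]
    calc _ ≤ ‖v i‖ * (ε * ‖v j‖) := by gcongr; exact hW i j
      _ = _ := by ring
  have h3 := sq_sum_le_card_mul_sum_sq (s := Finset.univ) (f := fun i => ‖v i‖)
  have h4 : 0 < ∑ i, ‖v i‖ ^ 2 := Finset.sum_pos' (fun _ _ => sq_nonneg _)
    ⟨k, Finset.mem_univ _, pow_pos (norm_pos_iff.2 hk) 2⟩
  have h5 := (abs_le.1 ((abs_re_le_norm _).trans h2)).1
  rw [Finset.card_univ] at h3
  rw [Matrix.add_mulVec, Matrix.one_mulVec, dotProduct_add, add_re, h1]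
  nlinarith [mul_le_mul_of_nonneg_left h3 h0]

/-- small matrices over the disc algebra -/
structure Sm (x : ℝ) (V : ℂ → Matrix q q ℂ) : Prop where
  hw : HWm V
  dq : Dqm x V
  bd : ∀ τ ∈ closedBall (0 : ℂ) 1, ∀ i j, ‖V τ i j‖ ≤ x

theorem step (h : RIE) {a U : ℂ → Matrix q q ℂ} {δ r x : ℝ} (hδ : 0 ≤ δ) (hx : 0 ≤ x)
    (hr : 5 * Fintype.card q * δ ≤ r) (ha : Dqm δ a)
    (hb : ∀ τ ∈ sphere (0 : ℂ) 1, ∀ i j, ‖(a τ - 1) i j‖ ≤ δ) (hU : Sm x U) :
    ∃ P : (ℂ → Matrix q q ℂ) × (ℂ → Matrix q q ℂ), Sm (r * x) P.1 ∧ Sm (r * x) P.2 ∧ P.2 0 = 0 ∧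
      ∀ τ ∈ sphere (0 : ℂ) 1, (a τ - 1) * U τ = -P.1 τ + (P.2 τ)ᴴ := by
  have h1 : Dqm δ fun τ => a τ - 1 := fun i j => by
    simpa using (ha i j).sub (dq_const ((1 : Matrix q q ℂ) i j))
  have hU' := fun τ hτ => hU.bd τ (sphere_subset_closedBall hτ)
  have h2 := h1.mul hU.dq hb hU'
  choose p m p1 m1 m0 p0 p2 m2 e b using fun i j => h _ _ (h2 i j)
  have h3 : 0 ≤ Fintype.card q * (δ * x) := by positivity
  have h4 := mul_le_mul_of_nonneg_right hr hx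
  refine ⟨(fun τ => Matrix.of fun i j => -p i j τ, fun τ => Matrix.of fun i j => m j i τ),
    ⟨fun i j => (p1 i j).neg, fun i j => (p2 i j).neg.mono (by nlinarith), fun τ hτ i j => ?_⟩,
    ⟨fun i j => m1 j i, fun i j => (m2 j i).mono (by nlinarith),
      fun τ hτ i j => (b j i τ hτ).2.trans (by nlinarith)⟩, ?_, fun τ hτ => ?_⟩
  · have h5 : ‖p i j 0‖ ≤ Fintype.card q * (δ * x) := by
      rw [p0]
      exact norm_av_le_const (h2 i j).cs fun τ hτ => norm_mul_apply_le (hb τ hτ) (hU' τ hτ) i j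
    have h6 := (b i j τ hτ).1
    have h7 := norm_le_insert' (p i j τ) (p i j 0)
    change ‖-p i j τ‖ ≤ _
    rw [norm_neg]
    nlinarith
  · ext i j; exact m0 j i
  · ext i j
    simpa using e i j τ hτ

omit [Fintype q] [DecidableEq q] in
theorem sum_sm {V : ℕ → ℂ → Matrix q q ℂ} {r : ℝ} (h0 : 0 ≤ r) (h1 : r ≤ 1 / 2)
    (hV : ∀ n, Sm (r * r ^ n) (V n)) : ∃ W : ℂ → Matrix q q ℂ, Sm (2 * r) W ∧
      ∀ τ ∈ closedBall (0 : ℂ) 1, HasSum (fun n => V n τ) (W τ) := by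
  have hs := (hasSum_geometric_of_lt_one h0 (by linarith)).mul_left r
  have hle : r * (1 - r)⁻¹ ≤ 2 * r := by
    rw [← div_eq_mul_inv, div_le_iff₀ (by linarith)]; nlinarith
  have hu := fun i j => tendstoUniformlyOn_tsum_nat hs.summable (f := fun n τ => V n τ i j)
    fun n τ hτ => (hV n).bd τ hτ i j
  have hq : ∀ i j, Dq (2 * r) fun τ => ∑' n, V n τ i j := fun i j =>
    Dq.lim (.of_forall fun N => (Dq.sum _ fun n _ => (hV n).dq i j).mono
      ((sum_le_hasSum _ (fun n _ => by positivity) hs).trans hle))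
      ((hu i j).mono sphere_subset_closedBall)
  refine ⟨fun τ => Matrix.of fun i j => ∑' n, V n τ i j, ⟨fun i j => ⟨DA.lim (.of_forall fun N =>
    DA.sum _ fun n _ => (hV n).hw.da i j) (hu i j), _, hq i j⟩, hq, fun τ hτ i j =>
      (tsum_of_norm_bounded hs fun n => (hV n).bd τ hτ i j).trans hle⟩, fun τ hτ => ?_⟩
  exact Pi.hasSum.2 fun i => Pi.hasSum.2 fun j =>
    (hs.summable.of_norm_bounded fun n => (hV n).bd τ hτ i j).hasSum

end Wm1

open Wm1 in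
theorem wm1 (h : RIE) : WM1 := by
  intro q _ _
  set n : ℝ := (Fintype.card q : ℝ) with hn
  have n0 : 0 ≤ n := Nat.cast_nonneg _
  set r := 1 / (4 * (n + 1)) with hr
  have r0 : 0 ≤ r := by positivity
  have r1 : r * (4 * (n + 1)) = 1 := by rw [hr]; field_simp
  refine ⟨r / (5 * (n + 1)), by positivity, fun a ha hb => ?_⟩
  have hδ : 5 * n * (r / (5 * (n + 1))) ≤ r := by
    rw [← mul_div_assoc, div_le_iff₀ (by positivity)]; nlinarith
  choose F F1 F2 F3 F4 using fun (k : ℕ) (U : {U : ℂ → Matrix q q ℂ // Sm (r ^ k) U}) =>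
    step h (by positivity) (pow_nonneg r0 k) hδ ha (fun τ hτ => (hb τ hτ).2) U.2
  let U : (k : ℕ) → {U : ℂ → Matrix q q ℂ // Sm (r ^ k) U} := fun k => Nat.rec
    ⟨fun _ => 1, hwm_const 1, fun i j => dq_const' (by simp) _, fun _ _ i j => by
      rw [pow_zero, Matrix.one_apply]; split_ifs <;> simp⟩
    (fun k U => ⟨(F k U).1, by rw [pow_succ']; exact F1 k U⟩) k
  obtain ⟨W, hW, sW⟩ := sum_sm r0 (by nlinarith) fun k => F1 k (U k)
  obtain ⟨M, hM, sM⟩ := sum_sm r0 (by nlinarith) fun k => F2 k (U k)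
  have z0 : (0 : ℂ) ∈ closedBall (0 : ℂ) 1 := by simp
  have M0 : M 0 = 0 := (sM 0 z0).unique (by simpa only [F3] using hasSum_zero)
  have key : ∀ τ ∈ sphere (0 : ℂ) 1, a τ * (1 + W τ) = (1 + M τ)ᴴ := fun τ hτ => by
    have hτ' := sphere_subset_closedBall hτ
    have h1 : HasSum (fun k => (U k).1 τ) (1 + W τ) := by
      have := (hasSum_nat_add_iff (f := fun k => (U k).1 τ) 1).1 (sW τ hτ')
      rwa [Finset.sum_range_one, add_comm] at this
    have h2 := h1.mul_left (a τ - 1)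
    simp only [fun k => F4 k (U k) τ hτ] at h2
    have h3 := h2.unique ((sW τ hτ').neg.add (sM τ hτ').matrix_conjTranspose)
    rw [sub_mul, one_mul, sub_eq_iff_eq_add] at h3
    rw [h3, Matrix.conjTranspose_add, Matrix.conjTranspose_one]
    abel
  have hU : HWm fun τ => 1 + W τ := (hwm_const 1).add hW.hw
  have hG : HWm fun τ => (1 + M τ) * (1 + W τ) := ((hwm_const 1).add hM.hw).mul hU
  have k1 : ∀ τ ∈ sphere (0 : ℂ) 1,
      (1 + W τ)ᴴ * a τ * (1 + W τ) = ((1 + M τ) * (1 + W τ))ᴴ := fun τ hτ => by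
    rw [Matrix.mul_assoc, key τ hτ, Matrix.conjTranspose_mul]
  have k2 : ∀ τ ∈ sphere (0 : ℂ) 1, ((1 + M τ) * (1 + W τ)).IsHermitian := fun τ hτ => by
    have := Matrix.isHermitian_conjTranspose_mul_mul (1 + W τ) (hb τ hτ).1
    rw [k1 τ hτ] at this
    simpa using this.conjTranspose
  have k3 : ∀ τ ∈ sphere (0 : ℂ) 1, (1 + M τ) * (1 + W τ) = 1 + W 0 := fun τ hτ => by
    ext i j
    have := (hG.da i j).const_of_conj (hG.da j i) (fun σ hσ => ((k2 σ hσ).apply i j).symm) τ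
      (sphere_subset_closedBall hτ)
    simpa only [M0, add_zero, one_mul] using this
  have hε : n * (2 * r) < 1 := by nlinarith
  have hd : ∀ τ ∈ closedBall (0 : ℂ) 1, (1 + W τ).det ≠ 0 := fun τ hτ h0 => by
    obtain ⟨v, hv, h1⟩ := Matrix.exists_mulVec_eq_zero_iff.2 h0
    simpa [h1] using re_pos (hW.bd τ hτ) hε hv
  have hc : (1 + W 0).IsHermitian := k3 1 (by simp) ▸ k2 1 (by simp)
  have hp : (1 + W 0).PosDef := .of_dotProduct_mulVec_pos hc fun v hv =>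
    Complex.pos_iff.2 ⟨re_pos (hW.bd 0 z0) hε hv, (hc.im_star_dotProduct_mulVec_self v).symm⟩
  obtain ⟨R, hR⟩ : ∃ R : Matrix q q ℂ, 1 + W 0 = Rᴴ * R := by
    open scoped MatrixOrder in
    obtain ⟨R, hR⟩ := CStarAlgebra.nonneg_iff_eq_star_mul_self.mp hp.posSemidef.nonneg
    exact ⟨R, hR⟩
  have hRu : IsUnit R.det := by
    have := hd 0 z0
    rw [hR, Matrix.det_mul] at this
    exact (right_ne_zero_of_mul this).isUnit
  refine ⟨fun τ => (1 + W τ) * R⁻¹, hU.mul (hwm_const _), fun τ hτ => ?_, fun τ hτ => ?_⟩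
  · rw [Matrix.det_mul]
    exact mul_ne_zero (hd τ hτ) (Matrix.isUnit_nonsing_inv_det R hRu).ne_zero
  · calc _ = R⁻¹ᴴ * ((1 + W τ)ᴴ * a τ * (1 + W τ)) * R⁻¹ := by
          simp only [Matrix.conjTranspose_mul, Matrix.mul_assoc]
      _ = (R * R⁻¹)ᴴ * (R * R⁻¹) := by
          rw [k1 τ hτ, k3 τ hτ, hc.eq, hR]
          simp only [Matrix.conjTranspose_mul, Matrix.mul_assoc]
      _ = 1 := by rw [Matrix.mul_nonsing_inv R hRu]; simp

end Vale.Agent.P253W.WM
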