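import Vale.Agent.P253W.WM.Defs2

/-!
# P253W, block WM: the a priori estimate for Wiener-Masani factors
-/

open Complex Metric Set Filter Topology
open scoped Matrix ComplexConjugate ComplexOrder

noncomputable section

namespace Vale.Agent.P253W.WM

namespace Wm2

variable {q : Type} [Fintype q] [DecidableEq q] {μ c : ℝ} {A D G X Φ : Matrix q q ℂ}

theorem quad (hA : (A - (μ : ℂ) • (1 : Matrix q q ℂ)).PosSemidef) (G : Matrix q q ℂ) (j : q) :
    μ * ∑ i, ‖G i j‖ ^ 2 ≤ ((Gᴴ * A * G) j j).re := by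
  have h := (Complex.nonneg_iff.1 ((hA.conjTranspose_mul_mul_same G).diag_nonneg (i := j))).1
  rw [mul_sub, sub_mul, mul_smul_comm, mul_one, smul_mul_assoc, Matrix.sub_apply, sub_re,
    Matrix.smul_apply, smul_eq_mul, re_ofReal_mul, sub_nonneg, Matrix.mul_apply, re_sum] at h
  simpa only [Matrix.conjTranspose_apply, RCLike.star_def, conj_mul', ← ofReal_pow, ofReal_re]
    using h

theorem pt (hμ : 0 < μ) (hA : (A - (μ : ℂ) • (1 : Matrix q q ℂ)).PosSemidef)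
    (e : Gᴴ * A * G = Xᴴ - Gᴴ * (D * Φ)) (hΦ : ∀ i k, ‖Φ i k‖ ≤ c) (i j : q) :
    μ / 2 * ‖G i j‖ ^ 2 ≤
      (X j j).re + c ^ 2 * Fintype.card q / (2 * μ) * ∑ i, ∑ k, ‖D i k‖ ^ 2 := by
  have h1 := quad hA G j
  have hn : (0 : ℝ) < Fintype.card q := Nat.cast_pos.2 (Fintype.card_pos_iff.2 ⟨i⟩)
  have h2 : ‖(Gᴴ * (D * Φ)) j j‖ ≤ ∑ i, ∑ k, (μ / (2 * Fintype.card q) * ‖G i j‖ ^ 2 +
      c ^ 2 * Fintype.card q / (2 * μ) * ‖D i k‖ ^ 2) := by
    simp only [Matrix.mul_apply, Finset.mul_sum]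
    refine (norm_sum_le _ _).trans (Finset.sum_le_sum fun i _ => (norm_sum_le _ _).trans
      (Finset.sum_le_sum fun k _ => ?_))
    rw [norm_mul, norm_mul, Matrix.conjTranspose_apply, norm_star]
    refine (mul_le_mul_of_nonneg_left (mul_le_mul_of_nonneg_left (hΦ k j) (norm_nonneg _))
      (norm_nonneg _)).trans (sub_nonneg.1 ?_)
    rw [show _ - ‖G i j‖ * (‖D i k‖ * c) = (μ * ‖G i j‖ - c * Fintype.card q * ‖D i k‖) ^ 2 /
      (2 * μ * Fintype.card q) by field_simp; ring]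
    positivity
  simp only [Finset.sum_add_distrib, Finset.sum_const, Finset.card_univ, nsmul_eq_mul,
    ← Finset.mul_sum] at h2
  rw [← mul_assoc (Fintype.card q : ℝ),
    show (Fintype.card q : ℝ) * (μ / (2 * Fintype.card q)) = μ / 2 by field_simp] at h2
  rw [e, Matrix.sub_apply, sub_re, Matrix.conjTranspose_apply, RCLike.star_def, conj_re] at h1
  have h3 := (abs_le.1 (abs_re_le_norm ((Gᴴ * (D * Φ)) j j))).1
  have h4 := Finset.single_le_sum (f := fun i => ‖G i j‖ ^ 2) (fun _ _ => sq_nonneg _)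
    (Finset.mem_univ i)
  nlinarith

theorem inv_eq (e : Φᴴ * A * Φ = 1) : A * Φ = Φ⁻¹ᴴ := by
  rw [Matrix.conjTranspose_nonsing_inv, Matrix.inv_eq_right_inv (by rwa [← mul_assoc])]

end Wm2

open Wm2 in
theorem wm2 : WM2 := fun q _ _ μ hμ => by
  set c := 1 + μ⁻¹
  have hc : 0 < c := by positivity
  set n : ℝ := (Fintype.card q : ℝ)
  have n0 : 0 ≤ n := Nat.cast_nonneg _
  refine ⟨c * n ^ 2 / μ + c, by positivity, fun a Φ B ha hp hΦ hd he => ?_⟩
  have hb (τ) (hτ : τ ∈ sphere (0 : ℂ) 1) (i j : q) : ‖Φ τ i j‖ ≤ c := by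
    have h1 := quad (hp τ hτ) (Φ τ) j
    rw [he τ hτ, Matrix.one_apply_eq, one_re, ← le_inv_mul_iff₀ hμ, mul_one] at h1
    have h4 := Finset.single_le_sum (f := fun i => ‖Φ τ i j‖ ^ 2) (fun _ _ => sq_nonneg _)
      (Finset.mem_univ i)
    nlinarith [sq_nonneg (‖Φ τ i j‖ - 1), inv_pos.2 hμ]
  refine ⟨fun i j => ⟨mul_nonneg (by positivity) (ha i j).1, (hΦ i j).cs, fun h => ?_⟩,
    fun τ hτ i j => ((hΦ i j).norm_le (fun σ hσ => hb σ hσ i j) τ hτ).trans
      (le_add_of_nonneg_left (by positivity))⟩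
  have n1 : 1 ≤ n := Nat.one_le_cast.2 (Fintype.card_pos_iff.2 ⟨i⟩)
  have hX := DA.matMul (A := fun τ => (Φ (rt h τ))⁻¹ - (Φ τ)⁻¹) (B := fun τ => Φ (rt h τ) - Φ τ)
    (fun i j => ((DA.matInv hΦ hd i j).rt h).sub' (DA.matInv hΦ hd i j))
    (fun i j => ((hΦ i j).rt h).sub' (hΦ i j)) j j
  have c1 (i k : q) : ContinuousOn (fun τ => dist (a (rt h τ) i k) (a τ i k) ^ 2) (sphere 0 1) :=
    (cs_dist (ha i k).cs h).pow 2
  have c2 (i : q) := continuousOn_finsetSum Finset.univ fun k _ => c1 i k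
  have c3 := continuousOn_finsetSum Finset.univ fun i _ => c2 i
  have c4 := continuous_re.comp_continuousOn hX.cs
  have h1 := av_mono (continuousOn_const.mul ((cs_dist (hΦ i j).cs h).pow 2))
    (c4.add (continuousOn_const.mul c3)) fun τ hτ => by
      have hτ' := rt_mem h hτ
      have := pt (G := Φ (rt h τ) - Φ τ) (D := a (rt h τ) - a τ)
        (X := ((Φ (rt h τ))⁻¹ - (Φ τ)⁻¹) * (Φ (rt h τ) - Φ τ)) hμ (hp _ hτ') (by
        rw [Matrix.conjTranspose_mul, Matrix.conjTranspose_sub (Φ (rt h τ))⁻¹,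
          ← inv_eq (he _ hτ), ← inv_eq (he _ hτ')]
        noncomm_ring) (hb τ hτ) i j
      simp only [dist_eq_norm]
      exact this
  have h2 : av (fun τ => ∑ i, ∑ k, dist (a (rt h τ) i k) (a τ i k) ^ 2) ≤ n * (n * (B * h) ^ 2) := by
    rw [av_sum _ fun i _ => c2 i]
    refine (Finset.sum_le_card_nsmul _ _ _ fun i _ => ?_).trans_eq (nsmul_eq_mul _ _)
    rw [av_sum _ fun k _ => c1 i k]
    exact (Finset.sum_le_card_nsmul _ _ _ fun k _ => (ha i k).le h).trans_eq (nsmul_eq_mul _ _)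
  erw [av_mul_real, av_add c4 (continuousOn_const.mul c3), av_mul_real, av_re hX.cs,
    hX.av_eq] at h1
  simp only [rt_zero', sub_self, mul_zero, Matrix.zero_apply, zero_re, zero_add] at h1
  have h3 := h1.trans (mul_le_mul_of_nonneg_left h2 (by positivity))
  rw [← le_div_iff₀' (by positivity)] at h3
  refine h3.trans ?_
  calc _ = (c * n / μ) ^ 2 * n * (B * h) ^ 2 := by field_simp; rfl
    _ ≤ (c * n ^ 2 / μ + c) ^ 2 * (B * h) ^ 2 := by
        refine mul_le_mul_of_nonneg_right ?_ (sq_nonneg _)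
        calc _ ≤ (c * n / μ) ^ 2 * n ^ 2 := by gcongr; nlinarith
          _ = (c * n ^ 2 / μ) ^ 2 := by ring
          _ ≤ _ := by gcongr; linarith
    _ = _ := by ring

end Vale.Agent.P253W.WM
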