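import Vale.Agent.P253W.WM.Defs2

/-!
# P253W, block WM: the Wiener-Masani factorisation by the continuity method
-/

open Complex Metric Set Filter Topology
open scoped Matrix ComplexConjugate ComplexOrder

noncomputable section

namespace Vale.Agent.P253W.WM

section

variable {q : Type} [Fintype q] [DecidableEq q]

omit [DecidableEq q] in
theorem psd_of_sphere {M : Matrix q q ℂ} (hM : M.IsHermitian)
    (h : ∀ x : q → ℂ, ‖x‖ = 1 → 0 ≤ (star x ⬝ᵥ M *ᵥ x).re) : M.PosSemidef := by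
  refine .of_dotProduct_mulVec_nonneg hM fun x =>
    Complex.nonneg_iff.2 ⟨?_, (hM.im_star_dotProduct_mulVec_self x).symm⟩
  rcases eq_or_ne x 0 with rfl | hx
  · simp
  have p := inv_pos.2 (norm_pos_iff.2 hx)
  have := h (‖x‖⁻¹ • x) (norm_smul_inv_norm (𝕜 := ℝ) hx)
  rw [Matrix.mulVec_smul, star_smul, smul_dotProduct, dotProduct_smul, smul_re, smul_re,
    star_trivial] at this
  exact (mul_nonneg_iff_of_pos_left p).1 ((mul_nonneg_iff_of_pos_left p).1 this)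

omit [Fintype q] in
theorem herm_one (μ : ℝ) : ((μ : ℂ) • (1 : Matrix q q ℂ)).IsHermitian := by
  simp [Matrix.IsHermitian]

theorem exists_mu {a : ℂ → Matrix q q ℂ} (ha : ∀ i j, ContinuousOn (fun τ => a τ i j) (sphere 0 1))
    (hp : ∀ τ ∈ sphere (0 : ℂ) 1, (a τ).PosDef) : ∃ μ : ℝ, 0 < μ ∧ μ ≤ 1 ∧
      ∀ τ ∈ sphere (0 : ℂ) 1, (a τ - (μ : ℂ) • (1 : Matrix q q ℂ)).PosSemidef := by
  have p : ∀ x : q → ℂ, ‖x‖ = 1 → 0 < (star x ⬝ᵥ x).re := fun x hx => by
    simpa using (Complex.pos_iff.1 (Matrix.PosDef.one.dotProduct_mulVec_pos (x := x)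
      (by rintro rfl; simp at hx))).1
  obtain ⟨δ, h0, hδ⟩ := ((isCompact_sphere (0 : ℂ) 1).prod (isCompact_sphere (0 : q → ℂ)
    1)).exists_forall_le' (a := 0) (f := fun z => (star z.2 ⬝ᵥ a z.1 *ᵥ z.2).re /
      (star z.2 ⬝ᵥ z.2).re) (.div₀ (g := fun z : ℂ × (q → ℂ) => (star z.2 ⬝ᵥ z.2).re)
      (continuous_re.comp_continuousOn (by
        simp only [dotProduct, Matrix.mulVec]
        exact continuousOn_finsetSum _ fun i _ => .mul (by fun_prop) (continuousOn_finsetSum _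
          fun j _ => .mul ((ha i j).comp continuousOn_fst fun _ h => h.1) (by fun_prop))))
      (by fun_prop) fun z hz => (p _ (by simpa using hz.2)).ne')
    fun z hz => div_pos (Complex.pos_iff.1 ((hp _ hz.1).dotProduct_mulVec_pos (x := z.2) fun e => by
      simpa [e] using hz.2)).1 (p _ (by simpa using hz.2))
  refine ⟨min δ 1, by positivity, min_le_right _ _, fun τ hτ =>
    psd_of_sphere ((hp τ hτ).1.sub (herm_one _)) fun x hx => ?_⟩
  have := (le_div_iff₀ (p x hx)).1 ((min_le_left δ 1).trans (hδ (τ, x) ⟨hτ, by simpa using hx⟩))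
  rwa [Matrix.sub_mulVec, dotProduct_sub, sub_re, Matrix.smul_mulVec, Matrix.one_mulVec,
    dotProduct_smul, smul_eq_mul, re_ofReal_mul, sub_nonneg]

omit [Fintype q] in
theorem dqm_aff {b : ℂ → Matrix q q ℂ} {B t : ℝ} (h : Dqm B b) (ht : 0 ≤ t) :
    Dqm (t * B) fun τ => 1 + (t : ℂ) • b τ := fun i j => by
  simpa [abs_of_nonneg ht] using (dq_const ((1 : Matrix q q ℂ) i j)).add ((h i j).const_mul t)

end

theorem wme (h1 : WM1) (h2 : WM2) : WME := by
  intro q _ _ a ha hp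
  obtain ⟨δ, δ0, hδ⟩ := h1 q
  obtain ⟨μ, μ0, μ1, hμ⟩ := exists_mu (fun i j => (ha i j).cs) hp
  obtain ⟨K, K0, hK⟩ := h2 q μ μ0
  set b : ℂ → Matrix q q ℂ := fun τ => a τ - 1 with hb
  have wb : ∀ p : q × q, W12 fun τ => b τ p.1 p.2 := fun p => (ha _ _).sub (w12_const _)
  obtain ⟨B, B0, hB⟩ := exists_dq_common wb
  replace hB : Dqm B b := fun i j => hB (i, j)
  obtain ⟨C, C0, hC⟩ := exists_bound_cs (W12.pi (u := fun τ (p : q × q) => b τ p.1 p.2) wb).cs
  replace hC : ∀ τ ∈ sphere (0 : ℂ) 1, ∀ i j, ‖b τ i j‖ ≤ C := fun τ hτ i j =>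
    (norm_le_pi_norm (fun p : q × q => b τ p.1 p.2) (i, j)).trans (hC τ hτ)
  set n : ℝ := (Fintype.card q : ℝ) with hn
  have n0 : 0 ≤ n := Nat.cast_nonneg _
  set D := n * (n * (K * C) * K) + n * (K * (n * (C * (K * B) + K * B)) + n * (K * C) * (K * B))
    with hD
  obtain ⟨N, hN⟩ := exists_nat_gt (D / δ)
  have N0 : (0 : ℝ) < N := lt_of_le_of_lt (by positivity) hN
  have hN' : (N : ℝ)⁻¹ * D ≤ δ := by
    rw [inv_mul_le_iff₀ N0, ← div_le_iff₀ δ0]
    exact hN.le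
  have key : ∀ k : ℕ, k ≤ N → ∃ Φ : ℂ → Matrix q q ℂ, HWm Φ ∧
      (∀ τ ∈ closedBall (0 : ℂ) 1, (Φ τ).det ≠ 0) ∧ ∀ τ ∈ sphere (0 : ℂ) 1,
        (Φ τ)ᴴ * (1 + ((k / N : ℝ) : ℂ) • b τ) * Φ τ = 1 := by
    intro k hk
    induction k with
    | zero => exact ⟨fun _ => 1, hwm_const _, by simp, by simp⟩
    | succ k ih =>
      obtain ⟨Φ, p1, p2, p3⟩ := ih (by omega)
      have t0 : (0 : ℝ) ≤ k / N := by positivity
      have t1 : (k / N : ℝ) ≤ 1 := (div_le_one N0).2 (by exact_mod_cast (by omega : k ≤ N))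
      obtain ⟨k1, k2⟩ := hK _ Φ B ((dqm_aff hB t0).mono (mul_le_of_le_one_left B0 t1))
        (fun τ hτ => by
          convert ((hμ τ hτ).smul t0).add (Matrix.PosSemidef.one.smul
            (mul_nonneg (sub_nonneg.2 t1) (sub_nonneg.2 μ1))) using 1
          simp only [hb, ← Complex.coe_smul]
          push_cast
          module) p1.da p2 p3
      replace k2 := fun τ (hτ : τ ∈ sphere (0 : ℂ) 1) => k2 τ (sphere_subset_closedBall hτ)
      have k3 : ∀ τ ∈ sphere (0 : ℂ) 1, ∀ i j, ‖(Φ τ)ᴴ i j‖ ≤ K := fun τ hτ i j => by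
        simpa using k2 τ hτ j i
      have k4 := fun τ hτ => norm_mul_apply_le (k3 τ hτ) (hC τ hτ)
      obtain ⟨Φ', q1, q2, q3⟩ := hδ (fun τ => 1 + (((N : ℝ)⁻¹ : ℝ) : ℂ) • ((Φ τ)ᴴ * b τ * Φ τ))
        ((dqm_aff ((k1.conjTranspose.mul hB k3 hC).mul k1 k4 k2) (by positivity)).mono
          (le_trans (by gcongr; exact le_add_of_nonneg_left (by positivity)) hN')) fun τ hτ =>
        ⟨Matrix.isHermitian_one.add (IsSelfAdjoint.smul (Complex.conj_ofReal _)
          (Matrix.isHermitian_conjTranspose_mul_mul _ ((hp τ hτ).1.sub Matrix.isHermitian_one))),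
          fun i j => by
            rw [add_sub_cancel_left, Matrix.smul_apply, norm_smul, norm_real,
              Real.norm_of_nonneg (by positivity)]
            refine le_trans ?_ hN'
            gcongr
            exact (norm_mul_apply_le (k4 τ hτ) (k2 τ hτ) i j).trans
              (le_add_of_nonneg_right (by positivity))⟩
      refine ⟨fun τ => Φ τ * Φ' τ, p1.mul q1, fun τ hτ => by
        rw [Matrix.det_mul]; exact mul_ne_zero (p2 τ hτ) (q2 τ hτ), fun τ hτ => ?_⟩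
      refine Eq.trans ?_ (q3 τ hτ)
      conv_rhs => rw [← p3 τ hτ]
      rw [Matrix.conjTranspose_mul]
      push_cast
      simp only [add_div, add_smul, Matrix.mul_add, Matrix.add_mul, Matrix.mul_smul,
        Matrix.smul_mul, Matrix.mul_assoc, one_div, add_assoc]
  obtain ⟨Φ, p1, p2, p3⟩ := key N le_rfl
  refine ⟨Φ, fun τ => (Φ τ)⁻¹, p1, p1.inv p2, fun τ hτ =>
    Matrix.mul_nonsing_inv _ (p2 τ hτ).isUnit, fun τ hτ => ?_⟩
  have e := Matrix.mul_nonsing_inv _ (p2 τ (sphere_subset_closedBall hτ)).isUnit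
  have := p3 τ hτ
  rw [div_self N0.ne', ofReal_one, one_smul, hb, add_sub_cancel] at this
  calc _ = (Φ τ)⁻¹ᴴ * ((Φ τ)ᴴ * a τ * Φ τ) * (Φ τ)⁻¹ := by rw [this, Matrix.mul_one]
    _ = (Φ τ * (Φ τ)⁻¹)ᴴ * a τ * (Φ τ * (Φ τ)⁻¹) := by
        simp only [Matrix.conjTranspose_mul, Matrix.mul_assoc]
    _ = _ := by simp [e]

theorem wmf (h1 : WM1) (h2 : WM2) (h3 : OUT) : WMF := by
  intro q _ _ μ μ0
  obtain ⟨K, K0, hK⟩ := h2 q μ μ0
  refine ⟨2 * K, by positivity, fun a l B ha hl hp => ?_⟩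
  obtain ⟨Φ, Ψ, p1, p2, p3, p4⟩ := wme h1 h2 q a (fun i j => (ha i j).w12) fun τ hτ => by
    simpa using (Matrix.PosDef.one.smul (Complex.zero_lt_real.2 μ0)).posSemidef_add (hp τ hτ).2
  obtain ⟨k1, k2⟩ := hK a Φ B ha (fun τ hτ => (hp τ hτ).2) p1.da
    (fun τ hτ => Matrix.det_ne_zero_of_right_inverse (p3 τ hτ)) fun τ hτ => by
      rw [← p4 τ hτ, ← Matrix.mul_assoc, ← Matrix.conjTranspose_mul, Matrix.mul_assoc,
        mul_eq_one_comm.1 (p3 τ (sphere_subset_closedBall hτ))]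
      simp
  obtain ⟨h, q1, q2, -, q3⟩ := h3 _ _ (hl.const_mul (1 / 2))
  have k3 := q1.neg.exp.da.norm_le (C := 1) fun τ hτ => by
    rw [Complex.norm_exp, Real.exp_le_one_iff, neg_re, q3 τ hτ]
    linarith [(hp τ hτ).1]
  refine ⟨fun τ => exp (-h τ) • Φ τ, fun τ => exp (h τ) • Ψ τ, .smul q1.neg.exp p1, .smul q1.exp p2,
    fun τ hτ => ?_, fun τ hτ => ?_, fun i j => ?_, fun τ hτ i j => ?_⟩
  · simp [smul_smul, ← Complex.exp_add, p3 τ hτ]
  · rw [Matrix.conjTranspose_smul, Matrix.smul_mul, Matrix.mul_smul, smul_smul, p4 τ hτ,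
      star_def, conj_mul', Complex.norm_exp, q3 τ hτ, ← ofReal_pow, ← Real.exp_nat_mul]
    congr 3
    ring
  · refine ((q2.neg.exp (M := 0) fun τ hτ => ?_).mul (k1 i j)
      (fun τ hτ => k3 τ (sphere_subset_closedBall hτ))
      fun τ hτ => k2 τ (sphere_subset_closedBall hτ) i j).mono (le_of_eq ?_)
    · rw [neg_re, q3 τ hτ]
      linarith [(hp τ hτ).1]
    · norm_num
      ring
  · simp only [Matrix.smul_apply, norm_smul]
    nlinarith [k3 τ hτ, k2 τ hτ i j, norm_nonneg (Φ τ i j), norm_nonneg (exp (-h τ))]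

end Vale.Agent.P253W.WM
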