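import Vale.Agent.P253W.WM.Emb
import Vale.Agent.P253W.WM.Key1
import Vale.Agent.P253W.WM.Bpa
import Vale.Agent.P253W.WM.Fam
import Vale.Agent.P253W.WM.Gau
import Vale.Agent.P253W.WM.Ui
import Vale.Agent.P253W.WM.Ginv
import Vale.Agent.P253W.WM.Idem
import Vale.Agent.P253W.WM.Key3
import Vale.Agent.P253W.WM.Jen
import Vale.Agent.P253W.WM.Psm
import Vale.Agent.P253W.WM.Wm1
import Vale.Agent.P253W.WM.Wm2
import Vale.Agent.P253W.WM.Wmf
import Vale.Agent.P253W.WM.Iso2

/-!
# P253W, block WM: the statements without hypotheses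
-/

namespace Vale.Agent.P253W.WM.All

theorem bpw : BPW := WM.bpw bpa

theorem gau : GAU := WM.gau emb_spec fam

theorem gau2 : GAU2 := WM.gau2 emb_spec fam

theorem ui : UI := WM.ui tay

theorem ginv : GINV := WM.ginv ui

theorem free : FREE := WM.free ginv

theorem cb2 : CB2 := WM.cb2 cb1

theorem key3 : KEY3 := WM.key3 cb1 out

theorem jen : JEN := WM.jen out

theorem psm : PSM := WM.psm pars enq

theorem wm1 : WM1 := WM.wm1 rie

theorem wme : WME := WM.wme wm1 wm2

theorem wmf : WMF := WM.wmf wm1 wm2 out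

theorem iso2 : ISO2 := WM.iso2 cb1 free wme key1 key3

end Vale.Agent.P253W.WM.All
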