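import Mathlib

/-!
# P253W, block WM: the `W^{1,2}` disc algebra. Definitions and statements.

`Dq A u` says that the loop `u` (in any metric space) is `W^{1,2}` with `|du|_2 ≤ A`, in the form
of a bound for the rotation difference quotients. No derivative and no `L^p` class is used.
-/

open Complex Metric Set Filter Topology
open scoped Matrix ComplexConjugate ComplexOrder

noncomputable section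

namespace Vale.Agent.P253W.WM

/-- mean over the unit circle -/
abbrev av {F : Type*} [NormedAddCommGroup F] [NormedSpace ℝ F] (u : ℂ → F) : F :=
  Real.circleAverage u 0 1

/-- rotation by the angle `h` -/
def rt (h : ℝ) (τ : ℂ) : ℂ := Complex.exp (h * I) * τ

/-- `u` is a `W^{1,2}` loop and `|du|_2 ≤ A` -/
def Dq {X : Type*} [PseudoMetricSpace X] (A : ℝ) (u : ℂ → X) : Prop :=
  0 ≤ A ∧ ContinuousOn u (sphere 0 1) ∧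
    ∀ h : ℝ, av (fun τ => dist (u (rt h τ)) (u τ) ^ 2) ≤ (A * h) ^ 2

/-- `W^{1,2}` loops -/
def W12 {X : Type*} [PseudoMetricSpace X] (u : ℂ → X) : Prop := ∃ A, Dq A u

/-- the disc algebra -/
abbrev DA (f : ℂ → ℂ) : Prop := DiffContOnCl ℂ f (ball 0 1)

/-- the `W^{1,2}` disc algebra -/
structure HW (f : ℂ → ℂ) : Prop where
  da : DA f
  w : W12 f

/-- vectors over the `W^{1,2}` disc algebra -/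
def HWv {ι : Type*} (f : ℂ → ι → ℂ) : Prop := ∀ i, HW fun τ => f τ i

/-- matrices over the `W^{1,2}` disc algebra -/
def HWm {ι κ : Type*} (A : ℂ → Matrix ι κ ℂ) : Prop := ∀ i j, HW fun τ => A τ i j

/-- entrywise derivative bound, vectors -/
def Dqv {ι : Type*} (B : ℝ) (f : ℂ → ι → ℂ) : Prop := ∀ i, Dq B fun τ => f τ i

/-- entrywise derivative bound, matrices -/
def Dqm {ι κ : Type*} (B : ℝ) (A : ℂ → Matrix ι κ ℂ) : Prop := ∀ i j, Dq B fun τ => A τ i j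

/-- Fourier coefficients -/
def fc (u : ℂ → ℂ) (k : ℤ) : ℂ := av fun τ => u τ * τ ^ (-k)

/-- `|u|_2^2` -/
def l2 (u : ℂ → ℂ) : ℝ := av fun τ => ‖u τ‖ ^ 2

/-- `|du|_2^2` -/
def en (u : ℂ → ℂ) : ℝ := ∑' k : ℤ, (k : ℝ) ^ 2 * ‖fc u k‖ ^ 2

/-- the gauge `|f|_2^2 + N^{-2} |df|_2^2` -/
def gq {ι : Type*} [Fintype ι] (N : ℝ) (f : ℂ → ι → ℂ) : ℝ :=
  ∑ i, (l2 (fun τ => f τ i) + en (fun τ => f τ i) / N ^ 2)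

/-! ### scalar theory -/

/-- Riesz projection -/
def RIE : Prop := ∀ (u : ℂ → ℂ) (A : ℝ), Dq A u → ∃ p m : ℂ → ℂ, HW p ∧ HW m ∧ m 0 = 0 ∧
  p 0 = av u ∧ Dq A p ∧ Dq A m ∧ (∀ τ ∈ sphere (0 : ℂ) 1, u τ = p τ + conj (m τ)) ∧
  ∀ τ ∈ closedBall (0 : ℂ) 1, ‖p τ - p 0‖ ≤ 2 * A ∧ ‖m τ‖ ≤ 2 * A

/-- outer functions: `exp h` has modulus `exp u` on the circle -/
def OUT : Prop := ∀ (u : ℂ → ℝ) (A : ℝ), Dq A u → ∃ h : ℂ → ℂ, HW h ∧ Dq (2 * A) h ∧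
  h 0 = ((av u : ℝ) : ℂ) ∧ ∀ τ ∈ sphere (0 : ℂ) 1, (h τ).re = u τ

/-- tangential and radial difference quotients have the same limit in `L^2` -/
def TR : Prop := ∀ f : ℂ → ℂ, HW f → ∀ ε : ℝ, 0 < ε → ∃ δ : ℝ, 0 < δ ∧ ∀ h ∈ Ioo (0 : ℝ) δ,
  l2 (fun τ => (f (rt h τ) - f τ) - I * (f τ - f ((1 - h : ℝ) * τ))) ≤ (ε * h) ^ 2

/-- the energy density -/
def DENS : Prop := ∀ (u : ℂ → ℂ) (A : ℝ), Dq A u → ∃ m : ℂ → ℝ, (∀ τ, 0 ≤ m τ) ∧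
  CircleIntegrable m 0 1 ∧ av m ≤ A ^ 2 ∧ ∀ a b : ℝ, a ≤ b →
    ‖u (circleMap 0 1 b) - u (circleMap 0 1 a)‖ ^ 2 ≤
      (b - a) * ∫ θ in a..b, m (circleMap 0 1 θ)

/-- Jensen: `log |G|^2` is subharmonic up to the boundary -/
def JEN : Prop := ∀ (ι : Type) [Fintype ι] (G : ℂ → ι → ℂ) (w : ℂ → ℝ),
  (∀ i, DA fun τ => G τ i) → ContinuousOn w (sphere 0 1) →
  (∀ τ ∈ sphere (0 : ℂ) 1, ∑ i, ‖G τ i‖ ^ 2 ≤ Real.exp (w τ)) →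
  ∑ i, ‖G 0 i‖ ^ 2 ≤ Real.exp (av w)

/-- Poisson smoothing at the scale `1/N` of a test function `φ ≥ 0`; `Re p` is the smoothed
function -/
def PSM : Prop := ∀ (φ : ℂ → ℝ) (N : ℝ), 1 ≤ N → ContinuousOn φ (sphere 0 1) →
  (∀ τ ∈ sphere (0 : ℂ) 1, 0 ≤ φ τ) → ∃ p : ℂ → ℂ, HW p ∧ p 0 = ((av φ : ℝ) : ℂ) ∧
    (∀ τ ∈ closedBall (0 : ℂ) 1, 0 ≤ (p τ).re) ∧
    l2 p + en p / N ^ 2 ≤ 8 * av (fun τ => φ τ ^ 2) ∧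
    ∀ (X : ℂ → ℝ) (B : ℝ), Dq B X →
      |av (fun τ => X τ * (p τ).re) - av (fun τ => X τ * φ τ)| ≤
        B / N * √(av fun τ => φ τ ^ 2)

/-- bumps at the scale `1/N` with tails of order `2 d` -/
def BUMP : Prop := ∀ d : ℕ, ∃ C : ℝ, ∀ N : ℝ, 1 ≤ N → ∃ k : ℂ → ℂ, HW k ∧ k 0 = 0 ∧ l2 k = 1 ∧
  Dq (C * N) k ∧ ∀ θ : ℝ, |θ| ≤ Real.pi →
    ‖k (circleMap 0 1 θ)‖ ^ 2 ≤ C * N / (1 + N * |θ|) ^ (2 * d)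

/-- the Poisson majorant at the scale `1/N` of an integrable `m ≥ 0` -/
def POI : Prop := ∃ C : ℝ, ∀ (m : ℂ → ℝ) (N : ℝ), 1 ≤ N → (∀ τ ∈ sphere (0 : ℂ) 1, 0 ≤ m τ) →
  CircleIntegrable m 0 1 → ∃ g : ℂ → ℝ, ContinuousOn g (sphere 0 1) ∧
    (∀ τ ∈ sphere (0 : ℂ) 1, 0 ≤ g τ) ∧ av g = av m ∧
    (∀ τ ∈ sphere (0 : ℂ) 1, ∀ h : ℝ, g (rt h τ) ≤ Real.exp (C * N * |h|) * g τ) ∧
    ∀ θ r : ℝ, 0 ≤ r → r ≤ Real.pi →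
      N * ∫ s in (θ - r)..(θ + r), m (circleMap 0 1 s) ≤
        C * (1 + N * r) ^ 2 * g (circleMap 0 1 θ)

/-! ### the gauge and Borwein-Preiss -/

/-- second variation of the gauge along a holomorphic family -/
def GAU : Prop := ∀ (ι : Type) [Fintype ι] (N r A : ℝ) (Y : ℂ → ℂ → ι → ℂ) (g : ℂ → ι → ℂ),
  0 < N → 0 < r → HWv g →
  (∀ s ∈ ball (0 : ℂ) r, HWv (Y s) ∧ Dqv A (Y s) ∧ ∀ τ ∈ sphere (0 : ℂ) 1, ∀ i, ‖Y s τ i‖ ≤ A) →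
  (∀ τ ∈ closedBall (0 : ℂ) 1, ∀ i, DifferentiableOn ℂ (fun s => Y s τ i) (ball 0 r)) →
  HWv (fun τ i => deriv (fun s => Y s τ i) 0) ∧
  ContinuousOn (fun s => gq N (Y s - g)) (ball 0 r) ∧
  ∃ C : ℝ, ∀ ρ ∈ Ioo (0 : ℝ) (r / 2),
    (∀ s : ℂ, ‖s‖ = ρ → √(gq N (Y s - Y 0)) ≤
      ρ * √(gq N (fun τ i => deriv (fun s => Y s τ i) 0)) + C * ρ ^ 2) ∧
    Real.circleAverage (fun s => gq N (Y s - g)) 0 ρ ≤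
      gq N (Y 0 - g) + ρ ^ 2 * gq N (fun τ i => deriv (fun s => Y s τ i) 0) + C * ρ ^ 3

/-- Borwein-Preiss in a Hilbert space, barycentre form -/
def BPA : Prop := ∀ (H : Type) [NormedAddCommGroup H] [InnerProductSpace ℂ H] [CompleteSpace H]
  (X : Type) (Y : X → H) (F : X → ℝ) (ε lam : ℝ) (x1 : X), 0 < ε → 0 < lam →
  (∀ x, F x1 ≤ F x + ε) →
  (∀ (x : ℕ → X) (g : H), (∀ k, F (x k) ≤ F x1) → Tendsto (fun k => Y (x k)) atTop (𝓝 g) →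
    ∃ x', Y x' = g ∧ ∀ η : ℝ, 0 < η → ∀ᶠ k in atTop, F x' ≤ F (x k) + η) →
  ∃ (x : X) (g : H), F x ≤ F x1 ∧ ‖Y x - Y x1‖ ^ 2 ≤ 16 * ε / lam ∧
    ‖Y x - g‖ ^ 2 ≤ 16 * ε / lam ∧ ∀ y, F x + lam * ‖Y x - g‖ ^ 2 ≤ F y + lam * ‖Y y - g‖ ^ 2

/-- Borwein-Preiss for `W^{1,2}` discs -/
def BPW : Prop := ∀ (ι : Type) [Fintype ι] (X : Type) (Y : X → ℂ → ι → ℂ) (F : X → ℝ)
  (N ε lam : ℝ) (x1 : X), 0 < N → 0 < ε → 0 < lam → (∀ x, HWv (Y x)) → (∀ x, F x1 ≤ F x + ε) →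
  (∀ (x : ℕ → X) (g : ℂ → ι → ℂ) (A : ℝ), (∀ k, F (x k) ≤ F x1) → HWv g →
    (∀ k, Dqv A (Y (x k))) → TendstoUniformlyOn (fun k => Y (x k)) g atTop (closedBall 0 1) →
    ∃ x', EqOn (Y x') g (closedBall 0 1) ∧
      ∀ η : ℝ, 0 < η → ∀ᶠ k in atTop, F x' ≤ F (x k) + η) →
  ∃ (x : X) (g : ℂ → ι → ℂ), HWv g ∧ F x ≤ F x1 ∧ gq N (Y x - Y x1) ≤ 16 * ε / lam ∧
    gq N (Y x - g) ≤ 16 * ε / lam ∧
    ∀ y, F x + lam * gq N (Y x - g) ≤ F y + lam * gq N (Y y - g)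

/-! ### modules over the `W^{1,2}` disc algebra -/

/-- unit ideal -/
def UI : Prop := ∀ (ι : Type) [Fintype ι] (g : ℂ → ι → ℂ), HWv g →
  (∀ τ ∈ closedBall (0 : ℂ) 1, g τ ≠ 0) →
  ∃ h : ℂ → ι → ℂ, HWv h ∧ ∀ τ ∈ closedBall (0 : ℂ) 1, ∑ i, h τ i * g τ i = 1

/-- a matrix of constant rank has a generalised inverse -/
def GINV : Prop := ∀ (ι κ : Type) [Fintype ι] [Fintype κ] (q : ℕ) (A : ℂ → Matrix ι κ ℂ),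
  HWm A → (∀ τ ∈ closedBall (0 : ℂ) 1, (A τ).rank = q) →
  ∃ G : ℂ → Matrix κ ι ℂ, HWm G ∧ ∀ τ ∈ closedBall (0 : ℂ) 1, A τ * G τ * A τ = A τ

/-- idempotents are conjugate to constants -/
def IDEM : Prop := ∀ (ι : Type) [Fintype ι] [DecidableEq ι] (P : ℂ → Matrix ι ι ℂ), HWm P →
  (∀ τ ∈ closedBall (0 : ℂ) 1, P τ * P τ = P τ) →
  ∃ U V : ℂ → Matrix ι ι ℂ, HWm U ∧ HWm V ∧
    ∀ τ ∈ closedBall (0 : ℂ) 1, U τ * V τ = 1 ∧ P τ * U τ = U τ * P 0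

/-- the image of a matrix of constant rank is free: `A X` is a frame, `Y` a left inverse -/
def FREE : Prop := ∀ (ι κ : Type) [Fintype ι] [Fintype κ] (q : ℕ) (A : ℂ → Matrix ι κ ℂ),
  HWm A → (∀ τ ∈ closedBall (0 : ℂ) 1, (A τ).rank = q) →
  ∃ (X : ℂ → Matrix κ (Fin q) ℂ) (Y : ℂ → Matrix (Fin q) ι ℂ), HWm X ∧ HWm Y ∧
    ∀ τ ∈ closedBall (0 : ℂ) 1, Y τ * (A τ * X τ) = 1 ∧ A τ * X τ * Y τ * A τ = A τ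

/-! ### Wiener-Masani -/

/-- factorisation near the identity -/
def WM1 : Prop := ∀ (q : Type) [Fintype q] [DecidableEq q], ∃ δ : ℝ, 0 < δ ∧
  ∀ a : ℂ → Matrix q q ℂ, Dqm δ a →
  (∀ τ ∈ sphere (0 : ℂ) 1, (a τ).IsHermitian ∧ ∀ i j, ‖(a τ - 1) i j‖ ≤ δ) →
  ∃ Φ : ℂ → Matrix q q ℂ, HWm Φ ∧ (∀ τ ∈ closedBall (0 : ℂ) 1, (Φ τ).det ≠ 0) ∧
    ∀ τ ∈ sphere (0 : ℂ) 1, (Φ τ)ᴴ * a τ * Φ τ = 1

/-- the a priori estimate (rotation difference quotients) -/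
def WM2 : Prop := ∀ (q : Type) [Fintype q] [DecidableEq q] (μ : ℝ), 0 < μ → ∃ K : ℝ, 0 ≤ K ∧
  ∀ (a Φ : ℂ → Matrix q q ℂ) (B : ℝ), Dqm B a →
  (∀ τ ∈ sphere (0 : ℂ) 1, (a τ - (μ : ℂ) • (1 : Matrix q q ℂ)).PosSemidef) →
  (∀ i j, DA fun τ => Φ τ i j) → (∀ τ ∈ closedBall (0 : ℂ) 1, (Φ τ).det ≠ 0) →
  (∀ τ ∈ sphere (0 : ℂ) 1, (Φ τ)ᴴ * a τ * Φ τ = 1) →
  Dqm (K * B) Φ ∧ ∀ τ ∈ closedBall (0 : ℂ) 1, ∀ i j, ‖Φ τ i j‖ ≤ K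

/-- Wiener-Masani factorisation of `exp l • a`, `l ≥ 0` a scalar weight; the bounds for
`Φ = Ψ⁻¹` depend only on the lower bound `μ` and on the derivative bound `B` -/
def WMF : Prop := ∀ (q : Type) [Fintype q] [DecidableEq q] (μ : ℝ), 0 < μ → ∃ K : ℝ, 0 ≤ K ∧
  ∀ (a : ℂ → Matrix q q ℂ) (l : ℂ → ℝ) (B : ℝ), Dqm B a → Dq B l →
  (∀ τ ∈ sphere (0 : ℂ) 1, 0 ≤ l τ ∧ (a τ - (μ : ℂ) • (1 : Matrix q q ℂ)).PosSemidef) →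
  ∃ Φ Ψ : ℂ → Matrix q q ℂ, HWm Φ ∧ HWm Ψ ∧
    (∀ τ ∈ closedBall (0 : ℂ) 1, Φ τ * Ψ τ = 1) ∧
    (∀ τ ∈ sphere (0 : ℂ) 1, (Ψ τ)ᴴ * Ψ τ = ((Real.exp (l τ) : ℝ) : ℂ) • a τ) ∧
    Dqm (K * B) Φ ∧ ∀ τ ∈ closedBall (0 : ℂ) 1, ∀ i j, ‖Φ τ i j‖ ≤ K

/-! ### the key estimate -/

/-- an inner frame is controlled by its maximal minors -/
def KEY1 : Prop := ∀ (ι : Type) [Fintype ι] (q : ℕ), ∃ K : ℝ, 0 ≤ K ∧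
  ∀ (Θ : ℂ → Matrix ι (Fin q) ℂ) (B : ℝ), HWm Θ →
  (∀ τ ∈ sphere (0 : ℂ) 1, (Θ τ)ᴴ * Θ τ = 1) →
  (∀ J : Fin q → ι, Dq B fun τ => ((Θ τ).submatrix J id).det) → Dqm (K * B) Θ

/-- the maximal minors of an inner frame are controlled by the boundary data `j` -/
def KEY2 : Prop := ∀ (ι : Type) [Fintype ι] (q : ℕ) (c C : ℝ), 0 < c →
  ∃ K c' : ℝ, 0 ≤ K ∧ 0 < c' ∧
  ∀ (Θ : ℂ → Matrix ι (Fin q) ℂ) (j : (Fin q → ι) → ℂ → ℂ) (B : ℝ),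
  (∀ a b, DA fun τ => Θ τ a b) → (∀ τ ∈ sphere (0 : ℂ) 1, (Θ τ)ᴴ * Θ τ = 1) →
  (∀ J, DA (j J)) → (∀ J, Dq B (j J)) →
  (∀ τ ∈ sphere (0 : ℂ) 1, (∀ J, ‖j J τ‖ ≤ C) ∧ ∃ J, c ≤ ‖j J τ‖) →
  (∀ τ ∈ closedBall (0 : ℂ) 1, (∃ J, j J τ ≠ 0) ∧
    ∃ v : ℂ, v ≠ 0 ∧ ∀ J, ((Θ τ).submatrix J id).det = v * j J τ) →
  (∀ J : Fin q → ι, Dq (K * B) fun τ => ((Θ τ).submatrix J id).det) ∧
  ∀ τ ∈ closedBall (0 : ℂ) 1, ∀ (J : Fin q → ι) (w : Fin q → ℂ),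
    c' * ‖j J τ‖ * ‖w‖ ≤ ‖Θ τ *ᵥ w‖

/-- 2.5 and 2.6 together. The columns of `A τ` span a space of dimension `q`; `j τ` is its
Pluecker vector up to a factor. Then there is a frame `A X`, isometric on the circle, whose
derivative is controlled by the boundary values of `j` only. -/
def ISO : Prop := ∀ (ι κ : Type) [Fintype ι] [Fintype κ] (q : ℕ) (c C : ℝ), 0 < c →
  ∃ K c' : ℝ, 0 ≤ K ∧ 0 < c' ∧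
  ∀ (A : ℂ → Matrix ι κ ℂ) (j : (Fin q → ι) → ℂ → ℂ) (B : ℝ),
  HWm A → (∀ τ ∈ closedBall (0 : ℂ) 1, (A τ).rank = q) → (∀ J, DA (j J)) → (∀ J, Dq B (j J)) →
  (∀ τ ∈ sphere (0 : ℂ) 1, (∀ J, ‖j J τ‖ ≤ C) ∧ ∃ J, c ≤ ‖j J τ‖) →
  (∀ τ ∈ closedBall (0 : ℂ) 1, (∃ J, j J τ ≠ 0) ∧ ∀ X : Matrix κ (Fin q) ℂ,
    ∃ v : ℂ, ∀ J, ((A τ * X).submatrix J id).det = v * j J τ) →
  ∃ (X : ℂ → Matrix κ (Fin q) ℂ) (Y : ℂ → Matrix (Fin q) ι ℂ), HWm X ∧ HWm Y ∧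
    (∀ τ ∈ closedBall (0 : ℂ) 1, Y τ * (A τ * X τ) = 1 ∧ A τ * X τ * Y τ * A τ = A τ) ∧
    (∀ τ ∈ sphere (0 : ℂ) 1, (A τ * X τ)ᴴ * (A τ * X τ) = 1) ∧
    Dqm (K * B) (fun τ => A τ * X τ) ∧
    ∀ τ ∈ closedBall (0 : ℂ) 1, (∀ a b, ‖(A τ * X τ) a b‖ ≤ 1) ∧
      ∀ (J : Fin q → ι) (w : Fin q → ℂ), c' * ‖j J τ‖ * ‖w‖ ≤ ‖(A τ * X τ) *ᵥ w‖

end Vale.Agent.P253W.WM
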