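import Vale.Agent.P253W.WM.Alg

/-!
# P253W, block WM: further statements
-/

open Complex Metric Set Filter Topology
open scoped Matrix ComplexConjugate ComplexOrder

noncomputable section

namespace Vale.Agent.P253W.WM

/-- Parseval -/
def PARS : Prop := ∀ u : ℂ → ℂ, ContinuousOn u (sphere 0 1) →
  HasSum (fun k : ℤ => ‖fc u k‖ ^ 2) (l2 u)

/-- `W^{1,2}` in terms of Fourier coefficients -/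
def ENQ : Prop := ∀ (u : ℂ → ℂ) (A : ℝ), Dq A u ↔ 0 ≤ A ∧ ContinuousOn u (sphere 0 1) ∧
  Summable (fun k : ℤ => (k : ℝ) ^ 2 * ‖fc u k‖ ^ 2) ∧ en u ≤ A ^ 2

/-- Taylor series on the closed disc, absolutely convergent -/
def TAY : Prop := ∀ f : ℂ → ℂ, HW f → Summable (fun k : ℕ => ‖fc f k‖) ∧
  ∀ τ ∈ closedBall (0 : ℂ) 1, HasSum (fun k : ℕ => fc f k * τ ^ k) (f τ)

/-- the coefficient space -/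
abbrev Hs (ι : Type) : Type := lp (fun _ : ℕ × ι => ℂ) 2

/-- the gauge is the norm of a Hilbert space -/
def EMB : Prop := ∀ (ι : Type) [Fintype ι] (N : ℝ), 0 < N → ∃ Φ : (ℂ → ι → ℂ) → Hs ι,
  (∀ f g, HWv f → HWv g → Φ (f - g) = Φ f - Φ g) ∧
  (∀ (c : ℂ) f, HWv f → Φ (c • f) = c • Φ f) ∧
  (∀ f, HWv f → ‖Φ f‖ ^ 2 = gq N f) ∧
  (∀ f g, HWv f → HWv g → EqOn f g (closedBall 0 1) → Φ f = Φ g) ∧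
  (∀ y, ∃ g, HWv g ∧ Φ g = y) ∧
  (∀ f, HWv f → Dqv (N * ‖Φ f‖) f ∧
    ∀ τ ∈ closedBall (0 : ℂ) 1, ∀ i, ‖f τ i‖ ≤ (1 + 2 * N) * ‖Φ f‖) ∧
  ∀ f (A B : ℝ), HWv f → Dqv A f → (∀ τ ∈ sphere (0 : ℂ) 1, ∀ i, ‖f τ i‖ ≤ B) →
    ‖Φ f‖ ≤ Fintype.card ι * (B + A / N)

/-- the first order term of the gauge along a holomorphic family -/
def GAU2 : Prop := ∀ (ι : Type) [Fintype ι] (N r A : ℝ) (Y : ℂ → ℂ → ι → ℂ) (g : ℂ → ι → ℂ),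
  0 < N → 0 < r → HWv g →
  (∀ s ∈ ball (0 : ℂ) r, HWv (Y s) ∧ Dqv A (Y s) ∧ ∀ τ ∈ sphere (0 : ℂ) 1, ∀ i, ‖Y s τ i‖ ≤ A) →
  (∀ τ ∈ closedBall (0 : ℂ) 1, ∀ i, DifferentiableOn ℂ (fun s => Y s τ i) (ball 0 r)) →
  ∃ (α : ℂ) (C : ℝ),
    ‖α‖ ^ 2 ≤ gq N (Y 0 - g) * gq N (fun τ i => deriv (fun s => Y s τ i) 0) ∧
    ∀ s : ℂ, ‖s‖ < r / 2 →
      |gq N (Y s - g) - gq N (Y 0 - g) - 2 * (α * s).re| ≤ C * ‖s‖ ^ 2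

/-- Taylor expansion of a holomorphic family in the `W^{1,2}` norm -/
def FAM : Prop := ∀ (r A : ℝ) (Y : ℂ → ℂ → ℂ), 0 < r →
  (∀ s ∈ ball (0 : ℂ) r, HW (Y s) ∧ Dq A (Y s) ∧ ∀ τ ∈ sphere (0 : ℂ) 1, ‖Y s τ‖ ≤ A) →
  (∀ τ ∈ closedBall (0 : ℂ) 1, DifferentiableOn ℂ (fun s => Y s τ) (ball 0 r)) →
  ∃ C : ℝ, 0 ≤ C ∧ ∀ s0 ∈ ball (0 : ℂ) (r / 2), HW (fun τ => deriv (fun s => Y s τ) s0) ∧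
    ∀ s ∈ ball s0 (r / 8),
      Dq (C * ‖s - s0‖ ^ 2) (fun τ => Y s τ - Y s0 τ - (s - s0) * deriv (fun s => Y s τ) s0) ∧
      ∀ τ ∈ sphere (0 : ℂ) 1,
        ‖Y s τ - Y s0 τ - (s - s0) * deriv (fun s => Y s τ) s0‖ ≤ C * ‖s - s0‖ ^ 2

/-- the maximal minors of an inner frame are controlled by the boundary data `j` -/
def KEY3 : Prop := ∀ (ι : Type) [Fintype ι] (q : ℕ) (c C : ℝ), 0 < c → ∃ K : ℝ, 0 ≤ K ∧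
  ∀ (Θ : ℂ → Matrix ι (Fin q) ℂ) (j : (Fin q → ι) → ℂ → ℂ) (v : ℂ → ℂ) (B : ℝ),
  (∀ τ ∈ sphere (0 : ℂ) 1, (Θ τ)ᴴ * Θ τ = 1) → (∀ J, Dq B (j J)) →
  (∀ τ ∈ sphere (0 : ℂ) 1, (∀ J, ‖j J τ‖ ≤ C) ∧ ∃ J, c ≤ ‖j J τ‖) →
  DA v → (∀ τ ∈ closedBall (0 : ℂ) 1, v τ ≠ 0) →
  (∀ τ ∈ sphere (0 : ℂ) 1, ∀ J, ((Θ τ).submatrix J id).det = v τ * j J τ) →
  ∀ J : Fin q → ι, Dq (K * B) fun τ => ((Θ τ).submatrix J id).det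

/-- 2.5 and 2.6 together; only the rows `ι` are controlled on the circle -/
def ISO2 : Prop := ∀ (ι : Type) [Fintype ι] (q : ℕ) (c C : ℝ), 0 < c → ∃ K : ℝ, 0 ≤ K ∧
  ∀ (ι₂ κ : Type) [Fintype ι₂] [Fintype κ] (A : ℂ → Matrix (ι ⊕ ι₂) κ ℂ)
    (j : (Fin q → ι ⊕ ι₂) → ℂ → ℂ) (B : ℝ),
  HWm A → (∀ τ ∈ closedBall (0 : ℂ) 1, (A τ).rank = q) → (∀ J, DA (j J)) →
  (∀ J : Fin q → ι, Dq B (j (Sum.inl ∘ J))) →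
  (∀ τ ∈ sphere (0 : ℂ) 1, (∀ J : Fin q → ι, ‖j (Sum.inl ∘ J) τ‖ ≤ C) ∧
    ∃ J : Fin q → ι, c ≤ ‖j (Sum.inl ∘ J) τ‖) →
  (∀ τ ∈ closedBall (0 : ℂ) 1, (∃ J, j J τ ≠ 0) ∧ ∀ X : Matrix κ (Fin q) ℂ,
    ∃ v : ℂ, ∀ J, ((A τ * X).submatrix J id).det = v * j J τ) →
  ∃ (X : ℂ → Matrix κ (Fin q) ℂ) (Y : ℂ → Matrix (Fin q) (ι ⊕ ι₂) ℂ), HWm X ∧ HWm Y ∧
    (∀ τ ∈ closedBall (0 : ℂ) 1, Y τ * (A τ * X τ) = 1 ∧ A τ * X τ * Y τ * A τ = A τ) ∧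
    (∀ τ ∈ sphere (0 : ℂ) 1, (A τ * X τ).toRows₁ᴴ * (A τ * X τ).toRows₁ = 1) ∧
    Dqm (K * B) fun τ => (A τ * X τ).toRows₁

/-- Wiener-Masani, existence only -/
def WME : Prop := ∀ (q : Type) [Fintype q] [DecidableEq q] (a : ℂ → Matrix q q ℂ),
  (∀ i j, W12 fun τ => a τ i j) → (∀ τ ∈ sphere (0 : ℂ) 1, (a τ).PosDef) →
  ∃ Φ Ψ : ℂ → Matrix q q ℂ, HWm Φ ∧ HWm Ψ ∧ (∀ τ ∈ closedBall (0 : ℂ) 1, Φ τ * Ψ τ = 1) ∧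
    ∀ τ ∈ sphere (0 : ℂ) 1, (Ψ τ)ᴴ * Ψ τ = a τ

/-- one sided Cauchy-Binet formula -/
def CB1 : Prop := ∀ (ι : Type) [Fintype ι] (q : ℕ) (Y : Matrix (Fin q) ι ℂ)
  (X : Matrix ι (Fin q) ℂ),
  (Y * X).det = ∑ J : Fin q → ι, (∏ a, Y a (J a)) * (X.submatrix J id).det

/-- Cauchy-Binet formula -/
def CB2 : Prop := ∀ (ι : Type) [Fintype ι] (q : ℕ) (X : Matrix ι (Fin q) ℂ),
  ((∑ J : Fin q → ι, ‖(X.submatrix J id).det‖ ^ 2 : ℝ) : ℂ) = (q.factorial : ℂ) * (Xᴴ * X).det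

end Vale.Agent.P253W.WM
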