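import Vale.Agent.P253W.WM.Defs2

/-!
# P253W, block WM: second order Taylor estimate, one sided Cauchy-Binet
-/

open Complex Metric Set Filter Topology
open scoped Matrix ComplexConjugate ComplexOrder

noncomputable section

namespace Vale.Agent.P253W.WM

theorem norm_dslope_le {E : Type*} [NormedAddCommGroup E] [NormedSpace ℂ E]
    {g : ℂ → E} {c : ℂ} {R A : ℝ} (hg : DifferentiableOn ℂ g (ball c R))
    (hA : ∀ z ∈ ball c R, ‖g z‖ ≤ A) {s : ℂ} (hs : s ∈ ball c R) :
    ‖dslope g c s‖ ≤ 2 * A / R := by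
  have hc : c ∈ ball c R := mem_ball_self (pos_of_mem_ball hs)
  refine Complex.norm_dslope_le_div_of_mapsTo_ball hg (fun z hz => ?_) hs
  rw [mem_closedBall, dist_eq_norm]
  have := norm_sub_le (g z) (g c)
  linarith [hA z hz, hA c hc]

/-- first order Taylor estimate -/
theorem taylor1 {E : Type*} [NormedAddCommGroup E] [NormedSpace ℂ E]
    {g : ℂ → E} {c : ℂ} {R A : ℝ} (hg : DifferentiableOn ℂ g (ball c R))
    (hA : ∀ z ∈ ball c R, ‖g z‖ ≤ A) {s : ℂ} (hs : s ∈ ball c R) :
    ‖g s - g c‖ ≤ 2 * A / R * ‖s - c‖ := by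
  rw [← sub_smul_dslope g c s, norm_smul, mul_comm]
  exact mul_le_mul_of_nonneg_right (norm_dslope_le hg hA hs) (norm_nonneg _)

/-- second order Taylor estimate -/
theorem taylor2 {E : Type*} [NormedAddCommGroup E] [NormedSpace ℂ E] [CompleteSpace E]
    {g : ℂ → E} {c : ℂ} {R A : ℝ} (hg : DifferentiableOn ℂ g (ball c R))
    (hA : ∀ z ∈ ball c R, ‖g z‖ ≤ A) {s : ℂ} (hs : s ∈ ball c R) :
    ‖g s - g c - (s - c) • deriv g c‖ ≤ 4 * A / R ^ 2 * ‖s - c‖ ^ 2 := by
  have hR : 0 < R := pos_of_mem_ball hs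
  have h1 : DifferentiableOn ℂ (dslope g c) (ball c R) :=
    (Complex.differentiableOn_dslope (ball_mem_nhds c hR)).2 hg
  have h2 := taylor1 h1 (fun z hz => norm_dslope_le hg hA hz) hs
  rw [← sub_smul_dslope g c s, ← dslope_same, ← smul_sub, norm_smul]
  calc _ ≤ ‖s - c‖ * (2 * (2 * A / R) / R * ‖s - c‖) := by gcongr
    _ = _ := by field_simp; ring

theorem cb1' {ι n : Type*} [Fintype ι] [Fintype n] [DecidableEq n] (Y : Matrix n ι ℂ)
    (X : Matrix ι n ℂ) :
    (Y * X).det = ∑ J : n → ι, (∏ a, Y a (J a)) * (X.submatrix J id).det := by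
  rw [← Matrix.det_transpose]
  simp only [Matrix.det_apply', Matrix.transpose_apply, Matrix.mul_apply, Finset.prod_univ_sum,
    Finset.mul_sum, Fintype.piFinset_univ]
  rw [Finset.sum_comm]
  refine Finset.sum_congr rfl fun J _ => ?_
  have := Matrix.det_apply' (X.submatrix J id)ᵀ
  rw [Matrix.det_transpose, Matrix.det_apply'] at this
  rw [← Finset.mul_sum, this, Finset.mul_sum]
  refine Finset.sum_congr rfl fun σ _ => ?_
  simp only [Matrix.transpose_apply, Matrix.submatrix_apply, id, Finset.prod_mul_distrib]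
  ring

theorem cb1 : CB1 := fun _ _ _ Y X => cb1' Y X

theorem norm_det_le {n : Type*} [Fintype n] [DecidableEq n] {A : Matrix n n ℂ} {x : ℝ}
    (h : ∀ i j, ‖A i j‖ ≤ x) :
    ‖A.det‖ ≤ (Fintype.card n).factorial * x ^ Fintype.card n := by
  have := Matrix.det_le (abv := IsAbsoluteValue.toAbsoluteValue (norm : ℂ → ℝ)) (A := A) (x := x) h
  simpa using this

/-- the determinant near the identity -/
theorem det_one_add_le (n : Type*) [Fintype n] [DecidableEq n] : ∃ C : ℝ, 0 ≤ C ∧
    ∀ (N : Matrix n n ℂ) (y : ℝ), 0 ≤ y → y ≤ 1 → (∀ i j, ‖N i j‖ ≤ y) →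
      ‖(1 + N).det - 1 - N.trace‖ ≤ C * y ^ 2 := by
  refine ⟨(Fintype.card n).factorial * 3 ^ Fintype.card n, by positivity, fun N y h0 h1 hN => ?_⟩
  rcases h0.eq_or_lt with rfl | hy
  · have : N = 0 := by
      ext i j
      simpa using hN i j
    simp [this]
  set M : Matrix n n ℂ := ((y : ℂ))⁻¹ • N with hM
  have hy' : (y : ℂ) ≠ 0 := by exact_mod_cast hy.ne'
  have hNM : N = (y : ℂ) • M := by rw [hM, smul_smul, mul_inv_cancel₀ hy', one_smul]
  have hM1 : ∀ i j, ‖M i j‖ ≤ 1 := fun i j => by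
    rw [hM, Matrix.smul_apply, norm_smul, norm_inv, Complex.norm_real, Real.norm_of_nonneg h0,
      inv_mul_le_iff₀ hy, mul_one]
    exact hN i j
  obtain ⟨p, hp⟩ : ∃ p : Polynomial ℂ, ∀ r : ℂ,
      (1 + r • M).det = 1 + M.trace * r + p.eval r * r ^ 2 :=
    ⟨_, fun r => Matrix.det_one_add_smul r M⟩
  have hg : (fun r : ℂ => (1 + r • M).det) = fun r => 1 + M.trace * r + p.eval r * r ^ 2 :=
    funext hp
  have hd : HasDerivAt (fun r : ℂ => (1 + r • M).det) M.trace 0 := by
    rw [hg]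
    have := (((hasDerivAt_id (0 : ℂ)).const_mul M.trace).const_add 1).fun_add
      ((p.hasDerivAt 0).fun_mul (hasDerivAt_pow 2 (0 : ℂ)))
    exact this.congr_deriv (by simp)
  have hdi : DifferentiableOn ℂ (fun r : ℂ => (1 + r • M).det) (ball 0 2) := by
    rw [hg]
    exact (((differentiable_id.const_mul _).const_add 1).add
      (p.differentiable.mul (differentiable_pow 2))).differentiableOn
  have := taylor2 (A := (Fintype.card n).factorial * 3 ^ Fintype.card n) hdi (s := (y : ℂ))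
    (fun z hz => norm_det_le fun i j => ?_) (by simpa [abs_of_pos hy] using by linarith)
  · rw [hd.deriv] at this
    simp only [zero_smul, add_zero, Matrix.det_one, sub_zero, Complex.norm_real,
      Real.norm_of_nonneg h0] at this
    rw [hNM, Matrix.trace_smul]
    refine this.trans (le_of_eq ?_)
    ring
  · have hz2 : ‖z‖ ≤ 2 := by simpa using (mem_ball_zero_iff.1 hz).le
    rw [Matrix.add_apply, Matrix.smul_apply]
    refine (norm_add_le _ _).trans ?_
    have h3 : ‖(1 : Matrix n n ℂ) i j‖ ≤ 1 := by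
      rw [Matrix.one_apply]
      split_ifs <;> simp
    have h4 : ‖z • M i j‖ ≤ 2 * 1 := by
      rw [norm_smul]
      gcongr
      exact hM1 i j
    linarith

end Vale.Agent.P253W.WM
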